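import Crest.Agent.S0170_Defs

/-! Global solution curves (Picard-Lindelöf) for S0170. -/

set_option autoImplicit false
open scoped ContDiff NNReal
open Crest.AnalysisR.BoxFlow Set

namespace Crest.Agent.S0170

theorem exists_flow (U : Field) (hU : ContDiff ℝ ∞ U) (hc : HasCompactSupport U)
    (h0 : ∀ p : ℝ × (Fin 3 → ℝ), p.1 ∉ Set.Icc (1 / 4 : ℝ) (3 / 4) → U p = 0) (x : Fin 3 → ℝ) :
    ∃ γ : ℝ → (Fin 3 → ℝ), γ 0 = x ∧ ∀ t, HasDerivAt γ (U (t, γ t)) t := by
  obtain ⟨K, hK⟩ := ContDiff.lipschitzWith_of_hasCompactSupport hc hU (by simp)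
  obtain ⟨L0, hL0⟩ := hc.exists_bound_of_continuous hU.continuous
  set L : ℝ≥0 := ⟨max L0 0, le_max_right _ _⟩ with hLdef
  have hL : ∀ p, ‖U p‖ ≤ L := fun p => (hL0 p).trans (le_max_left _ _)
  have hpl : IsPicardLindelof (fun t y => U (t, y)) (tmin := 0) (tmax := 1)
      ⟨0, by simp⟩ x L 0 L K := by
    refine ⟨?_, ?_, ?_, ?_⟩
    · intro t _
      apply LipschitzWith.lipschitzOnWith
      apply LipschitzWith.of_dist_le_mul
      intro y z
      have := hK.dist_le_mul (t, y) (t, z)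
      simpa [Prod.dist_eq] using this
    · intro y _
      exact (hU.continuous.comp (by fun_prop : Continuous fun t : ℝ => (t, y))).continuousOn
    · intro t _ y _
      exact hL _
    · simp
  obtain ⟨α, hα0, hα⟩ := hpl.exists_eq_forall_mem_Icc_hasDerivWithinAt₀
  simp only at hα0
  have hαc : ContinuousOn α (Icc 0 1) := fun t ht => (hα t ht).continuousWithinAt
  have hαd : ∀ t ∈ Ioo (0 : ℝ) 1, HasDerivAt α (U (t, α t)) t := fun t ht =>
    (hα t ⟨ht.1.le, ht.2.le⟩).hasDerivAt (Icc_mem_nhds ht.1 ht.2)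
  -- constancy before 1/4
  have hleft : ∀ t ∈ Icc (0 : ℝ) (1 / 4), t < 1 / 4 → α t = x := by
    intro t ht ht'
    have := constant_of_has_deriv_right_zero (f := α) (a := 0) (b := t)
      (hαc.mono (Icc_subset_Icc le_rfl (by linarith [ht.2]))) ?_ t ⟨ht.1, le_rfl⟩
    · rw [this, hα0]
    · intro s hs
      have hs1 : s ∈ Icc (0 : ℝ) 1 := ⟨hs.1, by linarith [hs.2, ht.2]⟩
      have h1 := hα s hs1
      rw [h0 (s, α s) (by simp only [mem_Icc, not_and, not_le]; intro h; linarith [hs.2])] at h1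
      have h2 : HasDerivWithinAt α 0 (Ico s 1) s :=
        h1.mono (fun u hu => ⟨hs.1.trans hu.1, hu.2.le⟩)
      exact (hasDerivWithinAt_inter (Iio_mem_nhds (by linarith [hs.2, ht.2] : s < 1))).1
        (by rwa [inter_comm, Iio_inter_Ici] )
  have hright : ∀ t ∈ Icc (3 / 4 : ℝ) 1, 3 / 4 < t → α t = α 1 := by
    intro t ht ht'
    have := constant_of_has_deriv_right_zero (f := α) (a := t) (b := 1)
      (hαc.mono (Icc_subset_Icc (by linarith [ht.1]) le_rfl)) ?_ 1 ⟨ht.2, le_rfl⟩
    · exact this.symm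
    · intro s hs
      have hs1 : s ∈ Icc (0 : ℝ) 1 := ⟨by linarith [hs.1, ht.1], hs.2.le⟩
      have h1 := hα s hs1
      rw [h0 (s, α s) (by simp only [mem_Icc, not_and, not_le]; intro h; linarith [hs.1])] at h1
      have h2 : HasDerivWithinAt α 0 (Ico s 1) s :=
        h1.mono (fun u hu => ⟨hs1.1.trans hu.1, hu.2.le⟩)
      exact (hasDerivWithinAt_inter (Iio_mem_nhds hs.2)).1
        (by rwa [inter_comm, Iio_inter_Ici])
  set γ : ℝ → (Fin 3 → ℝ) := fun t => α (max 0 (min t 1)) with hγ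
  have g1 : ∀ t < (1 / 4 : ℝ), γ t = x := by
    intro t ht
    simp only [hγ]
    rcases le_total t 0 with h | h
    · rw [min_eq_left (by linarith), max_eq_left h, hα0]
    · rw [min_eq_left (by linarith), max_eq_right h]
      exact hleft t ⟨h, ht.le⟩ ht
  have g2 : ∀ t > (3 / 4 : ℝ), γ t = α 1 := by
    intro t ht
    simp only [hγ]
    rcases le_total t 1 with h | h
    · rw [min_eq_left h, max_eq_right (by linarith)]
      exact hright t ⟨ht.le, h⟩ ht
    · rw [min_eq_right h, max_eq_right (by norm_num)]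
  have g3 : ∀ t ∈ Ioo (0 : ℝ) 1, γ t = α t := by
    intro t ht
    simp only [hγ]
    rw [min_eq_left ht.2.le, max_eq_right ht.1.le]
  refine ⟨γ, g1 0 (by norm_num), fun t => ?_⟩
  rcases lt_or_ge t (1 / 4) with h | h
  · rw [h0 (t, γ t) (by simp only [mem_Icc, not_and, not_le]; intro h'; linarith)]
    have : γ =ᶠ[nhds t] fun _ => x := by
      filter_upwards [Iio_mem_nhds h] with s hs using g1 s hs
    exact (hasDerivAt_const t x).congr_of_eventuallyEq this
  rcases lt_or_ge (3 / 4) t with h' | h'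
  · rw [h0 (t, γ t) (by simp only [mem_Icc, not_and, not_le]; intro _; exact h')]
    have : γ =ᶠ[nhds t] fun _ => α 1 := by
      filter_upwards [Ioi_mem_nhds h'] with s hs using g2 s hs
    exact (hasDerivAt_const t (α 1)).congr_of_eventuallyEq this
  · have ht : t ∈ Ioo (0 : ℝ) 1 := ⟨by linarith, by linarith⟩
    rw [g3 t ht]
    have : γ =ᶠ[nhds t] α := by
      filter_upwards [Ioo_mem_nhds ht.1 ht.2] with s hs using g3 s hs
    exact (hαd t ht).congr_of_eventuallyEq this

end Crest.Agent.S0170
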