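import Crest.Agent.S0170_Defs

/-! S0170, package G3d (second half): disjoint rational boxes can be inflated and stay separated. -/

set_option autoImplicit false
open scoped ContDiff
open Crest.AnalysisR.BoxFlow

namespace Crest.Agent.S0170

namespace Inflate

/-- disjoint boxes are separated along some coordinate -/
theorem exists_gap (c w c' w' : Fin 3 → ℚ) (hw : ∀ m, 0 < w m) (hw' : ∀ m, 0 < w' m)
    (hd : Disjoint (box c w) (box c' w')) : ∃ m, w m + w' m < |c m - c' m| := by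
  by_contra hcon
  push Not at hcon
  have hR : ∀ m, |(c m : ℝ) - (c' m : ℝ)| ≤ (w m : ℝ) + (w' m : ℝ) := by
    intro m
    have := hcon m
    exact_mod_cast this
  have hwR : ∀ m, (0 : ℝ) < w m := fun m => by exact_mod_cast hw m
  have hwR' : ∀ m, (0 : ℝ) < w' m := fun m => by exact_mod_cast hw' m
  let x : Fin 3 → ℝ := fun m => max ((c m : ℝ) - w m) ((c' m : ℝ) - w' m)
  have h1 : x ∈ box c w := by
    intro m
    have h := abs_le.1 (hR m)
    rw [abs_le]
    constructor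
    · have : (c m : ℝ) - w m ≤ x m := le_max_left _ _
      linarith
    · have : x m ≤ (c m : ℝ) + w m := max_le (by linarith [hwR m]) (by linarith [h.1])
      linarith
  have h2 : x ∈ box c' w' := by
    intro m
    have h := abs_le.1 (hR m)
    rw [abs_le]
    constructor
    · have : (c' m : ℝ) - w' m ≤ x m := le_max_right _ _
      linarith
    · have : x m ≤ (c' m : ℝ) + w' m := max_le (by linarith [h.2]) (by linarith [hwR' m])
      linarith
  exact (Set.disjoint_left.1 hd h1) h2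

/-- a positive parameter that works for each member of a finite family works uniformly -/
theorem exists_pos_forall {ι : Type} [Finite ι] (P : ι → ℚ → Prop)
    (hmono : ∀ p t t', P p t → 0 < t' → t' ≤ t → P p t')
    (hex : ∀ p, ∃ t, 0 < t ∧ P p t) : ∃ t, 0 < t ∧ ∀ p, P p t := by
  choose f hf0 hf using hex
  rcases isEmpty_or_nonempty ι with hι | hι
  · exact ⟨1, one_pos, fun p => (hι.false p).elim⟩
  · obtain ⟨p₀, hp₀⟩ := Finite.exists_min f
    exact ⟨f p₀, hf0 p₀, fun p => hmono p (f p) (f p₀) (hf p) (hf0 p₀) (hp₀ p)⟩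

theorem sep_mono (c w c' w' : Fin 3 → ℚ) (hw : ∀ m, 0 < w m) (hw' : ∀ m, 0 < w' m) (t t' : ℚ)
    (h : Sep t c (fun m => (1 + t) * w m) c' (fun m => (1 + t) * w' m)) (_h0 : 0 < t')
    (hle : t' ≤ t) : Sep t' c (fun m => (1 + t') * w m) c' (fun m => (1 + t') * w' m) := by
  obtain ⟨m, hm⟩ := h
  refine ⟨m, lt_of_le_of_lt ?_ hm⟩
  have h1 := hw m
  have h2 := hw' m
  show (1 + t') * w m + (1 + t') * w' m + t' ≤ (1 + t) * w m + (1 + t) * w' m + t
  nlinarith

theorem exists_sep (c w c' w' : Fin 3 → ℚ) (hw : ∀ m, 0 < w m) (hw' : ∀ m, 0 < w' m)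
    (hd : Disjoint (box c w) (box c' w')) :
    ∃ t, 0 < t ∧ Sep t c (fun m => (1 + t) * w m) c' (fun m => (1 + t) * w' m) := by
  obtain ⟨m, hm⟩ := exists_gap c w c' w' hw hw' hd
  have h1 := hw m
  have h2 := hw' m
  set g := |c m - c' m| - (w m + w' m) with hg
  have hg0 : 0 < g := by rw [hg]; linarith
  have hs : 0 < 2 * (w m + w' m + 1) := by linarith
  refine ⟨g / (2 * (w m + w' m + 1)), div_pos hg0 hs, m, ?_⟩
  have e : g / (2 * (w m + w' m + 1)) * (w m + w' m + 1) = g / 2 := by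
    field_simp
  show (1 + g / (2 * (w m + w' m + 1))) * w m + (1 + g / (2 * (w m + w' m + 1))) * w' m +
    g / (2 * (w m + w' m + 1)) < |c m - c' m|
  have e2 : (1 + g / (2 * (w m + w' m + 1))) * w m + (1 + g / (2 * (w m + w' m + 1))) * w' m +
      g / (2 * (w m + w' m + 1)) = w m + w' m + g / (2 * (w m + w' m + 1)) * (w m + w' m + 1) := by
    ring
  rw [e2, e]
  linarith

end Inflate

variable {n : ℕ}

theorem exists_inflate (a b h k : Fin n → Fin 3 → ℚ) (hh : ∀ i j, 0 < h i j) (hk : ∀ i j, 0 < k i j)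
    (ha : Pairwise fun i i' => Disjoint (box (a i) (h i)) (box (a i') (h i')))
    (hb : Pairwise fun i i' => Disjoint (box (b i) (k i)) (box (b i') (k i'))) :
    ∃ ε δ : ℚ, 0 < ε ∧ 0 < δ ∧
      (∀ i j, i ≠ j → Sep δ (a i) (fun m => (1 + ε) * h i m) (a j) (fun m => (1 + ε) * h j m)) ∧
      (∀ i j, i ≠ j → Sep δ (b i) (fun m => (1 + ε) * k i m) (b j) (fun m => (1 + ε) * k j m)) := by
  obtain ⟨t, ht, hP⟩ := Inflate.exists_pos_forall (ι := Fin n × Fin n)
    (fun p t => p.1 ≠ p.2 →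
      Sep t (a p.1) (fun m => (1 + t) * h p.1 m) (a p.2) (fun m => (1 + t) * h p.2 m) ∧
      Sep t (b p.1) (fun m => (1 + t) * k p.1 m) (b p.2) (fun m => (1 + t) * k p.2 m))
    (fun p t t' hp h0 hle hne =>
      ⟨Inflate.sep_mono _ _ _ _ (hh p.1) (hh p.2) t t' (hp hne).1 h0 hle,
        Inflate.sep_mono _ _ _ _ (hk p.1) (hk p.2) t t' (hp hne).2 h0 hle⟩)
    (fun p => by
      by_cases hne : p.1 = p.2
      · exact ⟨1, one_pos, fun h' => absurd hne h'⟩
      · obtain ⟨t₁, h₁, s₁⟩ := Inflate.exists_sep _ _ _ _ (hh p.1) (hh p.2) (ha hne)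
        obtain ⟨t₂, h₂, s₂⟩ := Inflate.exists_sep _ _ _ _ (hk p.1) (hk p.2) (hb hne)
        refine ⟨min t₁ t₂, lt_min h₁ h₂, fun _ => ⟨?_, ?_⟩⟩
        · exact Inflate.sep_mono _ _ _ _ (hh p.1) (hh p.2) t₁ _ s₁ (lt_min h₁ h₂) (min_le_left _ _)
        · exact Inflate.sep_mono _ _ _ _ (hk p.1) (hk p.2) t₂ _ s₂ (lt_min h₁ h₂) (min_le_right _ _))
  exact ⟨t, t, ht, ht, fun i j hij => (hP (i, j) hij).1, fun i j hij => (hP (i, j) hij).2⟩

end Crest.Agent.S0170
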