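import Crest.Agent.S0170_Defs

/-! S0170, package G3a: elementary facts on moves (`Reach.symm`, `dcfg_mem_box`,
`not_mem_box_of_sep`, `reach_translate`). -/

set_option autoImplicit false
open scoped ContDiff
open Crest.AnalysisR.BoxFlow

namespace Crest.Agent.S0170

section G3
variable {n : ℕ}

namespace Moves

theorem shear_shear (a b : Fin 3) (hab : a ≠ b) (s c0 τ : ℝ) (y : Fin 3 → ℝ) :
    shear a b (-s) (-c0) τ (shear a b s c0 1 y) = shear a b s c0 (1 - τ) y := by
  unfold shear
  funext j
  by_cases hj : j = b
  · subst hj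
    simp only [Function.update_self, Function.update_of_ne hab]
    ring
  · simp only [Function.update_of_ne hj]

theorem shear_zero (a b : Fin 3) (s c0 : ℝ) (y : Fin 3 → ℝ) : shear a b s c0 0 y = y := by
  unfold shear
  simp

theorem step_symm {B : Fin n → Set (Fin 3 → ℝ)} {T T' : Cfg n} (h : Step B T T') :
    Step B T' T := by
  obtain ⟨i, a, b, hab, s, c0, r, w, hw, δ, hδ, hin, hout⟩ := h
  have key := Step.mk (B := B) (Function.update T i (fun x => shear a b s c0 1 (T i x))) i a b hab
    (-s) (-c0) r w hw δ hδ ?_ ?_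
  · have e : Function.update (Function.update T i (fun x => shear a b s c0 1 (T i x))) i
        (fun x => shear a b ((-s : ℚ) : ℝ) ((-c0 : ℚ) : ℝ) 1
          (Function.update T i (fun x => shear a b s c0 1 (T i x)) i x)) = T := by
      funext j
      by_cases hj : j = i
      · subst hj
        simp only [Function.update_self]
        funext x
        push_cast
        rw [shear_shear a b hab, sub_self, shear_zero]
      · simp only [Function.update_of_ne hj]
    rw [e] at key
    exact key
  · intro x hx τ hτ
    simp only [Function.update_self]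
    push_cast
    rw [shear_shear a b hab]
    exact hin x hx (1 - τ) ⟨by linarith [hτ.2], by linarith [hτ.1]⟩
  · intro j hj x hx
    rw [Function.update_of_ne hj]
    exact hout j hj x hx

theorem exists_ne (b : Fin 3) : ∃ a : Fin 3, a ≠ b := by
  revert b; decide

end Moves

theorem Reach.symm {B : Fin n → Set (Fin 3 → ℝ)} {T T' : Cfg n} (h : Reach B T T') :
    Reach B T' T := by
  induction h with
  | refl => exact Relation.ReflTransGen.refl
  | tail _ hstep ih => exact Relation.ReflTransGen.head (Moves.step_symm hstep) ih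

theorem dcfg_mem_box (a c ρ h : Fin n → Fin 3 → ℚ) (hρ : ∀ i j, 0 < ρ i j) (i : Fin n)
    (x : Fin 3 → ℝ) (hx : x ∈ box (a i) (h i)) :
    dcfg a c ρ i x ∈ box (c i) (fun j => ρ i j * h i j) := by
  intro j
  have h1 : |x j - (a i j : ℝ)| ≤ (h i j : ℝ) := hx j
  have h2 : (0 : ℝ) < ρ i j := by exact_mod_cast hρ i j
  unfold dcfg
  simp only [add_sub_cancel_left, abs_mul, abs_of_pos h2]
  push_cast
  exact mul_le_mul_of_nonneg_left h1 h2.le

theorem not_mem_box_of_sep {δ : ℚ} {c₁ w₁ c₂ w₂ : Fin 3 → ℚ} (hsep : Sep δ c₁ w₁ c₂ w₂)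
    {y : Fin 3 → ℝ} (hy : y ∈ box c₂ w₂) : y ∉ box c₁ (fun m => w₁ m + δ) := by
  obtain ⟨m, hm⟩ := hsep
  intro hy'
  have h1 : |y m - (c₂ m : ℝ)| ≤ (w₂ m : ℝ) := hy m
  have h2 : |y m - (c₁ m : ℝ)| ≤ ((w₁ m + δ : ℚ) : ℝ) := hy' m
  have h3 : ((w₁ m + w₂ m + δ : ℚ) : ℝ) < ((|c₁ m - c₂ m| : ℚ) : ℝ) := by exact_mod_cast hm
  push_cast at h2 h3
  have h4 : |(c₁ m : ℝ) - c₂ m| ≤ |y m - (c₁ m : ℝ)| + |y m - (c₂ m : ℝ)| := by
    have : (c₁ m : ℝ) - c₂ m = -(y m - (c₁ m : ℝ)) + (y m - (c₂ m : ℝ)) := by ring
    rw [this]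
    refine (abs_add_le _ _).trans ?_
    rw [abs_neg]
  linarith

theorem reach_translate (a h c ρ : Fin n → Fin 3 → ℚ) (hh : ∀ i j, 0 < h i j)
    (hρ : ∀ i j, 0 < ρ i j) (i : Fin n) (b : Fin 3) (d δ : ℚ) (hδ : 0 < δ)
    (hsep : ∀ j, j ≠ i → Sep δ (Function.update (c i) b (c i b + d / 2))
      (Function.update (fun m => ρ i m * h i m) b (ρ i b * h i b + |d| / 2))
      (c j) (fun m => ρ j m * h j m)) :
    Reach (fun i => box (a i) (h i)) (dcfg a c ρ)
      (dcfg a (Function.update c i (Function.update (c i) b (c i b + d))) ρ) := by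
  obtain ⟨a', ha'⟩ := Moves.exists_ne b
  have key := Step.mk (B := fun i => box (a i) (h i)) (dcfg a c ρ) i a' b ha' 0 d
    (Function.update (c i) b (c i b + d / 2))
    (Function.update (fun m => ρ i m * h i m) b (ρ i b * h i b + |d| / 2)) ?_ δ hδ ?_ ?_
  · have e : Function.update (dcfg a c ρ) i
        (fun x => shear a' b ((0 : ℚ) : ℝ) (d : ℝ) 1 (dcfg a c ρ i x)) =
        dcfg a (Function.update c i (Function.update (c i) b (c i b + d))) ρ := by
      funext j
      by_cases hj : j = i
      · subst hj
        simp only [Function.update_self]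
        funext x m
        unfold shear dcfg
        by_cases hm : m = b
        · subst hm
          simp only [Function.update_self]
          push_cast
          ring
        · simp only [Function.update_of_ne hm, Function.update_self]
      · simp only [Function.update_of_ne hj]
        funext x m
        unfold dcfg
        simp only [Function.update_of_ne hj]
    rw [e] at key
    exact Relation.ReflTransGen.single key
  · intro m
    by_cases hm : m = b
    · subst hm
      simp only [Function.update_self]
      have := mul_pos (hρ i m) (hh i m)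
      have := abs_nonneg d
      linarith
    · simp only [Function.update_of_ne hm]
      exact mul_pos (hρ i m) (hh i m)
  · intro x hx τ hτ m
    have hmem := dcfg_mem_box a c ρ h hρ i x hx m
    simp only [] at hmem
    unfold shear
    by_cases hm : m = b
    · subst hm
      simp only [Function.update_self]
      push_cast at hmem ⊢
      have h1 : dcfg a c ρ i x m + τ * (0 * dcfg a c ρ i x a' + (d : ℝ)) - ((c i m : ℝ) + d / 2) =
          (dcfg a c ρ i x m - c i m) + (τ - 1 / 2) * d := by ring
      rw [h1]
      refine (abs_add_le _ _).trans ?_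
      have h2 : |(τ - 1 / 2) * (d : ℝ)| ≤ |(d : ℝ)| / 2 := by
        rw [abs_mul]
        have : |τ - 1 / 2| ≤ 1 / 2 := by
          rw [abs_le]
          constructor <;> linarith [hτ.1, hτ.2]
        nlinarith [abs_nonneg (d : ℝ)]
      linarith
    · simp only [Function.update_of_ne hm]
      exact hmem
  · intro j hj x hx
    exact not_mem_box_of_sep (hsep j hj) (dcfg_mem_box a c ρ h hρ j x hx)

end G3

end Crest.Agent.S0170
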