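import Mathlib

/-!
# The Fabius step function (helper library for S0170)

We construct a function `S : ℝ → ℝ` with `0 ≤ S ≤ 1`, `S = 0` on `(-∞,0]`, `S = 1` on `[1,∞)`,
`S (1/2) = 1/2` and `S' x = 2 (S (2x) - S (2x-1))`.
-/

set_option autoImplicit false

namespace Crest.Agent.S0170F

open MeasureTheory intervalIntegral Set Filter Topology

noncomputable section

/-- clamp to `[0,1]`. -/
def clamp (x : ℝ) : ℝ := max 0 (min 1 x)

/-- The averaging operator. -/
def T (g : ℝ → ℝ) (x : ℝ) : ℝ := ∫ u in (0:ℝ)..1, g (2 * x - u)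

/-- The class of admissible step functions. -/
structure InK (g : ℝ → ℝ) : Prop where
  cont : Continuous g
  nonneg : ∀ x, 0 ≤ g x
  le_one : ∀ x, g x ≤ 1
  zero : ∀ x, x ≤ 0 → g x = 0
  one : ∀ x, 1 ≤ x → g x = 1
  int : ∫ u in (0:ℝ)..1, g u = 1 / 2

/-- primitive -/
def prim (g : ℝ → ℝ) (y : ℝ) : ℝ := ∫ u in (0:ℝ)..y, g u

lemma T_eq_prim {g : ℝ → ℝ} (hg : Continuous g) (x : ℝ) :
    T g x = prim g (2 * x) - prim g (2 * x - 1) := by
  unfold T prim
  rw [intervalIntegral.integral_comp_sub_left (fun u => g u) (2 * x)]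
  rw [sub_zero]
  rw [intervalIntegral.integral_interval_sub_left]
  · exact hg.intervalIntegrable _ _
  · exact hg.intervalIntegrable _ _

lemma prim_hasDerivAt {g : ℝ → ℝ} (hg : Continuous g) (y : ℝ) :
    HasDerivAt (prim g) (g y) y := by
  unfold prim
  exact intervalIntegral.integral_hasDerivAt_right (hg.intervalIntegrable _ _)
    (hg.stronglyMeasurableAtFilter _ _) hg.continuousAt

lemma T_hasDerivAt {g : ℝ → ℝ} (hg : Continuous g) (x : ℝ) :
    HasDerivAt (T g) (2 * (g (2 * x) - g (2 * x - 1))) x := by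
  have h1 : HasDerivAt (fun x : ℝ => prim g (2 * x)) (g (2 * x) * 2) x := by
    have hin : HasDerivAt (fun x : ℝ => 2 * x) 2 x := by
      simpa using (hasDerivAt_id x).const_mul (2:ℝ)
    exact (prim_hasDerivAt hg (2 * x)).comp x hin
  have h2 : HasDerivAt (fun x : ℝ => prim g (2 * x - 1)) (g (2 * x - 1) * 2) x := by
    have hin : HasDerivAt (fun x : ℝ => 2 * x - 1) 2 x := by
      simpa using ((hasDerivAt_id x).const_mul (2:ℝ)).sub_const 1
    exact (prim_hasDerivAt hg (2 * x - 1)).comp x hin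
  have h3 := h1.sub h2
  have h4 : T g = fun x => prim g (2 * x) - prim g (2 * x - 1) := funext (T_eq_prim hg)
  rw [h4]
  have h5 : 2 * (g (2 * x) - g (2 * x - 1)) = g (2 * x) * 2 - g (2 * x - 1) * 2 := by ring
  rw [h5]
  exact h3

lemma prim_of_nonpos {g : ℝ → ℝ} (hz : ∀ x, x ≤ 0 → g x = 0) {y : ℝ} (hy : y ≤ 0) :
    prim g y = 0 := by
  unfold prim
  have : ∀ u ∈ Set.uIcc 0 y, g u = 0 := by
    intro u hu
    rw [Set.uIcc_of_ge hy] at hu
    exact hz u hu.2
  rw [intervalIntegral.integral_congr this]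
  simp

lemma prim_of_one_le {g : ℝ → ℝ} (hg : InK g) {y : ℝ} (hy : 1 ≤ y) :
    prim g y = y - 1 / 2 := by
  unfold prim
  rw [← intervalIntegral.integral_add_adjacent_intervals (b := 1)
    (hg.cont.intervalIntegrable _ _) (hg.cont.intervalIntegrable _ _), hg.int]
  have : ∀ u ∈ Set.uIcc 1 y, g u = 1 := by
    intro u hu
    rw [Set.uIcc_of_le hy] at hu
    exact hg.one u hu.1
  rw [intervalIntegral.integral_congr this]
  simp
  ring

lemma prim_continuous {g : ℝ → ℝ} (hg : Continuous g) : Continuous (prim g) :=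
  continuous_iff_continuousAt.2 fun y => (prim_hasDerivAt hg y).continuousAt

lemma T_continuous {g : ℝ → ℝ} (hg : Continuous g) : Continuous (T g) :=
  continuous_iff_continuousAt.2 fun y => (T_hasDerivAt hg y).continuousAt

lemma InK.T_int {g : ℝ → ℝ} (hg : InK g) : ∫ x in (0:ℝ)..1, T g x = 1 / 2 := by
  have hP := prim_continuous hg.cont
  have h4 : T g = fun x => prim g (2 * x) - prim g (2 * x - 1) := funext (T_eq_prim hg.cont)
  rw [h4]
  have c1 : Continuous fun x : ℝ => prim g (2 * x) := hP.comp (by fun_prop)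
  have c2 : Continuous fun x : ℝ => prim g (2 * x - 1) := hP.comp (by fun_prop)
  have h5 : ∫ x in (0:ℝ)..1, (fun x => prim g (2 * x) - prim g (2 * x - 1)) x
      = (∫ x in (0:ℝ)..1, prim g (2 * x)) - ∫ x in (0:ℝ)..1, prim g (2 * x - 1) :=
    intervalIntegral.integral_sub (c1.intervalIntegrable _ _) (c2.intervalIntegrable _ _)
  rw [h5]
  rw [intervalIntegral.integral_comp_mul_left (fun y => prim g y) (by norm_num : (2:ℝ) ≠ 0)]
  rw [intervalIntegral.integral_comp_mul_sub (fun y => prim g y) (by norm_num : (2:ℝ) ≠ 0) 1]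
  have e1 : (2:ℝ) * 0 = 0 := by norm_num
  have e2 : (2:ℝ) * 1 = 2 := by norm_num
  have e3 : (0:ℝ) - 1 = -1 := by norm_num
  have e4 : (2:ℝ) - 1 = 1 := by norm_num
  rw [e1, e2, e3, e4]
  have a1 : ∫ y in (0:ℝ)..2, prim g y = (∫ y in (0:ℝ)..1, prim g y) + ∫ y in (1:ℝ)..2, prim g y :=
    (intervalIntegral.integral_add_adjacent_intervals (hP.intervalIntegrable _ _)
      (hP.intervalIntegrable _ _)).symm
  have a2 : ∫ y in (-1:ℝ)..1, prim g y
      = (∫ y in (-1:ℝ)..0, prim g y) + ∫ y in (0:ℝ)..1, prim g y :=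
    (intervalIntegral.integral_add_adjacent_intervals (hP.intervalIntegrable _ _)
      (hP.intervalIntegrable _ _)).symm
  have a3 : ∫ y in (-1:ℝ)..0, prim g y = 0 := by
    have : ∀ u ∈ Set.uIcc (-1:ℝ) 0, prim g u = 0 := by
      intro u hu
      rw [Set.uIcc_of_le (by norm_num)] at hu
      exact prim_of_nonpos hg.zero hu.2
    rw [intervalIntegral.integral_congr this]
    simp
  have a4 : ∫ y in (1:ℝ)..2, prim g y = 1 := by
    have : ∀ u ∈ Set.uIcc (1:ℝ) 2, prim g u = u - 1 / 2 := by
      intro u hu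
      rw [Set.uIcc_of_le (by norm_num)] at hu
      exact prim_of_one_le hg hu.1
    rw [intervalIntegral.integral_congr this]
    rw [intervalIntegral.integral_sub (intervalIntegral.intervalIntegrable_id)
      intervalIntegrable_const]
    simp
    norm_num
  rw [a1, a2, a3, a4]
  simp
  ring

lemma InK.T {g : ℝ → ℝ} (hg : InK g) : InK (T g) where
  cont := T_continuous hg.cont
  nonneg x := intervalIntegral.integral_nonneg (by norm_num) (fun u _ => hg.nonneg _)
  le_one x := by
    have h : (∫ u in (0:ℝ)..1, g (2 * x - u)) ≤ ∫ u in (0:ℝ)..1, (1:ℝ) := by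
      apply intervalIntegral.integral_mono_on (by norm_num)
      · exact (hg.cont.comp (by fun_prop : Continuous fun u : ℝ => 2 * x - u)).intervalIntegrable _ _
      · exact intervalIntegrable_const
      · intro u _
        exact hg.le_one _
    simpa [Crest.Agent.S0170F.T] using h
  zero x hx := by
    have : ∀ u ∈ Set.uIcc (0:ℝ) 1, g (2 * x - u) = 0 := by
      intro u hu
      rw [Set.uIcc_of_le (by norm_num)] at hu
      exact hg.zero _ (by linarith [hu.1])
    unfold Crest.Agent.S0170F.T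
    rw [intervalIntegral.integral_congr this]
    simp
  one x hx := by
    have : ∀ u ∈ Set.uIcc (0:ℝ) 1, g (2 * x - u) = 1 := by
      intro u hu
      rw [Set.uIcc_of_le (by norm_num)] at hu
      exact hg.one _ (by linarith [hu.2])
    unfold Crest.Agent.S0170F.T
    rw [intervalIntegral.integral_congr this]
    simp
  int := hg.T_int

lemma prim_sub_le {g h : ℝ → ℝ} (hg : InK g) (hh : InK h) {ε : ℝ}
    (hε : ∀ x, |g x - h x| ≤ ε) (y : ℝ) : |prim g y - prim h y| ≤ ε / 2 := by
  have hε0 : 0 ≤ ε := le_trans (abs_nonneg _) (hε 0)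
  rcases le_total y 0 with hy0 | hy0
  · rw [prim_of_nonpos hg.zero hy0, prim_of_nonpos hh.zero hy0]
    simp; linarith
  rcases le_total 1 y with hy1 | hy1
  · rw [prim_of_one_le hg hy1, prim_of_one_le hh hy1]
    simp; linarith
  rcases le_total y (1 / 2) with hy2 | hy2
  · have e : prim g y - prim h y = ∫ u in (0:ℝ)..y, (g u - h u) := by
      unfold prim
      rw [intervalIntegral.integral_sub (hg.cont.intervalIntegrable _ _)
        (hh.cont.intervalIntegrable _ _)]
    rw [e]
    have := intervalIntegral.norm_integral_le_of_norm_le_const (a := 0) (b := y)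
      (f := fun u => g u - h u) (C := ε) (fun u _ => by simpa using hε u)
    rw [Real.norm_eq_abs, sub_zero, abs_of_nonneg hy0] at this
    nlinarith
  · have eg : prim g y = 1 / 2 - ∫ u in y..(1:ℝ), g u := by
      have := intervalIntegral.integral_add_adjacent_intervals (μ := volume) (a := 0) (b := y)
        (c := 1) (hg.cont.intervalIntegrable _ _) (hg.cont.intervalIntegrable _ _)
      rw [hg.int] at this
      unfold prim
      linarith
    have eh : prim h y = 1 / 2 - ∫ u in y..(1:ℝ), h u := by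
      have := intervalIntegral.integral_add_adjacent_intervals (μ := volume) (a := 0) (b := y)
        (c := 1) (hh.cont.intervalIntegrable _ _) (hh.cont.intervalIntegrable _ _)
      rw [hh.int] at this
      unfold prim
      linarith
    have e : prim g y - prim h y = - ∫ u in y..(1:ℝ), (g u - h u) := by
      rw [intervalIntegral.integral_sub (hg.cont.intervalIntegrable _ _)
        (hh.cont.intervalIntegrable _ _), eg, eh]
      ring
    rw [e, abs_neg]
    have := intervalIntegral.norm_integral_le_of_norm_le_const (a := y) (b := 1)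
      (f := fun u => g u - h u) (C := ε) (fun u _ => by simpa using hε u)
    rw [Real.norm_eq_abs, abs_of_nonneg (by linarith : (0:ℝ) ≤ 1 - y)] at this
    nlinarith

lemma T_contr {g h : ℝ → ℝ} (hg : InK g) (hh : InK h) {ε : ℝ}
    (hε : ∀ x, |g x - h x| ≤ ε) (x : ℝ) : |T g x - T h x| ≤ ε / 2 := by
  rw [T_eq_prim hg.cont, T_eq_prim hh.cont]
  rcases le_total (2 * x) 1 with hx | hx
  · rw [prim_of_nonpos hg.zero (by linarith : 2 * x - 1 ≤ 0),
      prim_of_nonpos hh.zero (by linarith : 2 * x - 1 ≤ 0)]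
    simpa using prim_sub_le hg hh hε (2 * x)
  · rw [prim_of_one_le hg hx, prim_of_one_le hh hx]
    have := prim_sub_le hg hh hε (2 * x - 1)
    rw [abs_sub_comm] at this
    convert this using 2
    ring

lemma clamp_inK : InK clamp where
  cont := by unfold clamp; fun_prop
  nonneg x := le_max_left _ _
  le_one x := max_le (by norm_num) (min_le_left _ _)
  zero x hx := by
    unfold clamp
    rw [min_eq_right (by linarith), max_eq_left hx]
  one x hx := by
    unfold clamp
    rw [min_eq_left hx, max_eq_right (by norm_num)]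
  int := by
    have : ∀ u ∈ Set.uIcc (0:ℝ) 1, clamp u = u := by
      intro u hu
      rw [Set.uIcc_of_le (by norm_num)] at hu
      unfold clamp
      rw [min_eq_right hu.2, max_eq_right hu.1]
    rw [intervalIntegral.integral_congr this]
    simp

/-- The iterates. -/
def Sm (m : ℕ) : ℝ → ℝ := T^[m] clamp

lemma Sm_succ (m : ℕ) : Sm (m + 1) = T (Sm m) := by
  unfold Sm
  rw [Function.iterate_succ_apply']

lemma Sm_inK (m : ℕ) : InK (Sm m) := by
  induction m with
  | zero => exact clamp_inK
  | succ m ih => rw [Sm_succ]; exact ih.T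

lemma InK.abs_sub_le_one {g h : ℝ → ℝ} (hg : InK g) (hh : InK h) (x : ℝ) : |g x - h x| ≤ 1 := by
  rw [abs_le]
  constructor <;> linarith [hg.nonneg x, hg.le_one x, hh.nonneg x, hh.le_one x]

lemma Sm_step (m : ℕ) (x : ℝ) : |Sm (m + 1) x - Sm m x| ≤ (1 / 2) ^ m := by
  induction m generalizing x with
  | zero => simpa using (Sm_inK 1).abs_sub_le_one (Sm_inK 0) x
  | succ m ih =>
    have := T_contr (Sm_inK (m + 1)) (Sm_inK m) ih x
    rw [← Sm_succ (m + 1), ← Sm_succ m] at this
    rw [pow_succ]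
    linarith

lemma Sm_cauchy (x : ℝ) : CauchySeq (fun m => Sm m x) := by
  apply cauchySeq_of_le_geometric (1 / 2) 1 (by norm_num)
  intro n
  rw [Real.dist_eq, abs_sub_comm, one_mul]
  exact Sm_step n x

/-- The Fabius step function. -/
def S (x : ℝ) : ℝ := Classical.choose (cauchySeq_tendsto_of_complete (Sm_cauchy x))

lemma S_tendsto (x : ℝ) : Tendsto (fun m => Sm m x) atTop (𝓝 (S x)) :=
  Classical.choose_spec (cauchySeq_tendsto_of_complete (Sm_cauchy x))

lemma Sm_sub_S (m : ℕ) (x : ℝ) : |Sm m x - S x| ≤ 2 * (1 / 2) ^ m := by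
  have := dist_le_of_le_geometric_of_tendsto (f := fun m => Sm m x) (1 / 2) 1 (by norm_num)
    (by
      intro n
      rw [Real.dist_eq, abs_sub_comm, one_mul]
      exact Sm_step n x) (S_tendsto x) m
  rw [Real.dist_eq] at this
  calc |Sm m x - S x| ≤ 1 * (1 / 2) ^ m / (1 - 1 / 2) := this
    _ = 2 * (1 / 2) ^ m := by ring

lemma exists_small {ε : ℝ} (hε : 0 < ε) : ∃ m : ℕ, 2 * (1 / 2 : ℝ) ^ m < ε := by
  obtain ⟨m, hm⟩ := exists_pow_lt_of_lt_one (by linarith : 0 < ε / 2) (by norm_num : (1 / 2 : ℝ) < 1)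
  exact ⟨m, by linarith⟩

lemma S_continuous : Continuous S := by
  have hu : TendstoUniformly (fun m => Sm m) S atTop := by
    rw [Metric.tendstoUniformly_iff]
    intro ε hε
    obtain ⟨m, hm⟩ := exists_small hε
    filter_upwards [Filter.eventually_ge_atTop m] with k hk x
    rw [Real.dist_eq, abs_sub_comm]
    calc |Sm k x - S x| ≤ 2 * (1 / 2) ^ k := Sm_sub_S k x
      _ ≤ 2 * (1 / 2) ^ m := by
        have : (1 / 2 : ℝ) ^ k ≤ (1 / 2) ^ m :=
          pow_le_pow_of_le_one (by norm_num) (by norm_num) hk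
        linarith
      _ < ε := hm
  exact hu.continuous (Filter.Frequently.of_forall fun m => (Sm_inK m).cont)

lemma S_inK : InK S where
  cont := S_continuous
  nonneg x := ge_of_tendsto' (S_tendsto x) fun m => (Sm_inK m).nonneg x
  le_one x := le_of_tendsto' (S_tendsto x) fun m => (Sm_inK m).le_one x
  zero x hx := by
    have h1 : Tendsto (fun m => Sm m x) atTop (𝓝 0) := by
      have : (fun m => Sm m x) = fun _ => (0:ℝ) := funext fun m => (Sm_inK m).zero x hx
      rw [this]; exact tendsto_const_nhds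
    exact tendsto_nhds_unique (S_tendsto x) h1
  one x hx := by
    have h1 : Tendsto (fun m => Sm m x) atTop (𝓝 1) := by
      have : (fun m => Sm m x) = fun _ => (1:ℝ) := funext fun m => (Sm_inK m).one x hx
      rw [this]; exact tendsto_const_nhds
    exact tendsto_nhds_unique (S_tendsto x) h1
  int := by
    apply eq_of_forall_dist_le
    intro ε hε
    obtain ⟨m, hm⟩ := exists_small hε
    rw [Real.dist_eq, ← (Sm_inK m).int, ← intervalIntegral.integral_sub
      (S_continuous.intervalIntegrable _ _) ((Sm_inK m).cont.intervalIntegrable _ _)]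
    have := intervalIntegral.norm_integral_le_of_norm_le_const (a := 0) (b := 1)
      (f := fun u => S u - Sm m u) (C := 2 * (1 / 2) ^ m)
      (fun u _ => by rw [Real.norm_eq_abs, abs_sub_comm]; exact Sm_sub_S m u)
    rw [Real.norm_eq_abs] at this
    simp only [sub_zero, abs_one, mul_one] at this
    linarith

lemma T_S : T S = S := by
  funext x
  apply eq_of_forall_dist_le
  intro ε hε
  obtain ⟨m, hm⟩ := exists_small hε
  rw [Real.dist_eq]
  have h1 : |T S x - T (Sm m) x| ≤ 2 * (1 / 2) ^ m / 2 :=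
    T_contr S_inK (Sm_inK m) (fun y => by rw [abs_sub_comm]; exact Sm_sub_S m y) x
  have h2 := Sm_sub_S (m + 1) x
  rw [Sm_succ, pow_succ] at h2
  have h3 : |T S x - S x| ≤ |T S x - T (Sm m) x| + |T (Sm m) x - S x| := abs_sub_le _ _ _
  have h4 : (0:ℝ) ≤ (1 / 2) ^ m := by positivity
  linarith

theorem S_nonneg (x : ℝ) : 0 ≤ S x := S_inK.nonneg x
theorem S_le_one (x : ℝ) : S x ≤ 1 := S_inK.le_one x
theorem S_of_nonpos {x : ℝ} (hx : x ≤ 0) : S x = 0 := S_inK.zero x hx
theorem S_of_one_le {x : ℝ} (hx : 1 ≤ x) : S x = 1 := S_inK.one x hx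
theorem abs_S_le_one (x : ℝ) : |S x| ≤ 1 := by
  rw [abs_of_nonneg (S_nonneg x)]; exact S_le_one x

theorem S_hasDerivAt (x : ℝ) : HasDerivAt S (2 * (S (2 * x) - S (2 * x - 1))) x := by
  have := T_hasDerivAt S_continuous x
  rwa [T_S] at this

theorem S_half : S (1 / 2) = 1 / 2 := by
  have h : T S (1 / 2) = 1 / 2 := by
    rw [T_eq_prim S_continuous]
    have e1 : (2:ℝ) * (1 / 2) = 1 := by norm_num
    rw [e1, prim_of_one_le S_inK le_rfl, prim_of_nonpos S_inK.zero (by norm_num)]
    norm_num
  rwa [T_S] at h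

theorem S_sub_Sm (m : ℕ) (x : ℝ) : |S x - Sm m x| ≤ (1 / 2) ^ m := by
  induction m generalizing x with
  | zero => simpa using S_inK.abs_sub_le_one (Sm_inK 0) x
  | succ m ih =>
    have := T_contr S_inK (Sm_inK m) ih x
    rw [T_S, ← Sm_succ] at this
    rw [pow_succ]
    linarith

theorem S_differentiable : Differentiable ℝ S := fun x => (S_hasDerivAt x).differentiableAt

theorem S_deriv : deriv S = fun x => 2 * (S (2 * x) - S (2 * x - 1)) :=
  funext fun x => (S_hasDerivAt x).deriv

theorem S_contDiff_nat (n : ℕ) : ContDiff ℝ n S := by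
  induction n with
  | zero => exact contDiff_zero.2 S_continuous
  | succ n ih =>
    have : ((n + 1 : ℕ) : WithTop ℕ∞) = (n : WithTop ℕ∞) + 1 := by push_cast; rfl
    rw [this, contDiff_succ_iff_deriv]
    refine ⟨S_differentiable, by simp, ?_⟩
    rw [S_deriv]
    have h1 : ContDiff ℝ n (fun x : ℝ => S (2 * x)) := ih.comp (by fun_prop)
    have h2 : ContDiff ℝ n (fun x : ℝ => S (2 * x - 1)) := ih.comp (by fun_prop)
    exact contDiff_const.mul (h1.sub h2)

theorem S_contDiff : ContDiff ℝ (⊤ : ℕ∞) S := contDiff_infty.2 S_contDiff_nat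

end

end Crest.Agent.S0170F
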