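import Mathlib
import Crest.Prelude.Def_BoxFlow
import Crest.Agent.S0170_Fabius

/-! Shared definitions for S0170 (box flow). Only definitions, no proofs. -/

set_option autoImplicit false
open scoped ContDiff
open Crest.AnalysisR.BoxFlow

namespace Crest.Agent.S0170

/-! ### one-dimensional building blocks -/

/-- smooth step (the Fabius function of `S0170_Fabius.lean`): `0` on `(-∞,0]`, `1` on `[1,∞)`,
values in `[0,1]`.  Only `S0170_Stp`, `S0170_StpVal`, `S0170_StpBound` may unfold it. -/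
noncomputable def stp (x : ℝ) : ℝ := Crest.Agent.S0170F.S x

/-- plateau: `1` on `[lo-δ/3, hi+δ/3]`, `0` outside `(lo-5δ/6, hi+5δ/6)` (for `lo ≤ hi`, `0 < δ`). -/
noncomputable def plat (lo hi δ x : ℝ) : ℝ :=
  stp (3 * (x - lo) / δ + 2) - stp (3 * (x - hi) / δ - 3 / 2)

/-- affine function times plateau. -/
noncomputable def apl (A B lo hi δ x : ℝ) : ℝ := (A + B * x) * plat lo hi δ x

/-- time reparametrisation: `0` for `t ≤ α + (β-α)/6`, `1` for `t ≥ α + 2(β-α)/3`. -/
noncomputable def tim (α β t : ℝ) : ℝ := stp (3 * (t - α) / (β - α) - 1)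

/-! ### fields -/

/-- `θ(t) * ∏ i, g i (x i)`. -/
noncomputable def tens (θ : ℝ → ℝ) (g : Fin 3 → ℝ → ℝ) (p : ℝ × (Fin 3 → ℝ)) : ℝ :=
  θ p.1 * ∏ i : Fin 3, g i (p.2 i)

/-- replace the `c`-th function by its derivative. -/
noncomputable def dAt (c : Fin 3) (f : Fin 3 → ℝ → ℝ) : Fin 3 → ℝ → ℝ :=
  fun i => if i = c then deriv (f i) else f i

/-- The field `θ(t) * (∂_c ψ e_b - ∂_b ψ e_c)` with stream function `ψ(x) = ∏ i, f i (x i)`. -/
noncomputable def curlField (b c : Fin 3) (θ : ℝ → ℝ) (f : Fin 3 → ℝ → ℝ) : Field :=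
  fun p j => if j = b then tens θ (dAt c f) p else if j = c then - tens θ (dAt b f) p else 0

/-- the three one-dimensional profiles of an elementary move. -/
noncomputable def prof (a b : Fin 3) (s c0 : ℚ) (r w : Fin 3 → ℚ) (δ : ℚ) : Fin 3 → ℝ → ℝ :=
  fun i => if i = a then apl c0 s (r i - w i) (r i + w i) δ
    else if i = b then plat (r i - w i) (r i + w i) δ
    else apl 0 1 (r i - w i) (r i + w i) δ

/-- The elementary field: on `box r w` it equals `tim' (t) * (s * x a + c0) e_b`,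
it vanishes outside `box r (w+δ)` and for `t ∉ (α,β)`.  (`a b c` pairwise distinct.) -/
noncomputable def elemField (a b c : Fin 3) (s c0 : ℚ) (r w : Fin 3 → ℚ) (δ α β : ℚ) : Field :=
  curlField b c (deriv (tim α β)) (prof a b s c0 r w δ)

/-! ### moves and configurations -/

/-- shear / translation: `x b ↦ x b + τ * (s * x a + c0)`. -/
noncomputable def shear (a b : Fin 3) (s c0 τ : ℝ) (x : Fin 3 → ℝ) : Fin 3 → ℝ :=
  Function.update x b (x b + τ * (s * x a + c0))

/-- a configuration: the current placement map of every body. -/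
abbrev Cfg (n : ℕ) : Type := Fin n → (Fin 3 → ℝ) → (Fin 3 → ℝ)

/-- One elementary move of body `i` inside the corridor `box r w`, all other bodies staying outside
`box r (w+δ)`. -/
inductive Step {n : ℕ} (B : Fin n → Set (Fin 3 → ℝ)) : Cfg n → Cfg n → Prop
  | mk (T : Cfg n) (i : Fin n) (a b : Fin 3) (hab : a ≠ b) (s c0 : ℚ) (r w : Fin 3 → ℚ)
      (hw : ∀ m, 0 < w m) (δ : ℚ) (hδ : 0 < δ)
      (hin : ∀ x ∈ B i, ∀ τ ∈ Set.Icc (0 : ℝ) 1, shear a b s c0 τ (T i x) ∈ box r w)
      (hout : ∀ j, j ≠ i → ∀ x ∈ B j, T j x ∉ box r (fun m => w m + δ)) :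
      Step B T (Function.update T i (fun x => shear a b s c0 1 (T i x)))

/-- reachability by finitely many elementary moves. -/
def Reach {n : ℕ} (B : Fin n → Set (Fin 3 → ℝ)) : Cfg n → Cfg n → Prop :=
  Relation.ReflTransGen (Step B)

/-- diagonal configuration: body `i` is placed by `x ↦ c i + ρ i * (x - a i)` (componentwise). -/
def dcfg {n : ℕ} (a c ρ : Fin n → Fin 3 → ℚ) : Cfg n :=
  fun i x j => (c i j : ℝ) + (ρ i j : ℝ) * (x j - (a i j : ℝ))

/-- `δ`-separation of two rational boxes (centre, half-widths). -/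
def Sep (δ : ℚ) (c₁ w₁ c₂ w₂ : Fin 3 → ℚ) : Prop := ∃ m, w₁ m + w₂ m + δ < |c₁ m - c₂ m|

/-- the properties of a field that are closed under sums. -/
def Good (U : Field) : Prop :=
  ContDiff ℝ ∞ U ∧ HasCompactSupport U ∧ Effective U ∧ ∀ p, spaceDiv U p = 0

/-! ### computable reals -/

/-- `F` is a computable real-valued function on a `Primcodable` type. -/
def CompR {α : Type} [Primcodable α] (F : α → ℝ) : Prop :=
  ∃ e : α × ℕ → ℚ, Computable e ∧ ∀ a n, |F a - (e (a, n) : ℝ)| ≤ 1 / ((n : ℝ) + 1)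

/-- a smooth function of one variable all of whose derivatives are uniformly computable at rational
points and bounded by a computable sequence. -/
structure Eff1 (f : ℝ → ℝ) : Prop where
  smooth : ContDiff ℝ ∞ f
  comp : CompR (fun x : ℕ × ℚ => iteratedDeriv x.1 f (x.2 : ℝ))
  bound : ∃ b : ℕ → ℕ, Computable b ∧ ∀ k x, |iteratedDeriv k f x| ≤ (b k : ℝ)

/-- scalar version of `mixedDeriv`. -/
noncomputable def smd : List (Fin 4) → (ℝ × (Fin 3 → ℝ) → ℝ) → (ℝ × (Fin 3 → ℝ) → ℝ)
  | [], g => g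
  | d :: ds, g => fun p => fderiv ℝ (smd ds g) p (direction d)

end Crest.Agent.S0170
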