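import Mathlib
import Crest.Agent.S0170_Defs
import Crest.Agent.S0170_Moves

set_option autoImplicit false
open Crest.AnalysisR.BoxFlow

namespace Crest.Agent.S0170

variable {n : ℕ}

/-- parking positions -/
def park (D Y Z : ℚ) (n : ℕ) : Fin n → Fin 3 → ℚ := fun i => ![D * (i : ℕ), Y, Z]

namespace Park

/-- move the `b`-th coordinate of the centre of body `i` to the value `v`. -/
theorem move (a h cc ρ : Fin n → Fin 3 → ℚ) (hh : ∀ i j, 0 < h i j)
    (hρ : ∀ i j, 0 < ρ i j) (i : Fin n) (b : Fin 3) (v δ : ℚ) (hδ : 0 < δ)
    (hsep : ∀ j, j ≠ i → (∃ m, m ≠ b ∧ ρ i m * h i m + ρ j m * h j m + δ < |cc i m - cc j m|) ∨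
      (ρ i b * h i b + ρ j b * h j b + δ < cc i b - cc j b ∧ cc i b ≤ v)) :
    Reach (fun i => box (a i) (h i)) (dcfg a cc ρ)
      (dcfg a (Function.update cc i (Function.update (cc i) b v)) ρ) := by
  have key := reach_translate a h cc ρ hh hρ i b (v - cc i b) δ hδ ?_
  · have e : cc i b + (v - cc i b) = v := by ring
    rwa [e] at key
  · intro j hj
    rcases hsep j hj with ⟨m, hm, hlt⟩ | ⟨hlt, hle⟩
    · refine ⟨m, ?_⟩
      rw [Function.update_of_ne hm, Function.update_of_ne hm]
      exact hlt
    · refine ⟨b, ?_⟩
      rw [Function.update_self, Function.update_self]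
      have h0 : 0 ≤ v - cc i b := by linarith
      rw [abs_of_nonneg h0]
      have : 0 ≤ cc i b + (v - cc i b) / 2 - cc j b := by
        have := hρ i b; have := hh i b; have := hρ j b; have := hh j b
        have h1 : 0 < ρ i b * h i b := by positivity
        have h2 : 0 < ρ j b * h j b := by positivity
        linarith
      rw [abs_of_nonneg this]
      linarith

end Park

open Park in
theorem reach_park (a h c ρ : Fin n → Fin 3 → ℚ) (hh : ∀ i j, 0 < h i j) (hρ : ∀ i j, 0 < ρ i j)
    (δ L W D Y Z : ℚ) (hδ : 0 < δ)
    (hsep : ∀ i j, i ≠ j → Sep δ (c i) (fun m => ρ i m * h i m) (c j) (fun m => ρ j m * h j m))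
    (hL : ∀ i m, |c i m| + ρ i m * h i m ≤ L) (hW : ∀ i m, ρ i m * h i m ≤ W)
    (hD : 2 * W + δ < D) (hY : L + 2 * W + δ < Y) (hZ : L + 2 * W + δ < Z) :
    Reach (fun i => box (a i) (h i)) (dcfg a c ρ) (dcfg a (park D Y Z n) ρ) := by
  classical
  -- centres when exactly the bodies of `S` are still unmoved
  set cS : Finset (Fin n) → Fin n → Fin 3 → ℚ :=
    fun S j => if j ∈ S then c j else park D Y Z n j with hcS
  have hwpos : ∀ i m, 0 < ρ i m * h i m := fun i m => mul_pos (hρ i m) (hh i m)
  have hup : ∀ i m, c i m ≤ L - ρ i m * h i m := fun i m => by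
    have := hL i m; have := le_abs_self (c i m); linarith
  have main : ∀ S : Finset (Fin n),
      Reach (fun i => box (a i) (h i)) (dcfg a (cS S) ρ) (dcfg a (park D Y Z n) ρ) := by
    intro S
    refine Finset.induction_on_max_value (fun i => c i 2 - ρ i 2 * h i 2) S ?_ ?_
    · have : cS ∅ = park D Y Z n := by
        funext j; simp [hcS]
      rw [this]
      exact Relation.ReflTransGen.refl
    · intro i s his hmax ih
      refine Relation.ReflTransGen.trans ?_ ih
      -- the three intermediate centre functions
      set c0 := cS (insert i s) with hc0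
      have c0i : c0 i = c i := by simp [hc0, hcS]
      have c0s : ∀ j ∈ s, c0 j = c j := fun j hj => by simp [hc0, hcS, hj]
      have c0p : ∀ j, j ≠ i → j ∉ s → c0 j = park D Y Z n j := fun j hj hjs => by
        simp [hc0, hcS, hj, hjs]
      set c1 := Function.update c0 i (Function.update (c0 i) 2 Z) with hc1
      set c2 := Function.update c1 i (Function.update (c1 i) 0 (D * ((i : ℕ) : ℚ))) with hc2
      set c3 := Function.update c2 i (Function.update (c2 i) 1 Y) with hc3
      have c1i : c1 i = Function.update (c i) 2 Z := by rw [hc1, Function.update_self, c0i]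
      have c1j : ∀ j, j ≠ i → c1 j = c0 j := fun j hj => by rw [hc1, Function.update_of_ne hj]
      have c2i : c2 i = Function.update (Function.update (c i) 2 Z) 0 (D * ((i : ℕ) : ℚ)) := by
        rw [hc2, Function.update_self, c1i]
      have c2j : ∀ j, j ≠ i → c2 j = c0 j := fun j hj => by
        rw [hc2, Function.update_of_ne hj, c1j j hj]
      have hfin : c3 = cS s := by
        funext j
        by_cases hj : j = i
        · subst hj
          rw [hc3, Function.update_self, c2i]
          have : cS s j = park D Y Z n j := by simp [hcS, his]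
          rw [this]
          funext m
          fin_cases m <;> simp [park, Function.update]
        · rw [hc3, Function.update_of_ne hj, c2j j hj]
          by_cases hjs : j ∈ s
          · rw [c0s j hjs]; simp [hcS, hjs]
          · rw [c0p j hj hjs]; simp [hcS, hjs]
      have p0 : ∀ j, park D Y Z n j 0 = D * ((j : ℕ) : ℚ) := fun j => rfl
      have p1 : ∀ j, park D Y Z n j 1 = Y := fun j => rfl
      have p2 : ∀ j, park D Y Z n j 2 = Z := fun j => rfl
      -- separation in `y` from the parked bodies, as long as `y` is unchanged
      have sepY : ∀ j, ρ i 1 * h i 1 + ρ j 1 * h j 1 + δ < |c i 1 - Y| := fun j => by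
        have h1 := hup i 1; have h2 := hW j 1; have h3 := hwpos i 1; have h4 := hW i 1
        rw [abs_sub_comm, abs_of_nonneg (by linarith)]
        linarith
      -- separation in `z` from the unmoved bodies once `z = Z`
      have sepZ : ∀ j, ρ i 2 * h i 2 + ρ j 2 * h j 2 + δ < |Z - c j 2| := fun j => by
        have h1 := hup j 2; have h2 := hW i 2; have h3 := hwpos j 2; have h4 := hW j 2
        rw [abs_of_nonneg (by linarith)]
        linarith
      have step1 : Reach (fun i => box (a i) (h i)) (dcfg a c0 ρ) (dcfg a c1 ρ) := by
        refine move a h c0 ρ hh hρ i 2 Z δ hδ ?_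
        intro j hj
        by_cases hjs : j ∈ s
        · rw [c0i, c0s j hjs]
          obtain ⟨m, hm⟩ := hsep i j (Ne.symm hj)
          by_cases hm2 : m = 2
          · subst hm2
            right
            refine ⟨?_, ?_⟩
            · have hmx := hmax j hjs
              simp only at hmx hm
              rcases le_or_gt (c j 2) (c i 2) with hle | hlt
              · rwa [abs_of_nonneg (by linarith)] at hm
              · rw [abs_of_neg (by linarith)] at hm
                have := hwpos i 2
                linarith
            · have := hup i 2; have := hwpos i 2; have := hW i 2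
              linarith
          · left; exact ⟨m, hm2, hm⟩
        · left
          refine ⟨1, by decide, ?_⟩
          rw [c0i, c0p j hj hjs, p1]
          exact sepY j
      have step2 : Reach (fun i => box (a i) (h i)) (dcfg a c1 ρ) (dcfg a c2 ρ) := by
        refine move a h c1 ρ hh hρ i 0 _ δ hδ ?_
        intro j hj
        left
        by_cases hjs : j ∈ s
        · refine ⟨2, by decide, ?_⟩
          rw [c1i, c1j j hj, c0s j hjs, Function.update_self]
          exact sepZ j
        · refine ⟨1, by decide, ?_⟩
          rw [c1i, c1j j hj, c0p j hj hjs, p1, Function.update_of_ne (by decide)]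
          exact sepY j
      have step3 : Reach (fun i => box (a i) (h i)) (dcfg a c2 ρ) (dcfg a c3 ρ) := by
        refine move a h c2 ρ hh hρ i 1 _ δ hδ ?_
        intro j hj
        left
        by_cases hjs : j ∈ s
        · refine ⟨2, by decide, ?_⟩
          rw [c2i, c2j j hj, c0s j hjs, Function.update_of_ne (by decide), Function.update_self]
          exact sepZ j
        · refine ⟨0, by decide, ?_⟩
          rw [c2i, c2j j hj, c0p j hj hjs, p0, Function.update_self]
          have h1 := hW i 0; have h2 := hW j 0
          have hDpos : 0 < D := by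
            have := hwpos i 0
            linarith
          have hij : (1 : ℚ) ≤ |((i : ℕ) : ℚ) - ((j : ℕ) : ℚ)| := by
            have hne : ((i : ℕ) : ℤ) - ((j : ℕ) : ℤ) ≠ 0 := by
              intro h0
              apply hj
              apply Fin.ext
              omega
            have := Int.one_le_abs hne
            have h' : ((1 : ℤ) : ℚ) ≤ ((|((i : ℕ) : ℤ) - ((j : ℕ) : ℤ)| : ℤ) : ℚ) := by
              exact_mod_cast this
            push_cast at h'
            exact h'
          rw [← mul_sub, abs_mul, abs_of_pos hDpos]
          nlinarith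
      rw [← hfin]
      exact (step1.trans step2).trans step3
  have huniv : cS Finset.univ = c := by
    funext j; simp [hcS]
  have := main Finset.univ
  rwa [huniv] at this

end Crest.Agent.S0170
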