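import Crest.Agent.S0170_Defs

/-! S0170, package G3c: `reach_reshape` (a parked body is reshaped by 8 rational shears). -/

set_option autoImplicit false
open scoped ContDiff
open Crest.AnalysisR.BoxFlow

namespace Crest.Agent.S0170

section G3
variable {n : ℕ}

namespace Reshape

/-- one shear of body `i`, in `Function.update` form -/
theorem step_upd {B : Fin n → Set (Fin 3 → ℝ)} (T : Cfg n) (i : Fin n)
    (g : (Fin 3 → ℝ) → (Fin 3 → ℝ)) (a b : Fin 3) (hab : a ≠ b) (s c0 : ℚ) (r w : Fin 3 → ℚ)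
    (hw : ∀ m, 0 < w m) (δ : ℚ) (hδ : 0 < δ)
    (hin : ∀ x ∈ B i, ∀ τ ∈ Set.Icc (0 : ℝ) 1, shear a b s c0 τ (g x) ∈ box r w)
    (hout : ∀ j, j ≠ i → ∀ x ∈ B j, T j x ∉ box r (fun m => w m + δ)) :
    Reach B (Function.update T i g) (Function.update T i (fun x => shear a b s c0 1 (g x))) := by
  have key := Step.mk (B := B) (Function.update T i g) i a b hab s c0 r w hw δ hδ
    (by simpa only [Function.update_self] using hin)
    (by
      intro j hj x hx
      rw [Function.update_of_ne hj]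
      exact hout j hj x hx)
  simp only [Function.update_self, Function.update_idem] at key
  exact Relation.ReflTransGen.single key

/-- a shear about `p` increases the sup-distance to `p` at most by the factor `1 + |s|` -/
theorem shear_bound (p : Fin 3 → ℚ) (a b : Fin 3) (s : ℚ) (C : ℝ) (y : Fin 3 → ℝ)
    (hy : ∀ m, |y m - (p m : ℝ)| ≤ C) (τ : ℝ) (hτ : τ ∈ Set.Icc (0 : ℝ) 1) (m : Fin 3) :
    |shear a b (s : ℝ) ((-(s * p a) : ℚ) : ℝ) τ y m - (p m : ℝ)| ≤ (1 + |(s : ℝ)|) * C := by
  have hC : 0 ≤ C := (abs_nonneg _).trans (hy m)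
  unfold shear
  by_cases hm : m = b
  · subst hm
    rw [Function.update_self]
    push_cast
    have e : y m + τ * ((s : ℝ) * y a + -((s : ℝ) * (p a : ℝ))) - (p m : ℝ)
        = (y m - p m) + τ * ((s : ℝ) * (y a - p a)) := by ring
    rw [e]
    calc |(y m - p m) + τ * ((s : ℝ) * (y a - p a))|
        ≤ |y m - p m| + |τ * ((s : ℝ) * (y a - p a))| := abs_add_le _ _
      _ ≤ C + 1 * (|(s : ℝ)| * C) := by
          gcongr
          · exact hy m
          · rw [abs_mul, abs_mul]
            gcongr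
            · rw [abs_of_nonneg hτ.1]; exact hτ.2
            · exact hy a
      _ = (1 + |(s : ℝ)|) * C := by ring
  · rw [Function.update_of_ne hm]
    calc |y m - p m| ≤ C := hy m
      _ ≤ (1 + |(s : ℝ)|) * C := by nlinarith [abs_nonneg (s : ℝ)]

/-- apply a list of shears about `p` -/
noncomputable def applyShears (p : Fin 3 → ℚ) :
    List (Fin 3 × Fin 3 × ℚ) → (Fin 3 → ℝ) → (Fin 3 → ℝ)
  | [], y => y
  | e :: l, y => applyShears p l (shear e.1 e.2.1 (e.2.2 : ℝ) ((-(e.2.2 * p e.1) : ℚ) : ℝ) 1 y)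

/-- growth factor of a list of shears -/
def growth : List (Fin 3 × Fin 3 × ℚ) → ℚ
  | [] => 1
  | e :: l => (1 + |e.2.2|) * growth l

theorem one_le_growth (l : List (Fin 3 × Fin 3 × ℚ)) : 1 ≤ growth l := by
  induction l with
  | nil => exact le_rfl
  | cons e l ih =>
    unfold growth
    nlinarith [abs_nonneg e.2.2]

theorem reach_list {B : Fin n → Set (Fin 3 → ℝ)} (T : Cfg n) (i : Fin n) (p : Fin 3 → ℚ)
    (w δ : ℚ) (hw : 0 < w) (hδ : 0 < δ)
    (hout : ∀ j, j ≠ i → ∀ x ∈ B j, T j x ∉ box p (fun _ => w + δ))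
    (l : List (Fin 3 × Fin 3 × ℚ)) (hl : ∀ e ∈ l, e.1 ≠ e.2.1) :
    ∀ (g : (Fin 3 → ℝ) → (Fin 3 → ℝ)) (C : ℝ), (∀ x ∈ B i, ∀ m, |g x m - (p m : ℝ)| ≤ C) →
      (growth l : ℝ) * C ≤ w →
      Reach B (Function.update T i g) (Function.update T i (fun x => applyShears p l (g x))) := by
  induction l with
  | nil =>
    intro g C _ _
    exact Relation.ReflTransGen.refl
  | cons e l ih =>
    intro g C hg hC
    have hgl : (1 : ℝ) ≤ (growth l : ℝ) := by exact_mod_cast one_le_growth l
    have hgr : (growth (e :: l) : ℝ) = (1 + |(e.2.2 : ℝ)|) * (growth l : ℝ) := by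
      simp [growth]
    have h1 : Reach B (Function.update T i g) (Function.update T i
        (fun x => shear e.1 e.2.1 (e.2.2 : ℝ) ((-(e.2.2 * p e.1) : ℚ) : ℝ) 1 (g x))) := by
      apply step_upd T i g e.1 e.2.1 (hl e (List.mem_cons_self)) e.2.2 (-(e.2.2 * p e.1)) p
        (fun _ => w) (fun _ => hw) δ hδ _ hout
      intro x hx τ hτ m
      have hb := shear_bound p e.1 e.2.1 e.2.2 C (g x) (hg x hx) τ hτ m
      have hC0 : 0 ≤ C := (abs_nonneg _).trans (hg x hx m)
      have : (1 + |(e.2.2 : ℝ)|) * C ≤ w := by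
        rw [hgr] at hC
        have h0 : 0 ≤ (1 + |(e.2.2 : ℝ)|) * C := by positivity
        nlinarith
      exact hb.trans this
    have h2 := ih (fun e' he' => hl e' (List.mem_cons_of_mem _ he'))
      (fun x => shear e.1 e.2.1 (e.2.2 : ℝ) ((-(e.2.2 * p e.1) : ℚ) : ℝ) 1 (g x))
      ((1 + |(e.2.2 : ℝ)|) * C)
      (fun x hx m => shear_bound p e.1 e.2.1 e.2.2 C (g x) (hg x hx) 1 ⟨zero_le_one, le_rfl⟩ m)
      (by rw [hgr] at hC; linarith)
    exact h1.trans h2

/-- the eight shears realising `diag ρ` -/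
def shearList (ρ : Fin 3 → ℚ) : List (Fin 3 × Fin 3 × ℚ) :=
  [(1, 0, -(1 / ρ 0)), (0, 1, ρ 0 - 1), (1, 0, 1), (0, 1, -((ρ 0 - 1) / ρ 0)),
   (2, 1, -(1 / (ρ 0 * ρ 1))), (1, 2, ρ 0 * ρ 1 - 1), (2, 1, 1),
   (1, 2, -((ρ 0 * ρ 1 - 1) / (ρ 0 * ρ 1)))]

theorem shearList_ne (ρ : Fin 3 → ℚ) : ∀ e ∈ shearList ρ, e.1 ≠ e.2.1 := by
  intro e he
  simp only [shearList, List.mem_cons, List.not_mem_nil, or_false] at he
  rcases he with rfl | rfl | rfl | rfl | rfl | rfl | rfl | rfl <;> simp

theorem applyShears_shearList (p ρ : Fin 3 → ℚ) (hρ : ∀ j, 0 < ρ j) (hprod : ∏ j, ρ j = 1)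
    (u : Fin 3 → ℝ) :
    applyShears p (shearList ρ) (fun j => (p j : ℝ) + 1 * u j)
      = fun j => (p j : ℝ) + (ρ j : ℝ) * u j := by
  have h0 : (ρ 0 : ℝ) ≠ 0 := by exact_mod_cast (hρ 0).ne'
  have h1 : (ρ 1 : ℝ) ≠ 0 := by exact_mod_cast (hρ 1).ne'
  have h2 : (ρ 2 : ℝ) = 1 / ((ρ 0 : ℝ) * (ρ 1 : ℝ)) := by
    have : (ρ 0 : ℝ) * ρ 1 * ρ 2 = 1 := by
      have := hprod
      rw [Fin.prod_univ_three] at this
      exact_mod_cast this
    field_simp
    linarith
  funext j
  fin_cases j
  · simp [applyShears, shearList, shear, Function.update]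
    field_simp
    ring
  · simp [applyShears, shearList, shear, Function.update]
    field_simp
    ring
  · simp [applyShears, shearList, shear, Function.update, h2]
    field_simp
    ring

/-- intermediate configuration: the bodies in `s` are already reshaped -/
def cfgS (a p ρ : Fin n → Fin 3 → ℚ) (s : Finset (Fin n)) : Cfg n :=
  dcfg a p (fun i j => if i ∈ s then ρ i j else 1)

theorem cfgS_bound (a h p ρ : Fin n → Fin 3 → ℚ) (hh : ∀ i j, 0 < h i j) (hρ : ∀ i j, 0 < ρ i j)
    (s : Finset (Fin n)) (j : Fin n) (x : Fin 3 → ℝ) (hx : x ∈ box (a j) (h j)) (m : Fin 3) :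
    |cfgS a p ρ s j x m - (p j m : ℝ)| ≤ ((∑ j, ∑ m, (1 + ρ j m) * h j m : ℚ) : ℝ) := by
  have h1 : |x m - (a j m : ℝ)| ≤ (h j m : ℝ) := hx m
  have hρ' : (0 : ℝ) < ρ j m := by exact_mod_cast hρ j m
  have hh' : (0 : ℝ) < h j m := by exact_mod_cast hh j m
  have h2 : |cfgS a p ρ s j x m - (p j m : ℝ)| ≤ (((1 + ρ j m) * h j m : ℚ) : ℝ) := by
    unfold cfgS dcfg
    simp only [add_sub_cancel_left, abs_mul]
    push_cast
    by_cases hj : j ∈ s
    · simp only [hj, if_true, abs_of_pos hρ']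
      nlinarith [abs_nonneg (x m - (a j m : ℝ))]
    · simp only [hj, if_false, Rat.cast_one, abs_one]
      nlinarith [abs_nonneg (x m - (a j m : ℝ))]
  refine h2.trans ?_
  have h3 : (1 + ρ j m) * h j m ≤ ∑ j, ∑ m, (1 + ρ j m) * h j m := by
    calc (1 + ρ j m) * h j m ≤ ∑ m, (1 + ρ j m) * h j m :=
          Finset.single_le_sum (f := fun m => (1 + ρ j m) * h j m)
            (fun m _ => mul_nonneg (by linarith [hρ j m]) (hh j m).le) (Finset.mem_univ m)
      _ ≤ ∑ j, ∑ m, (1 + ρ j m) * h j m :=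
          Finset.single_le_sum (f := fun j => ∑ m, (1 + ρ j m) * h j m)
            (fun j _ => Finset.sum_nonneg fun m _ =>
              mul_nonneg (by linarith [hρ j m]) (hh j m).le) (Finset.mem_univ j)
  exact_mod_cast h3

end Reshape

open Reshape in
theorem reach_reshape (a h ρ : Fin n → Fin 3 → ℚ) (hh : ∀ i j, 0 < h i j) (hρ : ∀ i j, 0 < ρ i j)
    (hprod : ∀ i, ∏ j, ρ i j = 1) :
    ∃ R : ℚ, 0 < R ∧ ∀ p : Fin n → Fin 3 → ℚ, (∀ i j, i ≠ j → ∃ m, R < |p i m - p j m|) →
      Reach (fun i => box (a i) (h i)) (dcfg a p (fun _ _ => 1)) (dcfg a p ρ) := by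
  set W0 : ℚ := ∑ j, ∑ m, (1 + ρ j m) * h j m with hW0
  set G : ℚ := ∑ i, growth (shearList (ρ i)) * ∑ m, h i m with hG
  have hW0nn : 0 ≤ W0 := Finset.sum_nonneg fun j _ => Finset.sum_nonneg fun m _ =>
    mul_nonneg (by linarith [hρ j m]) (hh j m).le
  have hterm : ∀ i, 0 ≤ growth (shearList (ρ i)) * ∑ m, h i m := fun i =>
    mul_nonneg (by linarith [one_le_growth (shearList (ρ i))])
      (Finset.sum_nonneg fun m _ => (hh i m).le)
  have hGnn : 0 ≤ G := Finset.sum_nonneg fun i _ => hterm i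
  refine ⟨(1 + G) + 1 + W0, by linarith, fun p hp => ?_⟩
  have main : ∀ s : Finset (Fin n),
      Reach (fun i => box (a i) (h i)) (dcfg a p (fun _ _ => 1)) (cfgS a p ρ s) := by
    intro s
    induction s using Finset.induction_on with
    | empty =>
      have : cfgS a p ρ ∅ = dcfg a p (fun _ _ => 1) := by
        unfold cfgS; simp
      rw [this]
      exact Relation.ReflTransGen.refl
    | insert i s his ih =>
      refine ih.trans ?_
      have e1 : cfgS a p ρ s = Function.update (cfgS a p ρ s) i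
          (fun x j => (p i j : ℝ) + 1 * (x j - (a i j : ℝ))) := by
        funext j
        by_cases hj : j = i
        · subst hj
          rw [Function.update_self]
          funext x m
          simp [cfgS, dcfg, his]
        · rw [Function.update_of_ne hj]
      have e2 : cfgS a p ρ (insert i s) = Function.update (cfgS a p ρ s) i
          (fun x => applyShears (p i) (shearList (ρ i))
            (fun j => (p i j : ℝ) + 1 * (x j - (a i j : ℝ)))) := by
        funext j
        by_cases hj : j = i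
        · subst hj
          rw [Function.update_self]
          funext x
          rw [applyShears_shearList (p j) (ρ j) (hρ j) (hprod j)]
          funext m
          simp [cfgS, dcfg]
        · rw [Function.update_of_ne hj]
          funext x m
          simp [cfgS, dcfg, hj]
      rw [e2]
      conv_lhs => rw [e1]
      refine reach_list (B := fun i => box (a i) (h i)) (cfgS a p ρ s) i (p i) (1 + G) 1
        (by linarith) one_pos ?_ (shearList (ρ i)) (shearList_ne (ρ i)) _
        (((∑ m, h i m : ℚ)) : ℝ) ?_ ?_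
      · intro j hj x hx hmem
        obtain ⟨m, hm⟩ := hp j i hj
        have b1 : |cfgS a p ρ s j x m - (p j m : ℝ)| ≤ (W0 : ℝ) :=
          cfgS_bound a h p ρ hh hρ s j x hx m
        have b2 : |cfgS a p ρ s j x m - (p i m : ℝ)| ≤ ((1 + G + 1 : ℚ) : ℝ) := hmem m
        have hm' : (((1 + G) + 1 + W0 : ℚ) : ℝ) < |(p j m : ℝ) - (p i m : ℝ)| := by
          exact_mod_cast hm
        have tri : |(p j m : ℝ) - (p i m : ℝ)| ≤ |cfgS a p ρ s j x m - (p j m : ℝ)|
            + |cfgS a p ρ s j x m - (p i m : ℝ)| := by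
          have : (p j m : ℝ) - (p i m : ℝ) = -(cfgS a p ρ s j x m - (p j m : ℝ))
            + (cfgS a p ρ s j x m - (p i m : ℝ)) := by ring
          rw [this]
          refine (abs_add_le _ _).trans ?_
          rw [abs_neg]
        push_cast at hm' b2
        linarith
      · intro x hx m
        have h1 : |x m - (a i m : ℝ)| ≤ (h i m : ℝ) := hx m
        have h2 : h i m ≤ ∑ m, h i m :=
          Finset.single_le_sum (f := fun m => h i m) (fun m _ => (hh i m).le) (Finset.mem_univ m)
        have h2' : (h i m : ℝ) ≤ ((∑ m, h i m : ℚ) : ℝ) := by exact_mod_cast h2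
        simp only [one_mul, add_sub_cancel_left]
        exact h1.trans h2'
      · have h3 : growth (shearList (ρ i)) * ∑ m, h i m ≤ G :=
          Finset.single_le_sum (f := fun i => growth (shearList (ρ i)) * ∑ m, h i m)
            (fun i _ => hterm i) (Finset.mem_univ i)
        have h4 : growth (shearList (ρ i)) * ∑ m, h i m ≤ 1 + G := by linarith
        exact_mod_cast h4
  have fin : cfgS a p ρ Finset.univ = dcfg a p ρ := by
    unfold cfgS; simp
  rw [← fin]
  exact main Finset.univ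

end G3
end Crest.Agent.S0170
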