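import Crest.Agent.S0170_Moves
import Crest.Agent.S0170_Park
import Crest.Agent.S0170_Reshape

/-! S0170, package G3d (`plan`): park the source boxes, reshape them at the parking places, and
run the parking of the target boxes backwards. -/

set_option autoImplicit false
open scoped ContDiff
open Crest.AnalysisR.BoxFlow

namespace Crest.Agent.S0170

section G3
variable {n : ℕ}

namespace Plan

/-- a crude common bound for all the data. -/
def bigL (a b h k : Fin n → Fin 3 → ℚ) : ℚ :=
  ∑ i, ∑ m, (|a i m| + |h i m| + |b i m| + |k i m|)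

theorem term_le_bigL (a b h k : Fin n → Fin 3 → ℚ) (i : Fin n) (m : Fin 3) :
    |a i m| + |h i m| + |b i m| + |k i m| ≤ bigL a b h k := by
  unfold bigL
  have h1 : |a i m| + |h i m| + |b i m| + |k i m| ≤ ∑ m, (|a i m| + |h i m| + |b i m| + |k i m|) :=
    Finset.single_le_sum (f := fun m => |a i m| + |h i m| + |b i m| + |k i m|)
      (fun m _ => by positivity) (Finset.mem_univ m)
  have h2 : ∑ m, (|a i m| + |h i m| + |b i m| + |k i m|) ≤
      ∑ i, ∑ m, (|a i m| + |h i m| + |b i m| + |k i m|) :=
    Finset.single_le_sum (f := fun i => ∑ m, (|a i m| + |h i m| + |b i m| + |k i m|))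
      (fun i _ => Finset.sum_nonneg fun m _ => by positivity) (Finset.mem_univ i)
  exact h1.trans h2

theorem park_sep (D Y Z R : ℚ) (hR : 0 < R) (hD : R < D) (i j : Fin n) (hij : i ≠ j) :
    ∃ m, R < |park D Y Z n i m - park D Y Z n j m| := by
  refine ⟨0, ?_⟩
  have h0 : park D Y Z n i 0 - park D Y Z n j 0 = D * (((i : ℕ) : ℚ) - ((j : ℕ) : ℚ)) := by
    simp [park]; ring
  rw [h0, abs_mul, abs_of_pos (hR.trans hD)]
  have hne : ((i : ℕ) : ℤ) - ((j : ℕ) : ℤ) ≠ 0 := by
    intro h
    apply hij
    apply Fin.ext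
    omega
  have h1 : (1 : ℤ) ≤ |((i : ℕ) : ℤ) - ((j : ℕ) : ℤ)| := Int.one_le_abs hne
  have h2 : (1 : ℚ) ≤ |((i : ℕ) : ℚ) - ((j : ℕ) : ℚ)| := by
    have : ((|((i : ℕ) : ℤ) - ((j : ℕ) : ℤ)| : ℤ) : ℚ) = |((i : ℕ) : ℚ) - ((j : ℕ) : ℚ)| := by
      push_cast; rfl
    rw [← this]
    exact_mod_cast h1
  nlinarith [hR.trans hD]

end Plan

open Plan in
theorem plan (a b h k : Fin n → Fin 3 → ℚ) (hh : ∀ i j, 0 < h i j) (hk : ∀ i j, 0 < k i j)
    (δ : ℚ) (hδ : 0 < δ) (ha : ∀ i j, i ≠ j → Sep δ (a i) (h i) (a j) (h j))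
    (hb : ∀ i j, i ≠ j → Sep δ (b i) (k i) (b j) (k j)) (hvol : ∀ i, ∏ j : Fin 3, k i j / h i j = 1) :
    Reach (fun i => box (a i) (h i)) (dcfg a a (fun _ _ => 1)) (dcfg a b (fun i j => k i j / h i j)) := by
  have hρ : ∀ i j, 0 < k i j / h i j := fun i j => div_pos (hk i j) (hh i j)
  have hρh : ∀ i m, k i m / h i m * h i m = k i m := fun i m =>
    div_mul_cancel₀ _ (hh i m).ne'
  obtain ⟨R, hR, hreshape⟩ := reach_reshape a h (fun i j => k i j / h i j) hh hρ hvol
  set L : ℚ := bigL a b h k with hL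
  have hLt := term_le_bigL a b h k
  have hD : 2 * L + δ < 2 * L + δ + R := by linarith
  have hY : L + 2 * L + δ < L + 2 * L + δ + 1 := by linarith
  have hL0 : 0 ≤ L := by
    rw [hL]
    unfold bigL
    exact Finset.sum_nonneg fun i _ => Finset.sum_nonneg fun m _ => by positivity
  -- park the sources
  have h1 : Reach (fun i => box (a i) (h i)) (dcfg a a (fun _ _ => 1))
      (dcfg a (park (2 * L + δ + R) (L + 2 * L + δ + 1) (L + 2 * L + δ + 1) n) (fun _ _ => 1)) := by
    refine reach_park a h a (fun _ _ => 1) hh (fun _ _ => one_pos) δ L L _ _ _ hδ ?_ ?_ ?_ hD hY hY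
    · intro i j hij
      simpa using ha i j hij
    · intro i m
      have := hLt i m
      have h3 := abs_nonneg (b i m)
      have h4 := abs_nonneg (k i m)
      have h5 := le_abs_self (h i m)
      simp only [one_mul]
      linarith
    · intro i m
      have := hLt i m
      have h2 := abs_nonneg (a i m)
      have h3 := abs_nonneg (b i m)
      have h4 := abs_nonneg (k i m)
      have h5 := le_abs_self (h i m)
      simp only [one_mul]
      linarith
  -- reshape
  have h2 := hreshape (park (2 * L + δ + R) (L + 2 * L + δ + 1) (L + 2 * L + δ + 1) n)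
    (fun i j hij => park_sep _ _ _ R hR (by linarith) i j hij)
  -- park the targets
  have h3 : Reach (fun i => box (a i) (h i)) (dcfg a b (fun i j => k i j / h i j))
      (dcfg a (park (2 * L + δ + R) (L + 2 * L + δ + 1) (L + 2 * L + δ + 1) n)
        (fun i j => k i j / h i j)) := by
    refine reach_park a h b (fun i j => k i j / h i j) hh hρ δ L L _ _ _ hδ ?_ ?_ ?_ hD hY hY
    · intro i j hij
      simpa [hρh] using hb i j hij
    · intro i m
      have := hLt i m
      have h2 := abs_nonneg (a i m)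
      have h3 := abs_nonneg (h i m)
      have h5 := le_abs_self (k i m)
      simp only [hρh]
      linarith
    · intro i m
      have := hLt i m
      have h2 := abs_nonneg (a i m)
      have h3 := abs_nonneg (h i m)
      have h4 := abs_nonneg (b i m)
      have h5 := le_abs_self (k i m)
      simp only [hρh]
      linarith
  exact (h1.trans h2).trans h3.symm

end G3

end Crest.Agent.S0170
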