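import Crest.Agent.S0170_Defs

/-! S0170, package C6a: calculus of `mixedDeriv` / `smd` (smoothness, additivity, components,
tensor products, curl fields). -/

set_option autoImplicit false
open scoped ContDiff
open Crest.AnalysisR.BoxFlow

namespace Crest.Agent.S0170

/-! ### smoothness -/

theorem contDiff_mixedDeriv (ds : List (Fin 4)) {U : Field} (hU : ContDiff ℝ ∞ U) :
    ContDiff ℝ ∞ (mixedDeriv ds U) := by
  induction ds with
  | nil => exact hU
  | cons d ds ih =>
    have h1 : ContDiff ℝ ∞ (fderiv ℝ (mixedDeriv ds U)) := ih.fderiv_right (by simp)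
    exact h1.clm_apply contDiff_const

theorem contDiff_smd (ds : List (Fin 4)) {g : ℝ × (Fin 3 → ℝ) → ℝ} (hg : ContDiff ℝ ∞ g) :
    ContDiff ℝ ∞ (smd ds g) := by
  induction ds with
  | nil => exact hg
  | cons d ds ih =>
    have h1 : ContDiff ℝ ∞ (fderiv ℝ (smd ds g)) := ih.fderiv_right (by simp)
    exact h1.clm_apply contDiff_const

/-! ### linearity -/

theorem mixedDeriv_zero (ds : List (Fin 4)) : mixedDeriv ds (0 : Field) = 0 := by
  induction ds with
  | nil => rfl
  | cons d ds ih =>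
    funext p
    show fderiv ℝ (mixedDeriv ds (0 : Field)) p (direction d) = 0
    rw [ih]
    simp

theorem mixedDeriv_add (ds : List (Fin 4)) {U V : Field} (hU : ContDiff ℝ ∞ U)
    (hV : ContDiff ℝ ∞ V) : mixedDeriv ds (U + V) = mixedDeriv ds U + mixedDeriv ds V := by
  induction ds with
  | nil => rfl
  | cons d ds ih =>
    funext p
    show fderiv ℝ (mixedDeriv ds (U + V)) p (direction d) =
      fderiv ℝ (mixedDeriv ds U) p (direction d) + fderiv ℝ (mixedDeriv ds V) p (direction d)
    rw [ih, fderiv_add]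
    · rfl
    · exact ((contDiff_mixedDeriv ds hU).differentiable (by simp)).differentiableAt
    · exact ((contDiff_mixedDeriv ds hV).differentiable (by simp)).differentiableAt

theorem smd_zero (ds : List (Fin 4)) : smd ds (fun _ => (0 : ℝ)) = fun _ => 0 := by
  induction ds with
  | nil => rfl
  | cons d ds ih =>
    funext p
    show fderiv ℝ (smd ds (fun _ => (0 : ℝ))) p (direction d) = 0
    rw [ih]
    simp

theorem smd_neg (ds : List (Fin 4)) (g : ℝ × (Fin 3 → ℝ) → ℝ) :
    smd ds (fun p => - g p) = fun p => - smd ds g p := by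
  induction ds with
  | nil => rfl
  | cons d ds ih =>
    funext p
    show fderiv ℝ (smd ds (fun p => - g p)) p (direction d) = - fderiv ℝ (smd ds g) p (direction d)
    rw [ih]
    have : (fun p => - smd ds g p) = - smd ds g := rfl
    rw [this, fderiv_neg]
    rfl

/-! ### components -/

theorem mixedDeriv_apply (ds : List (Fin 4)) {G : Fin 3 → ℝ × (Fin 3 → ℝ) → ℝ}
    (hG : ∀ j, ContDiff ℝ ∞ (G j)) (p : ℝ × (Fin 3 → ℝ)) (j : Fin 3) :
    mixedDeriv ds (fun p j => G j p) p j = smd ds (G j) p := by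
  have hU : ContDiff ℝ ∞ (fun p j => G j p : Field) := contDiff_pi.2 hG
  induction ds generalizing p with
  | nil => rfl
  | cons d ds ih =>
    show fderiv ℝ (mixedDeriv ds (fun p j => G j p)) p (direction d) j =
      fderiv ℝ (smd ds (G j)) p (direction d)
    have hd : DifferentiableAt ℝ (mixedDeriv ds (fun p j => G j p : Field)) p :=
      ((contDiff_mixedDeriv ds hU).differentiable (by simp)).differentiableAt
    have h2 : smd ds (G j) = fun q => mixedDeriv ds (fun p j => G j p : Field) q j := by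
      funext q; exact (ih q).symm
    rw [h2, fderiv_apply hd]
    rfl

/-! ### tensor products -/

theorem contDiff_tens {θ : ℝ → ℝ} {g : Fin 3 → ℝ → ℝ} (hθ : ContDiff ℝ ∞ θ)
    (hg : ∀ i, ContDiff ℝ ∞ (g i)) : ContDiff ℝ ∞ (tens θ g) := by
  unfold tens
  refine (hθ.comp contDiff_fst).mul (contDiff_prod fun i _ => ?_)
  exact (hg i).comp ((contDiff_apply ℝ ℝ i).comp contDiff_snd)

theorem direction_zero : direction 0 = ((1 : ℝ), (0 : Fin 3 → ℝ)) := by
  simp [direction]

theorem direction_succ (i : Fin 3) : direction i.succ = ((0 : ℝ), (Pi.single i 1 : Fin 3 → ℝ)) := by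
  simp [direction, Fin.succ_ne_zero]

theorem fderiv_tens_zero {θ : ℝ → ℝ} {g : Fin 3 → ℝ → ℝ} (hθ : ContDiff ℝ ∞ θ)
    (hg : ∀ i, ContDiff ℝ ∞ (g i)) (p : ℝ × (Fin 3 → ℝ)) :
    fderiv ℝ (tens θ g) p (direction 0) = tens (deriv θ) g p := by
  have hd : DifferentiableAt ℝ (tens θ g) p :=
    ((contDiff_tens hθ hg).differentiable (by simp)).differentiableAt
  rw [← hd.lineDeriv_eq_fderiv, direction_zero]
  unfold lineDeriv
  have h1 : (fun t : ℝ => tens θ g (p + t • ((1 : ℝ), (0 : Fin 3 → ℝ)))) =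
      fun t : ℝ => θ (p.1 + t) * ∏ i : Fin 3, g i (p.2 i) := by
    funext t; simp [tens]
  rw [h1]
  have hθd : HasDerivAt θ (deriv θ p.1) (p.1 + 0) := by
    rw [add_zero]
    exact ((hθ.differentiable (by simp)).differentiableAt).hasDerivAt
  have h2 : HasDerivAt (fun t : ℝ => θ (p.1 + t)) (deriv θ p.1) 0 :=
    hθd.comp_const_add p.1 0
  exact (h2.mul_const _).deriv

theorem fderiv_tens_succ {θ : ℝ → ℝ} {g : Fin 3 → ℝ → ℝ} (hθ : ContDiff ℝ ∞ θ)
    (hg : ∀ i, ContDiff ℝ ∞ (g i)) (i : Fin 3) (p : ℝ × (Fin 3 → ℝ)) :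
    fderiv ℝ (tens θ g) p (direction i.succ) = tens θ (dAt i g) p := by
  have hd : DifferentiableAt ℝ (tens θ g) p :=
    ((contDiff_tens hθ hg).differentiable (by simp)).differentiableAt
  rw [← hd.lineDeriv_eq_fderiv, direction_succ]
  unfold lineDeriv
  have hgd : ∀ j, HasDerivAt (fun t : ℝ => g j (p.2 j + t)) (deriv (g j) (p.2 j)) 0 := by
    intro j
    have h : HasDerivAt (g j) (deriv (g j) (p.2 j)) (p.2 j + 0) := by
      rw [add_zero]
      exact (((hg j).differentiable (by simp)).differentiableAt).hasDerivAt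
    exact h.comp_const_add (p.2 j) 0
  fin_cases i
  · have h1 : (fun t : ℝ => tens θ g (p + t • ((0 : ℝ), (Pi.single 0 1 : Fin 3 → ℝ)))) =
        fun t : ℝ => θ p.1 * (g 0 (p.2 0 + t) * g 1 (p.2 1) * g 2 (p.2 2)) := by
      funext t; simp [tens, Fin.prod_univ_three]
    simp only [Fin.zero_eta]
    rw [h1]
    rw [((((hgd 0).mul_const _).mul_const _).const_mul _).deriv]
    simp [tens, dAt, Fin.prod_univ_three]
  · have h1 : (fun t : ℝ => tens θ g (p + t • ((0 : ℝ), (Pi.single 1 1 : Fin 3 → ℝ)))) =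
        fun t : ℝ => θ p.1 * (g 0 (p.2 0) * g 1 (p.2 1 + t) * g 2 (p.2 2)) := by
      funext t; simp [tens, Fin.prod_univ_three]
    simp only [Fin.mk_one]
    rw [h1]
    rw [((((hgd 1).const_mul _).mul_const _).const_mul _).deriv]
    simp [tens, dAt, Fin.prod_univ_three]
  · have h1 : (fun t : ℝ => tens θ g (p + t • ((0 : ℝ), (Pi.single 2 1 : Fin 3 → ℝ)))) =
        fun t : ℝ => θ p.1 * (g 0 (p.2 0) * g 1 (p.2 1) * g 2 (p.2 2 + t)) := by
      funext t; simp [tens, Fin.prod_univ_three]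
    simp only [Fin.reduceFinMk]
    rw [h1]
    rw [(((hgd 2).const_mul _).const_mul _).deriv]
    simp [tens, dAt, Fin.prod_univ_three]

theorem contDiff_iteratedDeriv' (k : ℕ) {f : ℝ → ℝ} (hf : ContDiff ℝ ∞ f) :
    ContDiff ℝ ∞ (iteratedDeriv k f) := by
  rw [iteratedDeriv_eq_iterate]
  exact hf.iterate_deriv k

theorem smd_tens (ds : List (Fin 4)) {θ : ℝ → ℝ} {g : Fin 3 → ℝ → ℝ} (hθ : ContDiff ℝ ∞ θ)
    (hg : ∀ i, ContDiff ℝ ∞ (g i)) :
    smd ds (tens θ g) =
      tens (iteratedDeriv (ds.count 0) θ) (fun i => iteratedDeriv (ds.count i.succ) (g i)) := by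
  induction ds with
  | nil => simp [smd]
  | cons d ds ih =>
    funext p
    show fderiv ℝ (smd ds (tens θ g)) p (direction d) = _
    rw [ih]
    have hθ' := contDiff_iteratedDeriv' (ds.count 0) hθ
    have hg' : ∀ i : Fin 3, ContDiff ℝ ∞ (iteratedDeriv (ds.count i.succ) (g i)) :=
      fun i => contDiff_iteratedDeriv' _ (hg i)
    rcases Fin.eq_zero_or_eq_succ d with rfl | ⟨i, rfl⟩
    · rw [fderiv_tens_zero hθ' hg']
      have e1 : iteratedDeriv ((0 :: ds).count 0) θ = deriv (iteratedDeriv (ds.count 0) θ) := by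
        rw [List.count_cons_self, iteratedDeriv_succ]
      have e2 : (fun j : Fin 3 => iteratedDeriv ((0 :: ds).count j.succ) (g j)) =
          fun j : Fin 3 => iteratedDeriv (ds.count j.succ) (g j) := by
        funext j
        rw [List.count_cons_of_ne (Fin.succ_ne_zero j).symm]
      rw [e1, e2]
    · rw [fderiv_tens_succ hθ' hg']
      have e1 : iteratedDeriv ((i.succ :: ds).count 0) θ = iteratedDeriv (ds.count 0) θ := by
        rw [List.count_cons_of_ne (Fin.succ_ne_zero i)]
      have e2 : (fun j : Fin 3 => iteratedDeriv ((i.succ :: ds).count j.succ) (g j)) =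
          dAt i (fun j : Fin 3 => iteratedDeriv (ds.count j.succ) (g j)) := by
        funext j
        unfold dAt
        split_ifs with h
        · subst h
          rw [List.count_cons_self, iteratedDeriv_succ]
        · rw [List.count_cons_of_ne]
          intro h'
          exact h (Fin.succ_injective _ h').symm
      rw [e1, e2]

/-! ### curl fields -/

theorem contDiff_dAt (c : Fin 3) {f : Fin 3 → ℝ → ℝ} (hf : ∀ i, ContDiff ℝ ∞ (f i)) (i : Fin 3) :
    ContDiff ℝ ∞ (dAt c f i) := by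
  unfold dAt
  split_ifs
  · exact (contDiff_infty_iff_deriv.mp (hf i)).2
  · exact hf i

theorem iteratedDeriv_dAt (k : ℕ) (c i : Fin 3) (f : Fin 3 → ℝ → ℝ) :
    iteratedDeriv k (dAt c f i) = iteratedDeriv (k + if i = c then 1 else 0) (f i) := by
  unfold dAt
  split_ifs
  · rw [iteratedDeriv_succ']
  · rfl

/-- the components of a curl field. -/
noncomputable def curlComp (b c : Fin 3) (θ : ℝ → ℝ) (f : Fin 3 → ℝ → ℝ) (j : Fin 3) :
    ℝ × (Fin 3 → ℝ) → ℝ :=
  if j = b then tens θ (dAt c f) else if j = c then fun p => - tens θ (dAt b f) p else fun _ => 0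

theorem curlField_eq (b c : Fin 3) (θ : ℝ → ℝ) (f : Fin 3 → ℝ → ℝ) :
    curlField b c θ f = fun p j => curlComp b c θ f j p := by
  funext p j
  unfold curlField curlComp
  split_ifs <;> rfl

theorem contDiff_curlComp (b c : Fin 3) {θ : ℝ → ℝ} {f : Fin 3 → ℝ → ℝ} (hθ : ContDiff ℝ ∞ θ)
    (hf : ∀ i, ContDiff ℝ ∞ (f i)) (j : Fin 3) : ContDiff ℝ ∞ (curlComp b c θ f j) := by
  unfold curlComp
  split_ifs
  · exact contDiff_tens hθ (contDiff_dAt c hf)
  · exact (contDiff_tens hθ (contDiff_dAt b hf)).neg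
  · exact contDiff_const

theorem contDiff_curlField (b c : Fin 3) {θ : ℝ → ℝ} {f : Fin 3 → ℝ → ℝ} (hθ : ContDiff ℝ ∞ θ)
    (hf : ∀ i, ContDiff ℝ ∞ (f i)) : ContDiff ℝ ∞ (curlField b c θ f) := by
  rw [curlField_eq]
  exact contDiff_pi.2 (contDiff_curlComp b c hθ hf)

/-- **All mixed derivatives of a curl field**, as tensor products of one-dimensional iterated
derivatives. -/
theorem mixedDeriv_curlField (ds : List (Fin 4)) (b c : Fin 3) {θ : ℝ → ℝ} {f : Fin 3 → ℝ → ℝ}
    (hθ : ContDiff ℝ ∞ θ) (hf : ∀ i, ContDiff ℝ ∞ (f i)) (p : ℝ × (Fin 3 → ℝ)) (j : Fin 3) :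
    mixedDeriv ds (curlField b c θ f) p j =
      if j = b then
        tens (iteratedDeriv (ds.count 0) θ)
          (fun i => iteratedDeriv (ds.count i.succ + if i = c then 1 else 0) (f i)) p
      else if j = c then
        - tens (iteratedDeriv (ds.count 0) θ)
          (fun i => iteratedDeriv (ds.count i.succ + if i = b then 1 else 0) (f i)) p
      else 0 := by
  rw [curlField_eq, mixedDeriv_apply ds (contDiff_curlComp b c hθ hf)]
  unfold curlComp
  split_ifs
  · rw [smd_tens ds hθ (contDiff_dAt c hf)]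
    simp only [iteratedDeriv_dAt]
  · rw [smd_neg, smd_tens ds hθ (contDiff_dAt b hf)]
    simp only [iteratedDeriv_dAt]
  · rw [smd_zero]

theorem dAt_comm (b c : Fin 3) (hbc : b ≠ c) (f : Fin 3 → ℝ → ℝ) :
    dAt b (dAt c f) = dAt c (dAt b f) := by
  funext i
  unfold dAt
  by_cases h1 : i = b
  · have h2 : i ≠ c := fun h => hbc (h1.symm.trans h)
    simp [h1, hbc]
  · by_cases h2 : i = c
    · simp [h2, hbc.symm]
    · simp [h1, h2]

/-- curl fields are divergence free. -/
theorem spaceDiv_curlField (b c : Fin 3) (hbc : b ≠ c) {θ : ℝ → ℝ} {f : Fin 3 → ℝ → ℝ}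
    (hθ : ContDiff ℝ ∞ θ) (hf : ∀ i, ContDiff ℝ ∞ (f i)) (p : ℝ × (Fin 3 → ℝ)) :
    spaceDiv (curlField b c θ f) p = 0 := by
  have key : ∀ j : Fin 3, fderiv ℝ (curlField b c θ f) p (0, Pi.single j 1) j =
      if j = b then tens θ (dAt b (dAt c f)) p
      else if j = c then - tens θ (dAt c (dAt b f)) p else 0 := by
    intro j
    have h := mixedDeriv_apply [j.succ] (contDiff_curlComp b c hθ hf) p j
    rw [← curlField_eq] at h
    have h' : mixedDeriv [j.succ] (curlField b c θ f) p j =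
        fderiv ℝ (curlField b c θ f) p (0, Pi.single j 1) j := by
      show fderiv ℝ (curlField b c θ f) p (direction j.succ) j = _
      rw [direction_succ]
    rw [← h', h]
    show fderiv ℝ (curlComp b c θ f j) p (direction j.succ) = _
    unfold curlComp
    split_ifs with h1 h2
    · subst h1
      exact fderiv_tens_succ hθ (contDiff_dAt c hf) j p
    · subst h2
      have : (fun p => - tens θ (dAt b f) p) = - tens θ (dAt b f) := rfl
      rw [this, fderiv_neg]
      show - (fderiv ℝ (tens θ (dAt b f)) p (direction j.succ)) = _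
      rw [fderiv_tens_succ hθ (contDiff_dAt b hf) j p]
    · simp
  unfold spaceDiv
  simp only [key]
  rw [dAt_comm b c hbc]
  have : ∀ j : Fin 3, (if j = b then tens θ (dAt c (dAt b f)) p
      else if j = c then - tens θ (dAt c (dAt b f)) p else 0) =
      (if j = b then tens θ (dAt c (dAt b f)) p else 0) +
        (if j = c then - tens θ (dAt c (dAt b f)) p else 0) := by
    intro j
    by_cases h1 : j = b
    · have h2 : j ≠ c := fun h => hbc (h1.symm.trans h)
      simp [h1, hbc]
    · simp [h1]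
  simp only [this, Finset.sum_add_distrib, Finset.sum_ite_eq', Finset.mem_univ, if_true]
  ring

/-- sup bound of a tensor product. -/
theorem abs_tens_le {θ : ℝ → ℝ} {g : Fin 3 → ℝ → ℝ} {B : ℝ} {C : Fin 3 → ℝ}
    (hθ : ∀ t, |θ t| ≤ B) (hg : ∀ i x, |g i x| ≤ C i) (p : ℝ × (Fin 3 → ℝ)) :
    |tens θ g p| ≤ B * ∏ i, C i := by
  unfold tens
  rw [abs_mul, Finset.abs_prod]
  exact mul_le_mul (hθ _) (Finset.prod_le_prod (fun i _ => abs_nonneg _) (fun i _ => hg i _))
    (Finset.prod_nonneg fun i _ => abs_nonneg _) ((abs_nonneg _).trans (hθ 0))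

end Crest.Agent.S0170
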