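import Crest.Agent.S0170_Stp
import Crest.Agent.S0170_Mixed

/-! S0170, package G1: properties of the elementary field `elemField`. -/

set_option autoImplicit false
open scoped ContDiff Topology
open Crest.AnalysisR.BoxFlow

namespace Crest.Agent.S0170
namespace Elem

/-! ### one-dimensional facts -/

theorem contDiff_plat (lo hi δ : ℝ) : ContDiff ℝ ∞ (plat lo hi δ) := by
  unfold plat
  exact (stp_contDiff.comp (by fun_prop)).sub (stp_contDiff.comp (by fun_prop))

theorem contDiff_apl (A B lo hi δ : ℝ) : ContDiff ℝ ∞ (apl A B lo hi δ) := by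
  unfold apl
  exact ContDiff.mul (by fun_prop) (contDiff_plat lo hi δ)

theorem contDiff_tim (α β : ℝ) : ContDiff ℝ ∞ (tim α β) := by
  unfold tim
  exact stp_contDiff.comp (by fun_prop)

theorem contDiff_deriv_tim (α β : ℝ) : ContDiff ℝ ∞ (deriv (tim α β)) := by
  have h := contDiff_iteratedDeriv' 1 (contDiff_tim α β)
  simpa [iteratedDeriv_one] using h

theorem plat_eq_one {lo hi δ x : ℝ} (hδ : 0 < δ) (h1 : lo - δ / 3 ≤ x) (h2 : x ≤ hi + δ / 3) :
    plat lo hi δ x = 1 := by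
  unfold plat
  rw [stp_one, stp_zero]
  · ring
  · rw [sub_le_iff_le_add, div_le_iff₀ hδ]; nlinarith
  · rw [← sub_le_iff_le_add, le_div_iff₀ hδ]; nlinarith

theorem plat_eq_zero_left {lo hi δ x : ℝ} (hδ : 0 < δ) (h : lo ≤ hi) (h1 : x ≤ lo - 5 * δ / 6) :
    plat lo hi δ x = 0 := by
  unfold plat
  rw [stp_zero, stp_zero]
  · ring
  · rw [sub_le_iff_le_add, div_le_iff₀ hδ]; nlinarith
  · rw [← le_sub_iff_add_le, div_le_iff₀ hδ]; nlinarith

theorem plat_eq_zero_right {lo hi δ x : ℝ} (hδ : 0 < δ) (h : lo ≤ hi) (h1 : hi + 5 * δ / 6 ≤ x) :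
    plat lo hi δ x = 0 := by
  unfold plat
  rw [stp_one, stp_one]
  · ring
  · rw [le_sub_iff_add_le, le_div_iff₀ hδ]; nlinarith
  · rw [← sub_le_iff_le_add, le_div_iff₀ hδ]; nlinarith

theorem plat_eventually_one {lo hi δ x : ℝ} (hδ : 0 < δ) (h1 : lo ≤ x) (h2 : x ≤ hi) :
    plat lo hi δ =ᶠ[𝓝 x] fun _ => 1 := by
  have : Set.Ioo (lo - δ / 3) (hi + δ / 3) ∈ 𝓝 x :=
    Ioo_mem_nhds (by linarith) (by linarith)
  filter_upwards [this] with y hy
  exact plat_eq_one hδ hy.1.le hy.2.le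

theorem plat_eventually_zero {lo hi δ x : ℝ} (hδ : 0 < δ) (h : lo ≤ hi)
    (hx : x < lo - δ ∨ hi + δ < x) : plat lo hi δ =ᶠ[𝓝 x] fun _ => 0 := by
  rcases hx with hx | hx
  · have : Set.Iio (lo - 5 * δ / 6) ∈ 𝓝 x := Iio_mem_nhds (by linarith)
    filter_upwards [this] with y hy
    exact plat_eq_zero_left hδ h (le_of_lt hy)
  · have : Set.Ioi (hi + 5 * δ / 6) ∈ 𝓝 x := Ioi_mem_nhds (by linarith)
    filter_upwards [this] with y hy
    exact plat_eq_zero_right hδ h (le_of_lt hy)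

theorem apl_eventually_affine {A B lo hi δ x : ℝ} (hδ : 0 < δ) (h1 : lo ≤ x) (h2 : x ≤ hi) :
    apl A B lo hi δ =ᶠ[𝓝 x] fun y => A + B * y := by
  filter_upwards [plat_eventually_one hδ h1 h2] with y hy
  unfold apl
  rw [hy, mul_one]

theorem apl_eventually_zero {A B lo hi δ x : ℝ} (hδ : 0 < δ) (h : lo ≤ hi)
    (hx : x < lo - δ ∨ hi + δ < x) : apl A B lo hi δ =ᶠ[𝓝 x] fun _ => 0 := by
  filter_upwards [plat_eventually_zero hδ h hx] with y hy
  unfold apl
  rw [hy, mul_zero]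

theorem deriv_tim_eq_zero {α β t : ℝ} (h : α < β) (ht : t ∉ Set.Ioo α β) :
    deriv (tim α β) t = 0 := by
  have hβα : 0 < β - α := sub_pos.2 h
  by_cases h1 : t ≤ α
  · have : tim α β =ᶠ[𝓝 t] fun _ => 0 := by
      have : Set.Iio (α + (β - α) / 6) ∈ 𝓝 t := Iio_mem_nhds (by linarith)
      filter_upwards [this] with y hy
      unfold tim
      apply stp_zero
      have hy' : y < α + (β - α) / 6 := hy
      rw [sub_le_iff_le_add, div_le_iff₀ hβα]; nlinarith
    rw [this.deriv_eq]; simp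
  · have h2 : β ≤ t := by
      by_contra h2
      exact ht ⟨not_le.1 h1, not_le.1 h2⟩
    have : tim α β =ᶠ[𝓝 t] fun _ => 1 := by
      have : Set.Ioi (α + 2 * (β - α) / 3) ∈ 𝓝 t := Ioi_mem_nhds (by linarith)
      filter_upwards [this] with y hy
      unfold tim
      apply stp_one
      have hy' : α + 2 * (β - α) / 3 < y := hy
      rw [le_sub_iff_add_le, le_div_iff₀ hβα]; nlinarith
    rw [this.deriv_eq]; simp

/-! ### the profiles -/

section prof
variable (a b : Fin 3) (s c0 : ℚ) (r w : Fin 3 → ℚ) (δ : ℚ)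

theorem contDiff_prof (i : Fin 3) : ContDiff ℝ ∞ (prof a b s c0 r w δ i) := by
  unfold prof
  split_ifs
  · exact contDiff_apl _ _ _ _ _
  · exact contDiff_plat _ _ _
  · exact contDiff_apl _ _ _ _ _

variable {a b s c0 r w δ}

theorem prof_eventually_zero (hw : ∀ m, 0 < w m) (hδ : 0 < δ) (i : Fin 3) {x : ℝ}
    (hx : (w i : ℝ) + δ < |x - r i|) : prof a b s c0 r w δ i =ᶠ[𝓝 x] fun _ => 0 := by
  have hδ' : (0 : ℝ) < δ := by exact_mod_cast hδ
  have hwi : (0 : ℝ) < w i := by exact_mod_cast hw i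
  have hlh : (r i : ℝ) - w i ≤ r i + w i := by linarith
  have hx' : x < (r i : ℝ) - w i - δ ∨ (r i : ℝ) + w i + δ < x := by
    rcases lt_abs.1 hx with h | h
    · right; linarith
    · left; linarith
  unfold prof
  split_ifs
  · exact apl_eventually_zero hδ' hlh hx'
  · exact plat_eventually_zero hδ' hlh hx'
  · exact apl_eventually_zero hδ' hlh hx'

theorem prof_zero (hw : ∀ m, 0 < w m) (hδ : 0 < δ) (i : Fin 3) {x : ℝ}
    (hx : (w i : ℝ) + δ < |x - r i|) : prof a b s c0 r w δ i x = 0 :=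
  (prof_eventually_zero hw hδ i hx).eq_of_nhds

theorem deriv_prof_zero (hw : ∀ m, 0 < w m) (hδ : 0 < δ) (i : Fin 3) {x : ℝ}
    (hx : (w i : ℝ) + δ < |x - r i|) : deriv (prof a b s c0 r w δ i) x = 0 := by
  rw [(prof_eventually_zero hw hδ i hx).deriv_eq]; simp

theorem dAt_prof_zero (hw : ∀ m, 0 < w m) (hδ : 0 < δ) (c i : Fin 3) {x : ℝ}
    (hx : (w i : ℝ) + δ < |x - r i|) : dAt c (prof a b s c0 r w δ) i x = 0 := by
  unfold dAt
  split_ifs
  · exact deriv_prof_zero hw hδ i hx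
  · exact prof_zero hw hδ i hx

theorem mem_Icc_of_abs {x ri wi : ℝ} (hx : |x - ri| ≤ wi) : ri - wi ≤ x ∧ x ≤ ri + wi := by
  have := abs_le.1 hx
  constructor <;> linarith [this.1, this.2]

theorem prof_a (hδ : 0 < δ) {x : ℝ} (hx : |x - r a| ≤ w a) :
    prof a b s c0 r w δ a x = c0 + s * x := by
  have hδ' : (0 : ℝ) < δ := by exact_mod_cast hδ
  obtain ⟨h1, h2⟩ := mem_Icc_of_abs hx
  have : prof a b s c0 r w δ a = apl c0 s (r a - w a) (r a + w a) δ := by
    unfold prof; simp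
  rw [this]
  exact (apl_eventually_affine hδ' h1 h2).eq_of_nhds

theorem prof_b (hab : a ≠ b) (hδ : 0 < δ) {x : ℝ} (hx : |x - r b| ≤ w b) :
    prof a b s c0 r w δ b x = 1 ∧ deriv (prof a b s c0 r w δ b) x = 0 := by
  have hδ' : (0 : ℝ) < δ := by exact_mod_cast hδ
  obtain ⟨h1, h2⟩ := mem_Icc_of_abs hx
  have : prof a b s c0 r w δ b = plat (r b - w b) (r b + w b) δ := by
    unfold prof; simp [hab.symm]
  rw [this]
  refine ⟨(plat_eventually_one hδ' h1 h2).eq_of_nhds, ?_⟩
  rw [(plat_eventually_one hδ' h1 h2).deriv_eq]; simp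

theorem prof_c {c : Fin 3} (hac : a ≠ c) (hbc : b ≠ c) (hδ : 0 < δ) {x : ℝ}
    (hx : |x - r c| ≤ w c) : deriv (prof a b s c0 r w δ c) x = 1 := by
  have hδ' : (0 : ℝ) < δ := by exact_mod_cast hδ
  obtain ⟨h1, h2⟩ := mem_Icc_of_abs hx
  have : prof a b s c0 r w δ c = apl 0 1 (r c - w c) (r c + w c) δ := by
    unfold prof; simp [hac.symm, hbc.symm]
  rw [this, (apl_eventually_affine hδ' h1 h2).deriv_eq]
  simp

end prof

theorem prod_three {a b c : Fin 3} (hab : a ≠ b) (hac : a ≠ c) (hbc : b ≠ c) (g : Fin 3 → ℝ) :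
    ∏ i, g i = g a * g b * g c := by
  rw [Fin.prod_univ_three]
  fin_cases a <;> fin_cases b <;> fin_cases c <;>
    first
      | exact absurd rfl hab
      | exact absurd rfl hac
      | exact absurd rfl hbc
      | (simp only [Fin.zero_eta, Fin.mk_one, Fin.reduceFinMk]; done)
      | (simp only [Fin.zero_eta, Fin.mk_one, Fin.reduceFinMk]; ring)

end Elem

open Elem in
theorem elem_props (a b c : Fin 3) (hab : a ≠ b) (hac : a ≠ c) (hbc : b ≠ c) (s c0 : ℚ)
    (r w : Fin 3 → ℚ) (hw : ∀ m, 0 < w m) (δ : ℚ) (hδ : 0 < δ) (α β : ℚ) (hαβ : α < β) :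
    ContDiff ℝ ∞ (elemField a b c s c0 r w δ α β) ∧
    HasCompactSupport (elemField a b c s c0 r w δ α β) ∧
    (∀ p, p.1 ∉ Set.Ioo (α : ℝ) β → elemField a b c s c0 r w δ α β p = 0) ∧
    (∀ p, spaceDiv (elemField a b c s c0 r w δ α β) p = 0) ∧
    (∀ t x, x ∉ box r (fun m => w m + δ) → elemField a b c s c0 r w δ α β (t, x) = 0) ∧
    (∀ t x, x ∈ box r w → elemField a b c s c0 r w δ α β (t, x) =
      Pi.single b (deriv (tim α β) t * ((s : ℝ) * x a + c0))) := by
  have hαβ' : (α : ℝ) < β := by exact_mod_cast hαβ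
  have hθ := contDiff_deriv_tim (α : ℝ) β
  have hf := contDiff_prof a b s c0 r w δ
  -- vanishing in time
  have H3 : ∀ p : ℝ × (Fin 3 → ℝ), p.1 ∉ Set.Ioo (α : ℝ) β →
      elemField a b c s c0 r w δ α β p = 0 := by
    intro p hp
    have h0 := deriv_tim_eq_zero hαβ' hp
    funext j
    simp only [elemField, curlField, tens, h0, zero_mul, neg_zero, Pi.zero_apply]
    split_ifs <;> rfl
  -- vanishing in space
  have H5 : ∀ (t : ℝ) (x : Fin 3 → ℝ), x ∉ box r (fun m => w m + δ) →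
      elemField a b c s c0 r w δ α β (t, x) = 0 := by
    intro t x hx
    have : ∃ m, (w m : ℝ) + δ < |x m - r m| := by
      by_contra hcon
      push Not at hcon
      apply hx
      intro j
      have := hcon j
      push_cast
      exact this
    obtain ⟨m, hm⟩ := this
    have hz : ∀ d : Fin 3, ∏ i, dAt d (prof a b s c0 r w δ) i (x i) = 0 := fun d =>
      Finset.prod_eq_zero (Finset.mem_univ m) (dAt_prof_zero hw hδ d m hm)
    funext j
    simp only [elemField, curlField, tens, hz, mul_zero, neg_zero, Pi.zero_apply]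
    split_ifs <;> rfl
  refine ⟨contDiff_curlField b c hθ hf, ?_, H3, fun p => spaceDiv_curlField b c hbc hθ hf p, H5, ?_⟩
  · -- compact support
    have hK : IsCompact (Set.Icc (α : ℝ) β ×ˢ
        Set.pi Set.univ (fun j : Fin 3 => Set.Icc ((r j : ℝ) - (w j + δ)) (r j + (w j + δ)))) :=
      isCompact_Icc.prod (isCompact_univ_pi fun _ => isCompact_Icc)
    refine HasCompactSupport.intro hK ?_
    rintro ⟨t, x⟩ hp
    by_cases ht : t ∈ Set.Icc (α : ℝ) β
    · apply H5
      intro hx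
      apply hp
      refine ⟨ht, fun j _ => ?_⟩
      have := hx j
      push_cast at this
      exact mem_Icc_of_abs this
    · apply H3
      intro h
      exact ht ⟨h.1.le, h.2.le⟩
  · intro t x hx
    have ha := prof_a (b := b) (s := s) (c0 := c0) hδ (hx a)
    obtain ⟨hb1, hb2⟩ := prof_b (s := s) (c0 := c0) hab hδ (hx b)
    have hc := prof_c (s := s) (c0 := c0) hac hbc hδ (hx c)
    funext j
    simp only [elemField, curlField, tens]
    by_cases hjb : j = b
    · subst hjb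
      rw [if_pos rfl, Pi.single_eq_same, prod_three hab hac hbc]
      simp only [dAt, if_neg hac, if_neg hbc, if_true, ha, hb1, hc]
      ring
    · rw [if_neg hjb, Pi.single_eq_of_ne hjb]
      by_cases hjc : j = c
      · rw [if_pos hjc, prod_three hab hac hbc]
        simp only [dAt, if_neg hab, if_true, hb2]
        ring
      · rw [if_neg hjc]

end Crest.Agent.S0170
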