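import Crest.Agent.S0170_Stp

/-! S0170, package G1b (helper1): one-dimensional lemmas on `plat`, `apl`, `tim`. -/

set_option autoImplicit false
open scoped ContDiff Topology

namespace Crest.Agent.S0170

/-! ### smoothness -/

theorem plat_contDiff (lo hi δ : ℝ) : ContDiff ℝ ∞ (plat lo hi δ) := by
  unfold plat
  apply ContDiff.sub
  · exact stp_contDiff.comp (by fun_prop)
  · exact stp_contDiff.comp (by fun_prop)

theorem apl_contDiff (A B lo hi δ : ℝ) : ContDiff ℝ ∞ (apl A B lo hi δ) := by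
  unfold apl
  exact ContDiff.mul (by fun_prop) (plat_contDiff lo hi δ)

theorem tim_contDiff (α β : ℝ) : ContDiff ℝ ∞ (tim α β) := by
  unfold tim
  exact stp_contDiff.comp (by fun_prop)

theorem contDiff_deriv_of_contDiff {f : ℝ → ℝ} (hf : ContDiff ℝ ∞ f) : ContDiff ℝ ∞ (deriv f) := by
  have h : ContDiff ℝ (∞ + 1) f := by simpa using hf
  exact (contDiff_succ_iff_deriv.1 h).2.2

theorem deriv_plat_contDiff (lo hi δ : ℝ) : ContDiff ℝ ∞ (deriv (plat lo hi δ)) :=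
  contDiff_deriv_of_contDiff (plat_contDiff lo hi δ)

theorem deriv_apl_contDiff (A B lo hi δ : ℝ) : ContDiff ℝ ∞ (deriv (apl A B lo hi δ)) :=
  contDiff_deriv_of_contDiff (apl_contDiff A B lo hi δ)

theorem deriv_tim_contDiff (α β : ℝ) : ContDiff ℝ ∞ (deriv (tim α β)) :=
  contDiff_deriv_of_contDiff (tim_contDiff α β)

/-! ### values of `plat` -/

theorem plat_eq_one {lo hi δ x : ℝ} (hδ : 0 < δ) (h1 : lo - δ / 3 ≤ x) (h2 : x ≤ hi + δ / 3) :
    plat lo hi δ x = 1 := by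
  unfold plat
  rw [stp_one, stp_zero]
  · norm_num
  · have : 3 * (x - hi) / δ ≤ 1 := by
      rw [div_le_one hδ]; linarith
    linarith
  · have : -1 ≤ 3 * (x - lo) / δ := by
      rw [le_div_iff₀ hδ]; linarith
    linarith

theorem plat_eq_zero {lo hi δ x : ℝ} (hδ : 0 < δ) (hlh : lo ≤ hi)
    (h : x ≤ lo - 5 * δ / 6 ∨ hi + 5 * δ / 6 ≤ x) : plat lo hi δ x = 0 := by
  unfold plat
  rcases h with h | h
  · rw [stp_zero, stp_zero]
    · norm_num
    · have : 3 * (x - hi) / δ ≤ 0 := by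
        apply div_nonpos_of_nonpos_of_nonneg _ hδ.le
        nlinarith
      linarith
    · have : 3 * (x - lo) / δ ≤ -5 / 2 := by
        rw [div_le_iff₀ hδ]; linarith
      linarith
  · rw [stp_one, stp_one]
    · norm_num
    · have : 5 / 2 ≤ 3 * (x - hi) / δ := by
        rw [le_div_iff₀ hδ]; linarith
      linarith
    · have : 0 ≤ 3 * (x - lo) / δ := by
        apply div_nonneg _ hδ.le
        nlinarith
      linarith

theorem plat_eventuallyEq_one {lo hi δ x : ℝ} (hδ : 0 < δ) (h1 : lo ≤ x) (h2 : x ≤ hi) :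
    plat lo hi δ =ᶠ[𝓝 x] fun _ => 1 := by
  have hmem : Set.Ioo (lo - δ / 3) (hi + δ / 3) ∈ 𝓝 x :=
    Ioo_mem_nhds (by linarith) (by linarith)
  filter_upwards [hmem] with y hy
  exact plat_eq_one hδ hy.1.le hy.2.le

theorem plat_eventuallyEq_zero {lo hi δ x : ℝ} (hδ : 0 < δ) (hlh : lo ≤ hi)
    (h : x ∉ Set.Ioo (lo - δ) (hi + δ)) : plat lo hi δ =ᶠ[𝓝 x] fun _ => 0 := by
  have h' : x ≤ lo - δ ∨ hi + δ ≤ x := by
    by_contra hc
    push Not at hc
    exact h ⟨hc.1, hc.2⟩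
  rcases h' with h' | h'
  · filter_upwards [Iio_mem_nhds (show x < lo - 5 * δ / 6 by linarith)] with y hy
    exact plat_eq_zero hδ hlh (Or.inl (le_of_lt hy))
  · filter_upwards [Ioi_mem_nhds (show hi + 5 * δ / 6 < x by linarith)] with y hy
    exact plat_eq_zero hδ hlh (Or.inr (le_of_lt hy))

theorem plat_of_mem {lo hi δ x : ℝ} (hδ : 0 < δ) (h1 : lo ≤ x) (h2 : x ≤ hi) :
    plat lo hi δ x = 1 := (plat_eventuallyEq_one hδ h1 h2).eq_of_nhds

theorem plat_of_not_mem {lo hi δ x : ℝ} (hδ : 0 < δ) (hlh : lo ≤ hi)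
    (h : x ∉ Set.Ioo (lo - δ) (hi + δ)) : plat lo hi δ x = 0 :=
  (plat_eventuallyEq_zero hδ hlh h).eq_of_nhds

theorem deriv_plat_of_mem {lo hi δ x : ℝ} (hδ : 0 < δ) (h1 : lo ≤ x) (h2 : x ≤ hi) :
    deriv (plat lo hi δ) x = 0 := by
  rw [(plat_eventuallyEq_one hδ h1 h2).deriv_eq]; simp

theorem deriv_plat_of_not_mem {lo hi δ x : ℝ} (hδ : 0 < δ) (hlh : lo ≤ hi)
    (h : x ∉ Set.Ioo (lo - δ) (hi + δ)) : deriv (plat lo hi δ) x = 0 := by
  rw [(plat_eventuallyEq_zero hδ hlh h).deriv_eq]; simp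

/-! ### values of `apl` -/

theorem apl_eventuallyEq {A B lo hi δ x : ℝ} (hδ : 0 < δ) (h1 : lo ≤ x) (h2 : x ≤ hi) :
    apl A B lo hi δ =ᶠ[𝓝 x] fun y => A + B * y := by
  filter_upwards [plat_eventuallyEq_one hδ h1 h2] with y hy
  unfold apl
  rw [hy, mul_one]

theorem apl_eventuallyEq_zero {A B lo hi δ x : ℝ} (hδ : 0 < δ) (hlh : lo ≤ hi)
    (h : x ∉ Set.Ioo (lo - δ) (hi + δ)) : apl A B lo hi δ =ᶠ[𝓝 x] fun _ => 0 := by
  filter_upwards [plat_eventuallyEq_zero hδ hlh h] with y hy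
  unfold apl
  rw [hy, mul_zero]

theorem apl_of_mem {A B lo hi δ x : ℝ} (hδ : 0 < δ) (h1 : lo ≤ x) (h2 : x ≤ hi) :
    apl A B lo hi δ x = A + B * x := (apl_eventuallyEq hδ h1 h2).eq_of_nhds

theorem apl_of_not_mem {A B lo hi δ x : ℝ} (hδ : 0 < δ) (hlh : lo ≤ hi)
    (h : x ∉ Set.Ioo (lo - δ) (hi + δ)) : apl A B lo hi δ x = 0 :=
  (apl_eventuallyEq_zero hδ hlh h).eq_of_nhds

theorem deriv_apl_of_mem {A B lo hi δ x : ℝ} (hδ : 0 < δ) (h1 : lo ≤ x) (h2 : x ≤ hi) :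
    deriv (apl A B lo hi δ) x = B := by
  rw [(apl_eventuallyEq hδ h1 h2).deriv_eq]
  have : HasDerivAt (fun y : ℝ => A + B * y) B x := by
    simpa using ((hasDerivAt_id x).const_mul B).const_add A
  exact this.deriv

theorem deriv_apl_of_not_mem {A B lo hi δ x : ℝ} (hδ : 0 < δ) (hlh : lo ≤ hi)
    (h : x ∉ Set.Ioo (lo - δ) (hi + δ)) : deriv (apl A B lo hi δ) x = 0 := by
  rw [(apl_eventuallyEq_zero hδ hlh h).deriv_eq]; simp

/-! ### `tim` -/

theorem tim_eq_zero {α β t : ℝ} (h : α < β) (ht : t ≤ α + (β - α) / 6) : tim α β t = 0 := by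
  unfold tim
  apply stp_zero
  have hβ : 0 < β - α := by linarith
  have : 3 * (t - α) / (β - α) ≤ 1 / 2 := by
    rw [div_le_iff₀ hβ]; linarith
  linarith

theorem tim_eq_one {α β t : ℝ} (h : α < β) (ht : α + 2 * (β - α) / 3 ≤ t) : tim α β t = 1 := by
  unfold tim
  apply stp_one
  have hβ : 0 < β - α := by linarith
  have : 2 ≤ 3 * (t - α) / (β - α) := by
    rw [le_div_iff₀ hβ]; linarith
  linarith

theorem tim_props (α β : ℝ) (h : α < β) :
    ContDiff ℝ ∞ (tim α β) ∧ (∀ t ≤ α, tim α β t = 0) ∧ (∀ t, β ≤ t → tim α β t = 1) ∧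
      (∀ t, tim α β t ∈ Set.Icc (0 : ℝ) 1) ∧ ∀ t, t ∉ Set.Ioo α β → deriv (tim α β) t = 0 := by
  refine ⟨tim_contDiff α β, fun t ht => tim_eq_zero h (by linarith),
    fun t ht => tim_eq_one h (by linarith), fun t => stp_mem _, fun t ht => ?_⟩
  have h' : t ≤ α ∨ β ≤ t := by
    by_contra hc
    push Not at hc
    exact ht ⟨hc.1, hc.2⟩
  rcases h' with h' | h'
  · have : tim α β =ᶠ[𝓝 t] fun _ => 0 := by
      filter_upwards [Iio_mem_nhds (show t < α + (β - α) / 6 by linarith)] with y hy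
      exact tim_eq_zero h (le_of_lt hy)
    rw [this.deriv_eq]; simp
  · have : tim α β =ᶠ[𝓝 t] fun _ => 1 := by
      filter_upwards [Ioi_mem_nhds (show α + 2 * (β - α) / 3 < t by linarith)] with y hy
      exact tim_eq_one h (le_of_lt hy)
    rw [this.deriv_eq]; simp

end Crest.Agent.S0170
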