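import Crest.Agent.S0170_RatComp

/-! # S0170, package C1: arithmetic of `ℚ` is computable (for Mathlib's `Primcodable ℚ`)

Everything is derived from the (stronger) `Primrec` statements of `S0170_RatComp`. -/

set_option autoImplicit false

namespace Crest.Agent.S0170

open RatComp

theorem ceil_div_aux (m d : ℕ) (hd : 0 < d) : ⌈(m : ℚ) / (d : ℚ)⌉₊ = (m + d - 1) / d := by
  have hdq : (0 : ℚ) < d := by exact_mod_cast hd
  apply le_antisymm
  · rw [Nat.ceil_le, div_le_iff₀ hdq]
    have h1 : m + d - 1 < ((m + d - 1) / d + 1) * d := by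
      have := Nat.lt_div_mul_add (a := m + d - 1) hd
      nlinarith
    have h2 : m ≤ ((m + d - 1) / d) * d := by
      have : ((m + d - 1) / d + 1) * d = ((m + d - 1) / d) * d + d := by ring
      omega
    exact_mod_cast h2
  · rw [Nat.div_le_iff_le_mul_add_pred hd]
    have h := Nat.le_ceil ((m : ℚ) / d)
    rw [div_le_iff₀ hdq] at h
    have h2 : m ≤ ⌈(m : ℚ) / d⌉₊ * d := by exact_mod_cast h
    have : d * ⌈(m : ℚ) / d⌉₊ = ⌈(m : ℚ) / d⌉₊ * d := by ring
    omega

theorem ceil_abs_eq (q : ℚ) : ⌈|q|⌉₊ = (q.num.natAbs + q.den - 1) / q.den := by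
  have hd : 0 < q.den := q.den_pos
  have hq : |q| = (q.num.natAbs : ℚ) / (q.den : ℚ) := by
    conv_lhs => rw [← Rat.num_div_den q]
    rw [abs_div, Nat.abs_cast, Nat.cast_natAbs, Int.cast_abs]
  rw [hq, ceil_div_aux _ _ hd]

theorem primrec_ceil_abs : Primrec (fun q : ℚ => ⌈|q|⌉₊) := by
  have h : Primrec (fun q : ℚ => (q.num.natAbs + q.den - 1) / q.den) :=
    Primrec.nat_div.comp
      (Primrec.nat_sub.comp (Primrec.nat_add.comp primrec_natAbs_num primrec_den)
        (Primrec.const 1)) primrec_den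
  exact h.of_eq fun q => (ceil_abs_eq q).symm

theorem rat_natCast : Computable (fun n : ℕ => (n : ℚ)) := primrec_natCast.to_comp
theorem rat_add : Computable₂ (fun a b : ℚ => a + b) := primrec_add.to_comp
theorem rat_sub : Computable₂ (fun a b : ℚ => a - b) := primrec_sub.to_comp
theorem rat_neg : Computable (fun a : ℚ => -a) := primrec_neg.to_comp
theorem rat_mul : Computable₂ (fun a b : ℚ => a * b) := primrec_mul.to_comp
theorem rat_div : Computable₂ (fun a b : ℚ => a / b) := primrec_div.to_comp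
theorem rat_le : Computable (fun p : ℚ × ℚ => decide (p.1 ≤ p.2)) := by
  have h := primrecRel_le
  exact (PrimrecPred.decide h).to_comp
theorem rat_ceil_abs : Computable (fun q : ℚ => ⌈|q|⌉₊) := primrec_ceil_abs.to_comp

end Crest.Agent.S0170
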