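import Crest.Agent.S0170_Defs
import Crest.Agent.S0170_QComp

/-! C2a: closure properties of `CompR`. -/

set_option autoImplicit false
open scoped ContDiff
open Crest.AnalysisR.BoxFlow

namespace Crest.Agent.S0170

section C2
variable {α β : Type} [Primcodable α] [Primcodable β]

theorem CompR.of_rat {f : α → ℚ} (hf : Computable f) : CompR (fun a => (f a : ℝ)) :=
  ⟨fun p => f p.1, hf.comp Computable.fst, fun a n => by
    simp only [sub_self, abs_zero]; positivity⟩

theorem CompR.comp {F : β → ℝ} (hF : CompR F) {g : α → β} (hg : Computable g) :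
    CompR (fun a => F (g a)) := by
  obtain ⟨e, he, h⟩ := hF
  exact ⟨fun p => e (g p.1, p.2), he.comp ((hg.comp Computable.fst).pair Computable.snd),
    fun a n => h (g a) n⟩

theorem CompR.exists_bound {F : α → ℝ} (hF : CompR F) :
    ∃ B : α → ℕ, Computable B ∧ ∀ a, |F a| ≤ (B a : ℝ) := by
  obtain ⟨e, he, h⟩ := hF
  refine ⟨fun a => ⌈|e (a, 0)|⌉₊ + 1, ?_, fun a => ?_⟩
  · exact Computable.succ.comp
      (rat_ceil_abs.comp (he.comp (Computable.id.pair (Computable.const 0))))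
  · have h0 := h a 0
    simp only [Nat.cast_zero, zero_add, div_one] at h0
    have h1 : |e (a, 0)| ≤ (⌈|e (a, 0)|⌉₊ : ℚ) := Nat.le_ceil _
    have h2 : |(e (a, 0) : ℝ)| ≤ (⌈|e (a, 0)|⌉₊ : ℝ) := by exact_mod_cast h1
    have h3 : |F a| ≤ |F a - (e (a, 0) : ℝ)| + |(e (a, 0) : ℝ)| := by
      have := abs_add_le (F a - (e (a, 0) : ℝ)) (e (a, 0) : ℝ)
      simpa using this
    push_cast
    linarith

theorem CompR.add {F G : α → ℝ} (hF : CompR F) (hG : CompR G) : CompR (fun a => F a + G a) := by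
  obtain ⟨e, he, h⟩ := hF
  obtain ⟨e', he', h'⟩ := hG
  have hN : Computable (fun p : α × ℕ => (p.1, 2 * p.2 + 1)) :=
    Computable.fst.pair (Primrec.nat_double_succ.to_comp.comp Computable.snd)
  refine ⟨fun p => e (p.1, 2 * p.2 + 1) + e' (p.1, 2 * p.2 + 1),
    rat_add.comp (he.comp hN) (he'.comp hN), fun a n => ?_⟩
  have h1 := h a (2 * n + 1)
  have h2 := h' a (2 * n + 1)
  have e1 : (1 : ℝ) / (((2 * n + 1 : ℕ) : ℝ) + 1) = 1 / ((n : ℝ) + 1) / 2 := by
    push_cast
    have : (n : ℝ) + 1 ≠ 0 := by positivity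
    field_simp
    ring
  rw [e1] at h1 h2
  push_cast
  have : F a + G a - ((e (a, 2 * n + 1) : ℝ) + (e' (a, 2 * n + 1) : ℝ)) =
      (F a - e (a, 2 * n + 1)) + (G a - e' (a, 2 * n + 1)) := by ring
  rw [this]
  refine (abs_add_le _ _).trans ?_
  linarith

theorem CompR.neg {F : α → ℝ} (hF : CompR F) : CompR (fun a => - F a) := by
  obtain ⟨e, he, h⟩ := hF
  refine ⟨fun p => - e p, rat_neg.comp he, fun a n => ?_⟩
  have := h a n
  push_cast
  rwa [← neg_sub', abs_neg]

theorem CompR.sub {F G : α → ℝ} (hF : CompR F) (hG : CompR G) : CompR (fun a => F a - G a) := by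
  simpa only [sub_eq_add_neg] using hF.add hG.neg

theorem CompR.mul {F G : α → ℝ} (hF : CompR F) (hG : CompR G) : CompR (fun a => F a * G a) := by
  obtain ⟨B, hB, hBF⟩ := hF.exists_bound
  obtain ⟨B', hB', hBG⟩ := hG.exists_bound
  obtain ⟨e, he, h⟩ := hF
  obtain ⟨e', he', h'⟩ := hG
  have hN : Computable (fun p : α × ℕ => (p.1, (B p.1 + B' p.1 + 1) * (p.2 + 1))) := by
    refine Computable.fst.pair ?_
    refine (Primrec.nat_mul.to_comp).comp ?_ (Computable.succ.comp Computable.snd)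
    exact Computable.succ.comp ((Primrec.nat_add.to_comp).comp (hB.comp Computable.fst)
      (hB'.comp Computable.fst))
  refine ⟨fun p => e (p.1, (B p.1 + B' p.1 + 1) * (p.2 + 1)) *
      e' (p.1, (B p.1 + B' p.1 + 1) * (p.2 + 1)),
    rat_mul.comp (he.comp hN) (he'.comp hN), fun a n => ?_⟩
  set N := (B a + B' a + 1) * (n + 1) with hNdef
  have h1 := h a N
  have h2 := h' a N
  have hn : (0 : ℝ) < (n : ℝ) + 1 := by positivity
  have hN1 : (0 : ℝ) < (N : ℝ) + 1 := by positivity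
  set ε : ℝ := 1 / ((N : ℝ) + 1) with hε
  have hε0 : 0 ≤ ε := by positivity
  have hε1 : ε ≤ 1 := by
    rw [hε, div_le_one hN1]
    have : (0 : ℝ) ≤ N := Nat.cast_nonneg _
    linarith
  have hKε : ((B a : ℝ) + B' a + 1) * ε ≤ 1 / ((n : ℝ) + 1) := by
    rw [hε, mul_one_div, div_le_div_iff₀ hN1 hn, hNdef]
    push_cast
    nlinarith
  have he'b : |(e' (a, N) : ℝ)| ≤ (B' a : ℝ) + 1 := by
    have : |(e' (a, N) : ℝ)| ≤ |G a - (e' (a, N) : ℝ)| + |G a| := by
      have := abs_sub_abs_le_abs_sub (e' (a, N) : ℝ) (G a)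
      rw [abs_sub_comm] at this
      linarith
    have := hBG a
    linarith
  push_cast
  have key : F a * G a - (e (a, N) : ℝ) * (e' (a, N) : ℝ) =
      F a * (G a - e' (a, N)) + (F a - e (a, N)) * e' (a, N) := by ring
  rw [key]
  refine (abs_add_le _ _).trans ?_
  rw [abs_mul, abs_mul]
  have t1 : |F a| * |G a - (e' (a, N) : ℝ)| ≤ (B a : ℝ) * ε :=
    mul_le_mul (hBF a) h2 (abs_nonneg _) (Nat.cast_nonneg _)
  have t2 : |F a - (e (a, N) : ℝ)| * |(e' (a, N) : ℝ)| ≤ ε * ((B' a : ℝ) + 1) :=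
    mul_le_mul h1 he'b (abs_nonneg _) hε0
  nlinarith

theorem CompR.ite {F G : α → ℝ} {c : α → Bool} (hc : Computable c) (hF : CompR F) (hG : CompR G) :
    CompR (fun a => if c a then F a else G a) := by
  obtain ⟨e, he, h⟩ := hF
  obtain ⟨e', he', h'⟩ := hG
  refine ⟨fun p => cond (c p.1) (e p) (e' p), Computable.cond (hc.comp Computable.fst) he he',
    fun a n => ?_⟩
  cases hca : c a
  · simpa [hca] using h' a n
  · simpa [hca] using h a n

end C2

end Crest.Agent.S0170
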