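import Crest.Agent.S0170_Defs
import Crest.Agent.S0170_QComp
import Crest.Agent.S0170_CompR
import Crest.Agent.S0170_Mixed

/-! C6b: effectiveness of sums and of the elementary tensor fields. -/

set_option autoImplicit false
open scoped ContDiff
open Crest.AnalysisR.BoxFlow

namespace Crest.Agent.S0170

namespace Tensor

/-- index type of the evaluator -/
abbrev Idx : Type := List (Fin 4) × (ℚ × (Fin 3 → ℚ))

theorem computable_pi {α σ : Type} [Primcodable α] [Primcodable σ] {n : ℕ} {F : α → Fin n → σ}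
    (h : ∀ i, Computable (fun a => F a i)) : Computable F :=
  ((Primrec.vector_get'.to_comp).comp (Computable.vector_ofFn h)).of_eq fun a => by
    funext i; simp

theorem effective_iff (U : Field) : Effective U ↔
    (∀ j : Fin 3, CompR (fun x : Idx => mixedDeriv x.1 U ((x.2.1 : ℝ), ratPoint x.2.2) j)) ∧
      ∃ bound : List (Fin 4) → ℕ, Computable bound ∧
        ∀ (ds : List (Fin 4)) (p : ℝ × (Fin 3 → ℝ)) (j : Fin 3),
          |mixedDeriv ds U p j| ≤ (bound ds : ℝ) := by
  constructor
  · rintro ⟨E, bound, hE, hb, h1, h2⟩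
    refine ⟨fun j => ⟨fun y => E (y.1.1, y.1.2, y.2) j, ?_, fun x n => ?_⟩, bound, hb, h2⟩
    · have h3 : Computable (fun y : Idx × ℕ => E (y.1.1, y.1.2, y.2)) :=
        hE.comp ((Computable.fst.comp Computable.fst).pair
          ((Computable.snd.comp Computable.fst).pair Computable.snd))
      exact Computable.fin_app.comp h3 (Computable.const j)
    · exact h1 x.1 x.2.1 x.2.2 n j
  · rintro ⟨h, bound, hb, h2⟩
    choose e he hs using h
    refine ⟨fun y j => e j ((y.1, y.2.1), y.2.2), bound, ?_, hb, fun ds t q n j => ?_, h2⟩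
    · refine computable_pi fun j => (he j).comp ?_
      exact (Computable.fst.pair (Computable.fst.comp Computable.snd)).pair
        (Computable.snd.comp Computable.snd)
    · exact hs j (ds, (t, q)) n

theorem computable_count (d : Fin 4) : Computable (fun x : Idx => x.1.count d) :=
  ((RatComp.primrec_list_count d).to_comp).comp Computable.fst

theorem compR_tens {θ : ℝ → ℝ} {f : Fin 3 → ℝ → ℝ} (hθ : Eff1 θ) (hf : ∀ i, Eff1 (f i))
    (δ : Fin 3 → ℕ) :
    CompR (fun x : Idx => tens (iteratedDeriv (x.1.count 0) θ)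
      (fun i => iteratedDeriv (x.1.count i.succ + δ i) (f i)) ((x.2.1 : ℝ), ratPoint x.2.2)) := by
  have h0 : CompR (fun x : Idx => iteratedDeriv (x.1.count 0) θ (x.2.1 : ℝ)) :=
    hθ.comp.comp (g := fun x : Idx => (x.1.count 0, x.2.1))
      ((computable_count 0).pair (Computable.fst.comp Computable.snd))
  have hi : ∀ i : Fin 3, CompR (fun x : Idx =>
      iteratedDeriv (x.1.count i.succ + δ i) (f i) ((x.2.2 i : ℚ) : ℝ)) := fun i =>
    (hf i).comp.comp (g := fun x : Idx => (x.1.count i.succ + δ i, x.2.2 i))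
      (((Primrec.nat_add.to_comp).comp (computable_count i.succ) (Computable.const (δ i))).pair
        (Computable.fin_app.comp (Computable.snd.comp Computable.snd) (Computable.const i)))
  have := h0.mul (((hi 0).mul (hi 1)).mul (hi 2))
  simpa only [tens, Fin.prod_univ_three, ratPoint] using this

theorem bound_tens {θ : ℝ → ℝ} {f : Fin 3 → ℝ → ℝ} (hθ : Eff1 θ) (hf : ∀ i, Eff1 (f i))
    (δ : Fin 3 → ℕ) :
    ∃ bound : List (Fin 4) → ℕ, Computable bound ∧ ∀ (ds : List (Fin 4)) (p : ℝ × (Fin 3 → ℝ)),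
      |tens (iteratedDeriv (ds.count 0) θ)
        (fun i => iteratedDeriv (ds.count i.succ + δ i) (f i)) p| ≤ (bound ds : ℝ) := by
  obtain ⟨b0, hb0, h0⟩ := hθ.bound
  choose b hb h using fun i => (hf i).bound
  have hc : ∀ d : Fin 4, Computable (fun ds : List (Fin 4) => ds.count d) := fun d =>
    (RatComp.primrec_list_count d).to_comp
  have hbi : ∀ i : Fin 3, Computable (fun ds : List (Fin 4) => b i (ds.count i.succ + δ i)) :=
    fun i => (hb i).comp ((Primrec.nat_add.to_comp).comp (hc i.succ) (Computable.const (δ i)))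
  refine ⟨fun ds => b0 (ds.count 0) * (b 0 (ds.count (0 : Fin 3).succ + δ 0) *
      b 1 (ds.count (1 : Fin 3).succ + δ 1) * b 2 (ds.count (2 : Fin 3).succ + δ 2)), ?_,
    fun ds p => ?_⟩
  · exact (Primrec.nat_mul.to_comp).comp (hb0.comp (hc 0))
      ((Primrec.nat_mul.to_comp).comp ((Primrec.nat_mul.to_comp).comp (hbi 0) (hbi 1)) (hbi 2))
  · have := abs_tens_le (θ := iteratedDeriv (ds.count 0) θ)
      (g := fun i => iteratedDeriv (ds.count i.succ + δ i) (f i))
      (B := (b0 (ds.count 0) : ℝ)) (C := fun i => (b i (ds.count i.succ + δ i) : ℝ))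
      (fun t => h0 _ t) (fun i x => h i _ x) p
    rw [Fin.prod_univ_three] at this
    push_cast
    exact this

end Tensor

open Tensor

theorem effective_zero : Effective (0 : Field) := by
  rw [effective_iff]
  refine ⟨fun j => ?_, fun _ => 0, Computable.const 0, fun ds p j => ?_⟩
  · have : CompR (fun _ : Idx => ((0 : ℚ) : ℝ)) := CompR.of_rat (Computable.const 0)
    simpa [mixedDeriv_zero] using this
  · simp [mixedDeriv_zero]

theorem effective_add {U V : Field} (hU : ContDiff ℝ ∞ U) (hV : ContDiff ℝ ∞ V)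
    (eU : Effective U) (eV : Effective V) : Effective (U + V) := by
  rw [effective_iff] at eU eV ⊢
  obtain ⟨cU, bU, hbU, hU2⟩ := eU
  obtain ⟨cV, bV, hbV, hV2⟩ := eV
  refine ⟨fun j => ?_, fun ds => bU ds + bV ds, (Primrec.nat_add.to_comp).comp hbU hbV,
    fun ds p j => ?_⟩
  · have := (cU j).add (cV j)
    simpa only [mixedDeriv_add _ hU hV, Pi.add_apply] using this
  · rw [mixedDeriv_add _ hU hV]
    simp only [Pi.add_apply]
    push_cast
    exact (abs_add_le _ _).trans (add_le_add (hU2 ds p j) (hV2 ds p j))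

theorem effective_curlField (b c : Fin 3) (θ : ℝ → ℝ) (f : Fin 3 → ℝ → ℝ)
    (hθ : Eff1 θ) (hf : ∀ i, Eff1 (f i)) : Effective (curlField b c θ f) := by
  rw [effective_iff]
  have hs : ∀ i, ContDiff ℝ ∞ (f i) := fun i => (hf i).smooth
  obtain ⟨b1, hb1, h1⟩ := bound_tens hθ hf (fun i => if i = c then 1 else 0)
  obtain ⟨b2, hb2, h2⟩ := bound_tens hθ hf (fun i => if i = b then 1 else 0)
  refine ⟨fun j => ?_, fun ds => b1 ds + b2 ds, (Primrec.nat_add.to_comp).comp hb1 hb2,
    fun ds p j => ?_⟩
  · simp only [mixedDeriv_curlField _ b c hθ.smooth hs]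
    by_cases hjb : j = b
    · simp only [hjb, if_true]
      exact compR_tens hθ hf _
    · by_cases hjc : j = c
      · simp only [if_neg hjb, if_pos hjc]
        exact (compR_tens hθ hf _).neg
      · simp only [if_neg hjb, if_neg hjc]
        have : CompR (fun _ : Idx => ((0 : ℚ) : ℝ)) := CompR.of_rat (Computable.const 0)
        simpa using this
  · rw [mixedDeriv_curlField _ b c hθ.smooth hs]
    have n1 : (0 : ℝ) ≤ b1 ds := Nat.cast_nonneg _
    have n2 : (0 : ℝ) ≤ b2 ds := Nat.cast_nonneg _
    push_cast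
    split_ifs
    · linarith [h1 ds p]
    · rw [abs_neg]; linarith [h2 ds p]
    · simp only [abs_zero]; linarith

end Crest.Agent.S0170
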