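import Crest.Agent.S0170_Eff1
import Crest.Agent.S0170_Tensor
import Crest.Agent.S0170_Elem
import Crest.Agent.S0170_OneD

/-! S0170, package G2 (`realize`): a finite sequence of elementary moves is realised by a good field. -/

set_option autoImplicit false
open scoped ContDiff
open Crest.AnalysisR.BoxFlow

namespace Crest.Agent.S0170

namespace Realize

theorem good_zero : Good (0 : Field) := by
  refine ⟨contDiff_const, ?_, effective_zero, ?_⟩
  · exact HasCompactSupport.zero
  · intro p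
    simp [spaceDiv]

theorem good_add {U V : Field} (hU : Good U) (hV : Good V) : Good (U + V) := by
  obtain ⟨sU, cU, eU, dU⟩ := hU
  obtain ⟨sV, cV, eV, dV⟩ := hV
  refine ⟨sU.add sV, cU.add cV, effective_add sU sV eU eV, ?_⟩
  intro p
  have h1 : DifferentiableAt ℝ U p := (sU.differentiable (by simp)).differentiableAt
  have h2 : DifferentiableAt ℝ V p := (sV.differentiable (by simp)).differentiableAt
  have := dU p
  have := dV p
  unfold spaceDiv at *
  rw [fderiv_add h1 h2]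
  simp only [_root_.add_apply, Pi.add_apply, Finset.sum_add_distrib]
  linarith

theorem exists_third (a b : Fin 3) : ∃ c : Fin 3, a ≠ c ∧ b ≠ c := by
  revert a b; decide

theorem eff1_prof (a b : Fin 3) (s c0 : ℚ) (r w : Fin 3 → ℚ) (hw : ∀ m, 0 < w m) (δ : ℚ)
    (hδ : 0 < δ) (i : Fin 3) : Eff1 (prof a b s c0 r w δ i) := by
  have hle : r i - w i ≤ r i + w i := by linarith [hw i]
  unfold prof
  split_ifs
  · have := eff1_apl c0 s (r i - w i) (r i + w i) δ hδ hle
    push_cast at this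
    exact this
  · have := eff1_plat (r i - w i) (r i + w i) δ hδ hle
    push_cast at this
    exact this
  · have := eff1_apl 0 1 (r i - w i) (r i + w i) δ hδ hle
    push_cast at this
    exact this

theorem good_elem (a b c : Fin 3) (hab : a ≠ b) (hac : a ≠ c) (hbc : b ≠ c) (s c0 : ℚ)
    (r w : Fin 3 → ℚ) (hw : ∀ m, 0 < w m) (δ : ℚ) (hδ : 0 < δ) (α β : ℚ) (hαβ : α < β) :
    Good (elemField a b c s c0 r w δ α β) := by
  obtain ⟨h1, h2, -, h4, -, -⟩ := elem_props a b c hab hac hbc s c0 r w hw δ hδ α β hαβ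
  refine ⟨h1, h2, ?_, h4⟩
  exact effective_curlField b c _ _ (eff1_tim α β hαβ).deriv (eff1_prof a b s c0 r w hw δ hδ)

theorem hasDerivAt_shear (a b : Fin 3) (s c0 : ℝ) (y : Fin 3 → ℝ) (θ : ℝ → ℝ) (θ' t : ℝ)
    (h : HasDerivAt θ θ' t) :
    HasDerivAt (fun t => shear a b s c0 (θ t) y) (Pi.single b (θ' * (s * y a + c0))) t := by
  rw [hasDerivAt_pi]
  intro j
  unfold shear
  by_cases hj : j = b
  · subst hj
    simp only [Function.update_self, Pi.single_eq_same]
    exact (h.mul_const _).const_add _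
  · simp only [Function.update_of_ne hj, Pi.single_eq_of_ne hj]
    exact hasDerivAt_const _ _

theorem step_realize {n : ℕ} (B : Fin n → Set (Fin 3 → ℝ)) (T T' : Cfg n) (h : Step B T T')
    (α β : ℚ) (hαβ : α < β) :
    ∃ U : Field, Good U ∧ (∀ p, p.1 ∉ Set.Ioo (α : ℝ) β → U p = 0) ∧
      ∀ i, ∀ x ∈ B i, ∃ γ : ℝ → (Fin 3 → ℝ), (∀ t ≤ (α : ℝ), γ t = T i x) ∧
        (∀ t, (β : ℝ) ≤ t → γ t = T' i x) ∧ ∀ t, HasDerivAt γ (U (t, γ t)) t := by
  obtain ⟨i, a, b, hab, s, c0, r, w, hw, δ, hδ, hin, hout⟩ := h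
  obtain ⟨c, hac, hbc⟩ := exists_third a b
  have hαβ' : (α : ℝ) < β := by exact_mod_cast hαβ
  obtain ⟨e1, e2, e3, e4, e5, e6⟩ := elem_props a b c hab hac hbc s c0 r w hw δ hδ α β hαβ
  obtain ⟨t1, t2, t3, t4, t5⟩ := tim_props α β hαβ'
  refine ⟨elemField a b c s c0 r w δ α β, good_elem a b c hab hac hbc s c0 r w hw δ hδ α β hαβ,
    e3, ?_⟩
  intro j x hx
  by_cases hj : j = i
  · subst hj
    refine ⟨fun t => shear a b s c0 (tim α β t) (T j x), ?_, ?_, ?_⟩
    · intro t ht
      simp only [t2 t ht]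
      unfold shear
      simp
    · intro t ht
      simp only [t3 t ht, Function.update_self]
    · intro t
      have hmem := hin x hx (tim α β t) (t4 t)
      simp only []
      rw [e6 t _ hmem]
      have hd : HasDerivAt (tim α β) (deriv (tim α β) t) t :=
        ((t1.differentiable (by simp)) t).hasDerivAt
      have := hasDerivAt_shear a b s c0 (T j x) (tim α β) _ t hd
      have ha : shear a b (s : ℝ) c0 (tim α β t) (T j x) a = T j x a := by
        unfold shear
        rw [Function.update_of_ne hab]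
      rw [ha]
      exact this
  · refine ⟨fun _ => T j x, fun _ _ => rfl, ?_, ?_⟩
    · intro t _
      rw [Function.update_of_ne hj]
    · intro t
      simp only []
      rw [e5 t _ (hout j hj x hx)]
      exact hasDerivAt_const _ _

end Realize

open Realize in
theorem realize {n : ℕ} (B : Fin n → Set (Fin 3 → ℝ)) (T T' : Cfg n) (h : Reach B T T')
    (α β : ℚ) (hαβ : α < β) :
    ∃ U : Field, Good U ∧ (∀ p, p.1 ∉ Set.Ioo (α : ℝ) β → U p = 0) ∧
      ∀ i, ∀ x ∈ B i, ∃ γ : ℝ → (Fin 3 → ℝ), (∀ t ≤ (α : ℝ), γ t = T i x) ∧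
        (∀ t, (β : ℝ) ≤ t → γ t = T' i x) ∧ ∀ t, HasDerivAt γ (U (t, γ t)) t := by
  induction h generalizing α β with
  | refl =>
    refine ⟨0, good_zero, fun _ _ => rfl, ?_⟩
    intro i x _
    exact ⟨fun _ => T i x, fun _ _ => rfl, fun _ _ => rfl, fun t => hasDerivAt_const _ _⟩
  | @tail T₁ T₂ _ hstep ih =>
    set μ : ℚ := (α + β) / 2 with hμ
    have h1 : α < μ := by rw [hμ]; linarith
    have h2 : μ < β := by rw [hμ]; linarith
    have h1' : (α : ℝ) < μ := by exact_mod_cast h1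
    have h2' : (μ : ℝ) < β := by exact_mod_cast h2
    obtain ⟨U₁, g₁, z₁, p₁⟩ := ih α μ h1
    obtain ⟨U₂, g₂, z₂, p₂⟩ := step_realize B T₁ T₂ hstep μ β h2
    refine ⟨U₁ + U₂, good_add g₁ g₂, ?_, ?_⟩
    · intro p hp
      have a1 : p.1 ∉ Set.Ioo (α : ℝ) μ := fun hh => hp ⟨hh.1, hh.2.trans h2'⟩
      have a2 : p.1 ∉ Set.Ioo (μ : ℝ) β := fun hh => hp ⟨h1'.trans hh.1, hh.2⟩
      simp [z₁ p a1, z₂ p a2]
    · intro i x hx
      obtain ⟨γ₁, s₁, f₁, d₁⟩ := p₁ i x hx
      obtain ⟨γ₂, s₂, f₂, d₂⟩ := p₂ i x hx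
      refine ⟨fun t => γ₁ t + γ₂ t - T₁ i x, ?_, ?_, ?_⟩
      · intro t ht
        simp only [s₁ t ht, s₂ t (ht.trans h1'.le)]
        abel
      · intro t ht
        simp only [f₂ t ht, f₁ t (h2'.le.trans ht)]
        abel
      · intro t
        have hd := ((d₁ t).add (d₂ t)).sub_const (T₁ i x)
        rcases le_total t μ with ht | ht
        · have e : γ₁ t + γ₂ t - T₁ i x = γ₁ t := by rw [s₂ t ht]; abel
          have a2 : ∀ y, U₂ (t, y) = 0 := fun y => z₂ (t, y) (fun hh => absurd hh.1 (not_lt.mpr ht))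
          simp only [e, Pi.add_apply, a2, add_zero]
          simpa [a2] using hd
        · have e : γ₁ t + γ₂ t - T₁ i x = γ₂ t := by rw [f₁ t ht]; abel
          have a1 : ∀ y, U₁ (t, y) = 0 := fun y => z₁ (t, y) (fun hh => absurd hh.2 (not_lt.mpr ht))
          simp only [e, Pi.add_apply, a1, zero_add]
          simpa [a1] using hd

end Crest.Agent.S0170
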