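import Crest.Statements.S0170
import Crest.Agent.S0170_Plan
import Crest.Agent.S0170_Realize
import Crest.Agent.S0170_Flow
import Crest.Agent.S0170_Inflate
import Crest.Agent.S0170_Moves

set_option autoImplicit false
open scoped ContDiff
open Crest.AnalysisR.BoxFlow
open Crest Crest.AnalysisR

namespace Crest.Agent.S0170

theorem result
    (n : ℕ) (a b h k : Fin n → Fin 3 → ℚ)
    (hh : ∀ i j, 0 < h i j) (hk : ∀ i j, 0 < k i j)
    (ha : Pairwise fun i i' => Disjoint (box (a i) (h i)) (box (a i') (h i')))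
    (hb : Pairwise fun i i' => Disjoint (box (b i) (k i)) (box (b i') (k i')))
    (hvol : ∀ i, ∏ j : Fin 3, k i j / h i j = 1) :
    ∃ (U : Field) (Φ : ℝ → (Fin 3 → ℝ) → (Fin 3 → ℝ)),
      ContDiff ℝ ∞ U ∧ HasCompactSupport U ∧ Effective U ∧
      (∀ p : ℝ × (Fin 3 → ℝ), p.1 ∉ Set.Icc (1 / 4 : ℝ) (3 / 4) → U p = 0) ∧
      (∀ p : ℝ × (Fin 3 → ℝ), spaceDiv U p = 0) ∧ IsFlow U Φ ∧
      ∀ i : Fin n, ∃ O : Set (Fin 3 → ℝ), IsOpen O ∧ box (a i) (h i) ⊆ O ∧
        ∀ x ∈ O, Φ 1 x = fun j => (b i j : ℝ) + ((k i j / h i j : ℚ) : ℝ) * (x j - (a i j : ℝ)) := by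
  classical
  obtain ⟨ε, δ, hε, hδ, sa, sb⟩ := exists_inflate a b h k hh hk ha hb
  set h' : Fin n → Fin 3 → ℚ := fun i m => (1 + ε) * h i m with hh'
  set k' : Fin n → Fin 3 → ℚ := fun i m => (1 + ε) * k i m with hk'
  have h1ε : 0 < 1 + ε := by linarith
  have hh'pos : ∀ i j, 0 < h' i j := fun i j => mul_pos h1ε (hh i j)
  have hk'pos : ∀ i j, 0 < k' i j := fun i j => mul_pos h1ε (hk i j)
  have hratio : ∀ i j, k' i j / h' i j = k i j / h i j := by
    intro i j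
    simp only [hh', hk']
    rw [mul_div_mul_left _ _ h1ε.ne']
  have hvol' : ∀ i, ∏ j : Fin 3, k' i j / h' i j = 1 := by
    intro i; simp only [hratio]; exact hvol i
  have hplan := plan a b h' k' hh'pos hk'pos δ hδ sa sb hvol'
  obtain ⟨U, ⟨hU1, hU2, hU3, hU4⟩, hUt, hpath⟩ :=
    realize (fun i => box (a i) (h' i)) _ _ hplan (1 / 4) (3 / 4) (by norm_num)
  have hUt' : ∀ p : ℝ × (Fin 3 → ℝ), p.1 ∉ Set.Icc (1 / 4 : ℝ) (3 / 4) → U p = 0 := by
    intro p hp
    apply hUt p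
    intro hp'
    apply hp
    have h1 := hp'.1
    have h2 := hp'.2
    push_cast at h1 h2
    exact ⟨h1.le, h2.le⟩
  -- the solution curves
  have hex : ∀ x : Fin 3 → ℝ, ∃ γ : ℝ → (Fin 3 → ℝ), γ 0 = x ∧ (∀ t, HasDerivAt γ (U (t, γ t)) t) ∧
      ∀ i, x ∈ box (a i) (h' i) →
        γ 1 = fun j => (b i j : ℝ) + ((k i j / h i j : ℚ) : ℝ) * (x j - (a i j : ℝ)) := by
    intro x
    by_cases hx : ∃ i, x ∈ box (a i) (h' i)
    · obtain ⟨i, hi⟩ := hx
      obtain ⟨γ, g0, g1, g2⟩ := hpath i x hi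
      refine ⟨γ, ?_, g2, ?_⟩
      · rw [g0 0 (by push_cast; norm_num)]
        funext j
        simp [dcfg]
      · intro i' hi'
        have hii : i' = i := by
          by_contra hne
          have hδ' : (0 : ℝ) < δ := by exact_mod_cast hδ
          refine not_mem_box_of_sep (sa i' i hne) hi (fun m => (hi' m).trans ?_)
          have : ((h' i' m : ℚ) : ℝ) ≤ ((h' i' m + δ : ℚ) : ℝ) := by
            push_cast; linarith
          exact this
        subst hii
        rw [g1 1 (by push_cast; norm_num)]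
        funext j
        simp only [dcfg, hratio]
    · obtain ⟨γ, g0, g1⟩ := exists_flow U hU1 hU2 hUt' x
      exact ⟨γ, g0, g1, fun i hi => absurd ⟨i, hi⟩ hx⟩
  choose Γ hΓ0 hΓ1 hΓ2 using hex
  refine ⟨U, fun t x => Γ x t, hU1, hU2, hU3, hUt', hU4, ⟨fun x => hΓ0 x, fun t x => hΓ1 x t⟩, ?_⟩
  intro i
  refine ⟨{x | ∀ j : Fin 3, |x j - (a i j : ℝ)| < (h' i j : ℝ)}, ?_, ?_, ?_⟩
  · have : {x : Fin 3 → ℝ | ∀ j : Fin 3, |x j - (a i j : ℝ)| < (h' i j : ℝ)} =
        ⋂ j : Fin 3, {x | |x j - (a i j : ℝ)| < (h' i j : ℝ)} := by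
      ext x; simp
    rw [this]
    apply isOpen_iInter_of_finite
    intro j
    exact isOpen_lt (by fun_prop) continuous_const
  · intro x hx j
    refine lt_of_le_of_lt (hx j) ?_
    have h1 : h i j < h' i j := by
      simp only [hh']
      nlinarith [hh i j]
    exact_mod_cast h1
  · intro x hx
    exact hΓ2 x i (fun j => (hx j).le)

end Crest.Agent.S0170
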