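import Mathlib
import Crest.Agent.S0170_Defs
import Crest.Agent.S0170_QComp

set_option autoImplicit false

namespace Crest.Agent.S0170

section C2b
variable {α β : Type} [Primcodable α] [Primcodable β]

theorem CompR.of_limit {F : α → ℝ} {G : α × ℕ → ℝ} (hG : CompR G)
    (h : ∀ a n, |F a - G (a, n)| ≤ 1 / ((n : ℝ) + 1)) : CompR F := by
  obtain ⟨e, he, hb⟩ := hG
  refine ⟨fun p => e ((p.1, 2 * p.2 + 1), 2 * p.2 + 1), ?_, ?_⟩
  · have h1 : Computable (fun p : α × ℕ => 2 * p.2 + 1) :=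
      (Primrec.succ.comp (Primrec.nat_mul.comp (Primrec.const 2) Primrec.snd)).to_comp
    exact he.comp ((Computable.fst.pair h1).pair h1)
  · intro a n
    have h1 := h a (2 * n + 1)
    have h2 := hb (a, 2 * n + 1) (2 * n + 1)
    have e1 : (1 : ℝ) / (((2 * n + 1 : ℕ) : ℝ) + 1) = 1 / ((n : ℝ) + 1) / 2 := by
      push_cast; field_simp; ring
    rw [e1] at h1 h2
    calc |F a - (e ((a, 2 * n + 1), 2 * n + 1) : ℝ)|
        = |(F a - G (a, 2 * n + 1)) + (G (a, 2 * n + 1) - (e ((a, 2 * n + 1), 2 * n + 1) : ℝ))| := by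
          congr 1; ring
      _ ≤ |F a - G (a, 2 * n + 1)| + |G (a, 2 * n + 1) - (e ((a, 2 * n + 1), 2 * n + 1) : ℝ)| :=
          abs_add_le _ _
      _ ≤ 1 / ((n : ℝ) + 1) := by linarith

theorem CompR.comp_lipschitz {φ : ℝ → ℝ} {L : ℕ} (hφ : ∀ x y, |φ x - φ y| ≤ L * |x - y|)
    (hq : CompR (fun q : ℚ => φ (q : ℝ))) {F : α → ℝ} (hF : CompR F) :
    CompR (fun a => φ (F a)) := by
  obtain ⟨eq, heq, hbq⟩ := hq
  obtain ⟨eF, heF, hbF⟩ := hF
  refine ⟨fun p => eq (eF (p.1, L * (2 * p.2 + 2)), 2 * p.2 + 1), ?_, ?_⟩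
  · have h1 : Computable (fun p : α × ℕ => 2 * p.2 + 1) :=
      (Primrec.succ.comp (Primrec.nat_mul.comp (Primrec.const 2) Primrec.snd)).to_comp
    have h2 : Computable (fun p : α × ℕ => L * (2 * p.2 + 2)) :=
      (Primrec.nat_mul.comp (Primrec.const L) (Primrec.nat_add.comp
        (Primrec.nat_mul.comp (Primrec.const 2) Primrec.snd) (Primrec.const 2))).to_comp
    exact heq.comp ((heF.comp (Computable.fst.pair h2)).pair h1)
  · intro a n
    set N := L * (2 * n + 2) with hN
    have h1 := hφ (F a) (eF (a, N) : ℝ)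
    have h2 := hbF a N
    have h3 := hbq (eF (a, N)) (2 * n + 1)
    have e1 : (1 : ℝ) / (((2 * n + 1 : ℕ) : ℝ) + 1) = 1 / ((n : ℝ) + 1) / 2 := by
      push_cast; field_simp; ring
    rw [e1] at h3
    have h4 : (L : ℝ) * (1 / ((N : ℝ) + 1)) ≤ 1 / ((n : ℝ) + 1) / 2 := by
      rw [hN]; push_cast
      have hn : (0 : ℝ) ≤ n := by positivity
      have hL : (0 : ℝ) ≤ L := by positivity
      rw [div_div, mul_one_div, div_le_div_iff₀ (by positivity) (by positivity)]
      nlinarith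
    have h5 : (L : ℝ) * |F a - (eF (a, N) : ℝ)| ≤ 1 / ((n : ℝ) + 1) / 2 :=
      (mul_le_mul_of_nonneg_left h2 (by positivity)).trans h4
    calc |φ (F a) - (eq (eF (a, N), 2 * n + 1) : ℝ)|
        = |(φ (F a) - φ (eF (a, N) : ℝ)) + (φ (eF (a, N) : ℝ) - (eq (eF (a, N), 2 * n + 1) : ℝ))| := by
          congr 1; ring
      _ ≤ |φ (F a) - φ (eF (a, N) : ℝ)| + |φ (eF (a, N) : ℝ) - (eq (eF (a, N), 2 * n + 1) : ℝ)| :=
          abs_add_le _ _
      _ ≤ 1 / ((n : ℝ) + 1) := by linarith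

/-- version of `CompR.sum` with the computability of rational addition as a hypothesis. -/
theorem CompR.sum_of_add (hadd : Computable₂ (fun a b : ℚ => a + b))
    {F : α × ℕ → ℝ} (hF : CompR F) {m : α → ℕ} (hm : Computable m) :
    CompR (fun a => ∑ j ∈ Finset.range (m a), F (a, j)) := by
  obtain ⟨e, he, hb⟩ := hF
  refine ⟨fun p => ∑ j ∈ Finset.range (m p.1), e ((p.1, j), m p.1 * (p.2 + 1)), ?_, ?_⟩
  · have hN : Computable (fun p : α × ℕ => m p.1 * (p.2 + 1)) :=
      Primrec.nat_mul.to_comp.comp (hm.comp Computable.fst)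
        (Primrec.succ.to_comp.comp Computable.snd)
    have hstep : Computable₂ (fun (p : α × ℕ) (q : ℕ × ℚ) =>
        q.2 + e ((p.1, q.1), m p.1 * (p.2 + 1))) := by
      apply hadd.comp (Computable.snd.comp Computable.snd)
      apply he.comp
      exact ((Computable.fst.comp Computable.fst).pair (Computable.fst.comp Computable.snd)).pair
        (hN.comp Computable.fst)
    have hrec := Computable.nat_rec (f := fun p : α × ℕ => m p.1) (g := fun _ => (0 : ℚ))
      (h := fun (p : α × ℕ) (q : ℕ × ℚ) => q.2 + e ((p.1, q.1), m p.1 * (p.2 + 1)))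
      (hm.comp Computable.fst) (Computable.const 0) hstep
    refine hrec.of_eq ?_
    intro p
    generalize m p.1 * (p.2 + 1) = N
    generalize m p.1 = k
    induction k with
    | zero => simp
    | succ k ih => rw [Finset.sum_range_succ, ← ih]
  · intro a n
    set N := m a * (n + 1) with hN
    have h1 : ∀ j, |F (a, j) - (e ((a, j), N) : ℝ)| ≤ 1 / ((N : ℝ) + 1) := fun j => hb (a, j) N
    push_cast
    rw [← Finset.sum_sub_distrib]
    refine (Finset.abs_sum_le_sum_abs _ _).trans ?_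
    refine (Finset.sum_le_sum (fun j _ => h1 j)).trans ?_
    rw [Finset.sum_const, Finset.card_range, nsmul_eq_mul, hN]
    push_cast
    have hn : (0 : ℝ) ≤ n := by positivity
    have hM : (0 : ℝ) ≤ m a := by positivity
    rw [mul_one_div, div_le_div_iff₀ (by positivity) (by positivity)]
    nlinarith

theorem CompR.sum {F : α × ℕ → ℝ} (hF : CompR F) {m : α → ℕ} (hm : Computable m) :
    CompR (fun a => ∑ j ∈ Finset.range (m a), F (a, j)) :=
  CompR.sum_of_add rat_add hF hm

end C2b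

end Crest.Agent.S0170
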