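import Mathlib

/-! S0170-C5a : analytic estimate for finite differences. -/

set_option autoImplicit false
open scoped ContDiff

namespace Crest.Agent.S0170.FinDiffAna

theorem contDiff_fwdDiff {f : ℝ → ℝ} (hs : ContDiff ℝ ∞ f) (η : ℝ) :
    ContDiff ℝ ∞ (fwdDiff η f) := by
  unfold fwdDiff
  exact (hs.comp (contDiff_id.add contDiff_const)).sub hs

theorem iteratedDeriv_fwdDiff {f : ℝ → ℝ} (hs : ContDiff ℝ ∞ f) (η : ℝ) (k : ℕ) (x : ℝ) :
    iteratedDeriv k (fwdDiff η f) x = iteratedDeriv k f (x + η) - iteratedDeriv k f x := by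
  have h1 : fwdDiff η f = (fun y => f (y + η)) - f := by
    funext y; simp [fwdDiff]
  have hs' : ContDiff ℝ ∞ (fun y => f (y + η)) := hs.comp (contDiff_id.add contDiff_const)
  rw [h1, iteratedDeriv_sub (hs'.contDiffAt.of_le (by exact_mod_cast le_top))
    (hs.contDiffAt.of_le (by exact_mod_cast le_top))]
  rw [iteratedDeriv_comp_add_const]

theorem hasDerivAt_iteratedDeriv {f : ℝ → ℝ} (hs : ContDiff ℝ ∞ f) (k : ℕ) (x : ℝ) :
    HasDerivAt (iteratedDeriv k f) (iteratedDeriv (k + 1) f x) x := by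
  have h : Differentiable ℝ (iteratedDeriv k f) :=
    hs.differentiable_iteratedDeriv k (by exact_mod_cast WithTop.coe_lt_top _)
  rw [iteratedDeriv_succ]
  exact (h x).hasDerivAt

theorem exists_iteratedDeriv_eq_fwdDiff (k : ℕ) : ∀ {f : ℝ → ℝ} (_ : ContDiff ℝ ∞ f)
    {η : ℝ} (_ : 0 < η) (x : ℝ),
    ∃ ξ ∈ Set.Icc x (x + k * η), (fwdDiff η)^[k] f x = η ^ k * iteratedDeriv k f ξ := by
  induction k with
  | zero =>
    intro f _ η _ x
    exact ⟨x, ⟨le_refl _, by simp⟩, by simp⟩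
  | succ k ih =>
    intro f hs η hη x
    obtain ⟨ξ, hξ, h⟩ := ih (contDiff_fwdDiff hs η) hη x
    rw [iteratedDeriv_fwdDiff hs] at h
    obtain ⟨ζ, hζ, hd⟩ := exists_hasDerivAt_eq_slope (iteratedDeriv k f) (iteratedDeriv (k + 1) f)
      (show ξ < ξ + η by linarith)
      (fun y _ => (hasDerivAt_iteratedDeriv hs k y).continuousAt.continuousWithinAt)
      (fun y _ => hasDerivAt_iteratedDeriv hs k y)
    refine ⟨ζ, ⟨by linarith [hξ.1, hζ.1], ?_⟩, ?_⟩
    · have := hξ.2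
      have := hζ.2
      push_cast
      linarith
    · rw [Function.iterate_succ_apply, h, hd, add_sub_cancel_left, pow_succ, mul_assoc,
        mul_div_cancel₀ _ hη.ne']

theorem fwdDiff_error {f : ℝ → ℝ} (hs : ContDiff ℝ ∞ f) (k : ℕ) {M : ℝ}
    (hM : ∀ x, |iteratedDeriv (k + 1) f x| ≤ M) {η : ℝ} (hη : 0 < η) (x : ℝ) :
    |(fwdDiff η)^[k] f x / η ^ k - iteratedDeriv k f x| ≤ k * η * M := by
  obtain ⟨ξ, hξ, h⟩ := exists_iteratedDeriv_eq_fwdDiff k hs hη x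
  have hM0 : 0 ≤ M := (abs_nonneg _).trans (hM x)
  rw [h, mul_div_cancel_left₀ _ (pow_ne_zero _ hη.ne')]
  have hb : ‖iteratedDeriv k f ξ - iteratedDeriv k f x‖ ≤ M * ‖ξ - x‖ :=
    Convex.norm_image_sub_le_of_norm_hasDerivWithin_le (s := Set.univ)
      (fun y _ => (hasDerivAt_iteratedDeriv hs k y).hasDerivWithinAt)
      (fun y _ => by simpa using hM y) convex_univ (Set.mem_univ _) (Set.mem_univ _)
  rw [Real.norm_eq_abs, Real.norm_eq_abs, abs_of_nonneg (by linarith [hξ.1] : 0 ≤ ξ - x)] at hb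
  calc _ ≤ M * (ξ - x) := hb
    _ ≤ M * (k * η) := by
        apply mul_le_mul_of_nonneg_left _ hM0
        linarith [hξ.2]
    _ = k * η * M := by ring

theorem fwdDiff_iter_eq_sum (f : ℝ → ℝ) (k : ℕ) (η x : ℝ) :
    (fwdDiff η)^[k] f x =
      ∑ j ∈ Finset.range (k + 1), (-1 : ℝ) ^ (k - j) * (k.choose j : ℝ) * f (x + j * η) := by
  rw [fwdDiff_iter_eq_sum_shift]
  apply Finset.sum_congr rfl
  intro j _
  simp [zsmul_eq_mul]

theorem sum_error {f : ℝ → ℝ} (hs : ContDiff ℝ ∞ f) (k : ℕ) {M : ℝ}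
    (hM : ∀ x, |iteratedDeriv (k + 1) f x| ≤ M) {η : ℝ} (hη : 0 < η) (x : ℝ) :
    |(∑ j ∈ Finset.range (k + 1), (-1 : ℝ) ^ (k - j) * (k.choose j : ℝ) * f (x + j * η)) / η ^ k
      - iteratedDeriv k f x| ≤ k * η * M := by
  rw [← fwdDiff_iter_eq_sum]
  exact fwdDiff_error hs k hM hη x

end Crest.Agent.S0170.FinDiffAna
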