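import Crest.Agent.S0170_Defs
import Crest.Agent.S0170_QComp
import Crest.Agent.S0170_CompR
import Crest.Agent.S0170_CompR2
import Crest.Agent.S0170_FinDiffAna

/-! # S0170, package C5b: `Eff1` from values and derivative bounds (finite differences). -/

set_option autoImplicit false
open scoped ContDiff

namespace Crest.Agent.S0170

namespace FinDiffB

open RatComp

/-- the step size -/
def eta (b : ℕ → ℕ) (a : (ℕ × ℚ) × ℕ) : ℚ :=
  1 / (((a.2 + 1) * (a.1.1 + 1) * (b (a.1.1 + 1) + 1) : ℕ) : ℚ)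

/-- the coefficient -/
def coef (k j : ℕ) : ℚ := (-1 : ℚ) ^ (k - j) * ((k.factorial / (j.factorial * (k - j).factorial) : ℕ) : ℚ)

theorem coef_primrec : Primrec₂ coef := by
  unfold coef
  have h1 : Primrec₂ (fun k j : ℕ => (-1 : ℚ) ^ (k - j)) :=
    primrec_pow.comp (Primrec.const _) (Primrec.nat_sub.comp Primrec.fst Primrec.snd)
  have h2 : Primrec₂ (fun k j : ℕ => k.factorial / (j.factorial * (k - j).factorial)) :=
    Primrec.nat_div.comp (primrec_factorial.comp Primrec.fst)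
      (Primrec.nat_mul.comp (primrec_factorial.comp Primrec.snd)
        (primrec_factorial.comp (Primrec.nat_sub.comp Primrec.fst Primrec.snd)))
  exact primrec_mul.comp h1 (primrec_natCast.comp h2)

theorem eta_computable {b : ℕ → ℕ} (hb : Computable b) : Computable (eta b) := by
  unfold eta
  have h1 : Computable (fun a : (ℕ × ℚ) × ℕ => (a.2 + 1) * (a.1.1 + 1) * (b (a.1.1 + 1) + 1)) := by
    have k1 : Computable (fun a : (ℕ × ℚ) × ℕ => a.1.1 + 1) :=
      Computable.succ.comp (Computable.fst.comp Computable.fst)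
    exact Primrec.nat_mul.to_comp.comp
      (Primrec.nat_mul.to_comp.comp (Computable.succ.comp Computable.snd) k1)
      (Computable.succ.comp (hb.comp k1))
  exact rat_div.comp (Computable.const 1) (rat_natCast.comp h1)

theorem eta_pos (b : ℕ → ℕ) (a : (ℕ × ℚ) × ℕ) : 0 < eta b a := by
  unfold eta
  positivity

end FinDiffB

open FinDiffB RatComp in
theorem Eff1.of_values {f : ℝ → ℝ} (hs : ContDiff ℝ ∞ f) (hv : CompR (fun q : ℚ => f (q : ℝ)))
    (hb : ∃ b : ℕ → ℕ, Computable b ∧ ∀ k x, |iteratedDeriv k f x| ≤ (b k : ℝ)) : Eff1 f := by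
  refine ⟨hs, ?_, hb⟩
  obtain ⟨b, hbc, hbb⟩ := hb
  -- the approximating family
  have hterm : CompR (fun p : ((ℕ × ℚ) × ℕ) × ℕ =>
      ((coef p.1.1.1 p.2 : ℚ) : ℝ) * f ((p.1.1.2 + (p.2 : ℚ) * eta b p.1 : ℚ) : ℝ)) := by
    refine CompR.mul (CompR.of_rat ?_) (hv.comp ?_)
    · exact (coef_primrec.comp (Primrec.fst.comp (Primrec.fst.comp Primrec.fst))
        Primrec.snd).to_comp
    · exact rat_add.comp (Computable.snd.comp (Computable.fst.comp Computable.fst))
        (rat_mul.comp (rat_natCast.comp Computable.snd) ((eta_computable hbc).comp Computable.fst))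
  have hsum := hterm.sum (m := fun a : (ℕ × ℚ) × ℕ => a.1.1 + 1)
    (Computable.succ.comp (Computable.fst.comp Computable.fst))
  have hfac : CompR (fun a : (ℕ × ℚ) × ℕ => (((eta b a) ^ a.1.1)⁻¹ : ℚ) |> fun r => (r : ℝ)) := by
    refine CompR.of_rat ?_
    exact primrec_inv.to_comp.comp
      (primrec_pow.to_comp.comp (eta_computable hbc) (Computable.fst.comp Computable.fst))
  have hG := hsum.mul hfac
  refine CompR.of_limit hG ?_
  rintro ⟨k, q⟩ n
  have hη : (0 : ℝ) < ((eta b ((k, q), n) : ℚ) : ℝ) := by exact_mod_cast eta_pos b _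
  have herr := FinDiffAna.sum_error hs k (M := (b (k + 1) : ℝ)) (fun x => hbb (k + 1) x) hη (q : ℝ)
  have e : (∑ j ∈ Finset.range (k + 1), ((coef k j : ℚ) : ℝ) *
        f ((q + (j : ℚ) * eta b ((k, q), n) : ℚ) : ℝ)) *
        ((((eta b ((k, q), n)) ^ k)⁻¹ : ℚ) : ℝ) =
      (∑ j ∈ Finset.range (k + 1), (-1 : ℝ) ^ (k - j) * (k.choose j : ℝ) *
        f ((q : ℝ) + j * ((eta b ((k, q), n) : ℚ) : ℝ))) / ((eta b ((k, q), n) : ℚ) : ℝ) ^ k := by
    rw [div_eq_mul_inv]
    congr 1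
    · refine Finset.sum_congr rfl fun j hj => ?_
      have hjk : j ≤ k := Nat.lt_succ_iff.1 (Finset.mem_range.1 hj)
      unfold coef
      rw [← Nat.choose_eq_factorial_div_factorial hjk]
      push_cast
      rfl
    · push_cast
      rfl
  have hbound : (k : ℝ) * ((eta b ((k, q), n) : ℚ) : ℝ) * (b (k + 1) : ℝ) ≤ 1 / ((n : ℝ) + 1) := by
    unfold eta
    push_cast
    have hn : (0 : ℝ) < (n : ℝ) + 1 := by positivity
    have hk : (0 : ℝ) < (k : ℝ) + 1 := by positivity
    have hB : (0 : ℝ) < (b (k + 1) : ℝ) + 1 := by positivity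
    have hk0 : (0 : ℝ) ≤ (k : ℝ) := by positivity
    have hB0 : (0 : ℝ) ≤ (b (k + 1) : ℝ) := by positivity
    have e1 : (k : ℝ) * (1 / (((n : ℝ) + 1) * ((k : ℝ) + 1) * ((b (k + 1) : ℝ) + 1))) * (b (k + 1) : ℝ)
        = ((k : ℝ) * (b (k + 1) : ℝ)) / (((k : ℝ) + 1) * ((b (k + 1) : ℝ) + 1)) * (1 / ((n : ℝ) + 1)) := by
      field_simp
    rw [e1]
    have e2 : ((k : ℝ) * (b (k + 1) : ℝ)) / (((k : ℝ) + 1) * ((b (k + 1) : ℝ) + 1)) ≤ 1 := by
      rw [div_le_one (by positivity)]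
      nlinarith
    calc _ ≤ 1 * (1 / ((n : ℝ) + 1)) := mul_le_mul_of_nonneg_right e2 (by positivity)
      _ = _ := one_mul _
  show |iteratedDeriv k f (q : ℝ) - _| ≤ _
  rw [abs_sub_comm]
  simp only
  rw [e]
  exact herr.trans hbound

end Crest.Agent.S0170
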