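import Crest.Agent.S0170_Defs

/-! Elementary facts on the step function `stp`. -/

set_option autoImplicit false
open scoped ContDiff

namespace Crest.Agent.S0170

theorem stp_contDiff : ContDiff ℝ ∞ stp := Crest.Agent.S0170F.S_contDiff

theorem stp_one {x : ℝ} (hx : 1 ≤ x) : stp x = 1 := Crest.Agent.S0170F.S_of_one_le hx

theorem stp_zero {x : ℝ} (hx : x ≤ -1 / 2) : stp x = 0 :=
  Crest.Agent.S0170F.S_of_nonpos (by linarith)

theorem stp_mem (x : ℝ) : stp x ∈ Set.Icc (0 : ℝ) 1 :=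
  ⟨Crest.Agent.S0170F.S_nonneg x, Crest.Agent.S0170F.S_le_one x⟩

end Crest.Agent.S0170
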