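import Mathlib

/-!
# Primitive recursiveness of arithmetic on `ℚ`

`Primcodable ℚ` in Mathlib comes from `Denumerable ℚ = ofEncodableOfInfinite ℚ`, i.e. the code of a
rational is its *rank* among the "sigma codes" `Nat.pair (encode num) den`.  We show that numerator and
denominator are primitive recursive functions of a rational, that `(p, n, d) ↦ (p - n) / d` is primitive
recursive, and deduce that the field operations, the order, powers and finite sums are primitive recursive.
-/

namespace Crest.Agent.S0170.RatComp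

open Encodable Denumerable

/-- The code of a rational used by `Primrec` / `Computable`. -/
def encD (q : ℚ) : ℕ := @encode ℚ Primcodable.toEncodable q

/-- The "sigma code" of a rational. -/
def encS (q : ℚ) : ℕ := Nat.pair (encode q.num) q.den

/-- Membership in the range of `encS`. -/
def InS (m : ℕ) : Prop := m.unpair.2 ≠ 0 ∧ Nat.Coprime ((m.unpair.1 + 1) / 2) m.unpair.2

instance : DecidablePred InS := fun m => by unfold InS; infer_instance

theorem encode_int_natCast (n : ℕ) : encode (n : ℤ) = 2 * n := by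
  show Equiv.intEquivNat (n : ℤ) = 2 * n
  rfl

theorem encode_int_negSucc (n : ℕ) : encode (Int.negSucc n) = 2 * n + 1 := by
  show Equiv.intEquivNat (Int.negSucc n) = 2 * n + 1
  rfl

theorem natAbs_eq_encode (z : ℤ) : z.natAbs = (encode z + 1) / 2 := by
  cases z with
  | ofNat n =>
    have : encode (Int.ofNat n) = 2 * n := encode_int_natCast n
    rw [this]; simp; omega
  | negSucc n =>
    rw [encode_int_negSucc]; simp; omega

theorem inS_encS (q : ℚ) : InS (encS q) := by
  unfold InS encS
  simp only [Nat.unpair_pair]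
  refine ⟨q.den_nz, ?_⟩
  rw [← natAbs_eq_encode]
  exact q.reduced

theorem exists_of_inS {m : ℕ} (h : InS m) : ∃ q : ℚ, encS q = m := by
  obtain ⟨h1, h2⟩ := h
  refine ⟨⟨ofNat ℤ m.unpair.1, m.unpair.2, h1, ?_⟩, ?_⟩
  · rw [natAbs_eq_encode, encode_ofNat]; exact h2
  · unfold encS
    simp only [encode_ofNat]
    exact Nat.pair_unpair m

theorem inS_iff (m : ℕ) : InS m ↔ m ∈ Set.range (@encode ℚ Rat.instEncodable) := by
  constructor
  · intro h
    obtain ⟨q, hq⟩ := exists_of_inS h
    exact ⟨q, hq⟩
  · rintro ⟨q, rfl⟩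
    exact inS_encS q

attribute [local instance] Encodable.decidableRangeEncode in
theorem encD_eq_countP (q : ℚ) : encD q =
    (List.range (encS q)).countP
      (fun m => decide (m ∈ Set.range (@Encodable.encode ℚ Rat.instEncodable))) := rfl

theorem encD_eq_count (q : ℚ) : encD q = Nat.count InS (encS q) := by
  rw [encD_eq_countP]
  unfold Nat.count
  congr 1
  funext m
  exact decide_eq_decide.mpr (inS_iff m).symm

theorem encD_injective : Function.Injective encD := fun a b h =>
  @Encodable.encode_injective ℚ Primcodable.toEncodable a b h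

theorem encS_injective : Function.Injective encS := fun a b h =>
  @Encodable.encode_injective ℚ Rat.instEncodable a b h

theorem encS_eq_iff (q : ℚ) (m : ℕ) : encS q = m ↔ InS m ∧ Nat.count InS m = encD q := by
  constructor
  · rintro rfl
    exact ⟨inS_encS q, (encD_eq_count q).symm⟩
  · rintro ⟨h1, h2⟩
    obtain ⟨q', rfl⟩ := exists_of_inS h1
    rw [← encD_eq_count] at h2
    rw [encD_injective h2]

theorem encD_lt_of_encS_lt {a b : ℚ} (h : encS a < encS b) : encD a < encD b := by
  rw [encD_eq_count, encD_eq_count]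
  exact Nat.count_strict_mono (inS_encS a) h

theorem encS_natCast (n : ℕ) : encS (n : ℚ) = Nat.pair (2 * n) 1 := by
  unfold encS
  simp [encode_int_natCast]

theorem le_encD_natCast (n : ℕ) : n ≤ encD (n : ℚ) := by
  induction n with
  | zero => exact Nat.zero_le _
  | succ k ih =>
    have : encD (k : ℚ) < encD ((k + 1 : ℕ) : ℚ) := by
      apply encD_lt_of_encS_lt
      rw [encS_natCast, encS_natCast]
      exact Nat.pair_lt_pair_left _ (by omega)
    omega

theorem encS_le (q : ℚ) : encS q ≤ Nat.pair (2 * encD q) 1 := by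
  by_contra h
  rw [not_le, ← encS_natCast] at h
  have h1 := encD_lt_of_encS_lt h
  have h2 := le_encD_natCast (encD q)
  omega

/-! ### Primitive recursiveness of the basic predicates -/

theorem primrecRel_dvd : PrimrecRel (fun k x : ℕ => k ∣ x) :=
  (Primrec.eq.comp₂ (Primrec.nat_mod.comp₂ Primrec₂.right Primrec₂.left)
    (Primrec₂.const 0)).of_eq (fun _ _ => (Nat.dvd_iff_mod_eq_zero ..).symm)

theorem coprime_iff (x d : ℕ) (hd : d ≠ 0) :
    Nat.Coprime x d ↔ ∀ k < d + 1, (¬ (k ∣ x ∧ k ∣ d) ∨ k = 1) := by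
  constructor
  · intro h k _
    by_cases hk : k ∣ x ∧ k ∣ d
    · right
      exact Nat.eq_one_of_dvd_coprimes h hk.1 hk.2
    · left; exact hk
  · intro h
    have h1 := h (Nat.gcd x d) (Nat.lt_succ_of_le (Nat.gcd_le_right _ (Nat.pos_of_ne_zero hd)))
    rcases h1 with h1 | h1
    · exact absurd ⟨Nat.gcd_dvd_left _ _, Nat.gcd_dvd_right _ _⟩ h1
    · exact h1

theorem primrecPred_inS : PrimrecPred InS := by
  have hR : PrimrecRel (fun (k : ℕ) (y : ℕ × ℕ) => ¬ (k ∣ y.1 ∧ k ∣ y.2) ∨ k = 1) := by
    refine PrimrecPred.or (PrimrecPred.not (PrimrecPred.and ?_ ?_)) ?_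
    · exact primrecRel_dvd.comp Primrec.fst (Primrec.fst.comp Primrec.snd)
    · exact primrecRel_dvd.comp Primrec.fst (Primrec.snd.comp Primrec.snd)
    · exact Primrec.eq.comp Primrec.fst (Primrec.const 1)
  have hA := hR.forall_mem_list
  have h1 : Primrec (fun m : ℕ => m.unpair.1) := Primrec.fst.comp Primrec.unpair
  have h2 : Primrec (fun m : ℕ => m.unpair.2) := Primrec.snd.comp Primrec.unpair
  have hx : Primrec (fun m : ℕ => (m.unpair.1 + 1) / 2) :=
    Primrec.nat_div.comp (Primrec.succ.comp h1) (Primrec.const 2)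
  have hB : PrimrecPred (fun m : ℕ => ∀ k < m.unpair.2 + 1,
      (¬ (k ∣ (m.unpair.1 + 1) / 2 ∧ k ∣ m.unpair.2) ∨ k = 1)) :=
    (hA.comp (Primrec.list_range.comp (Primrec.succ.comp h2)) (hx.pair h2)).of_eq
      (fun m => by simp)
  have hC : PrimrecPred (fun m : ℕ => m.unpair.2 ≠ 0) :=
    PrimrecPred.not (Primrec.eq.comp h2 (Primrec.const 0))
  refine (hC.and hB).of_eq fun m => ?_
  unfold InS
  constructor
  · rintro ⟨a, b⟩; exact ⟨a, (coprime_iff _ _ a).2 b⟩
  · rintro ⟨a, b⟩; exact ⟨a, (coprime_iff _ _ a).1 b⟩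

theorem primrec_count : Primrec (Nat.count InS) := by
  have : Primrec (fun n : ℕ => ((List.range n).filter (fun m => decide (InS m))).length) :=
    Primrec.list_length.comp ((Primrec.listFilter primrecPred_inS).comp Primrec.list_range)
  refine this.of_eq fun n => ?_
  unfold Nat.count
  rw [List.countP_eq_length_filter]

theorem primrec_encD : Primrec encD := Primrec.encode

theorem primrec_encS : Primrec encS := by
  refine Primrec.of_graph ⟨fun q => Nat.pair (2 * encD q) 1, ?_, encS_le⟩ ?_
  · exact Primrec₂.natPair.comp (Primrec.nat_double.comp primrec_encD) (Primrec.const 1)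
  · have : PrimrecRel (fun (q : ℚ) (m : ℕ) => InS m ∧ Nat.count InS m = encD q) := by
      refine PrimrecPred.and ?_ ?_
      · exact primrecPred_inS.comp Primrec.snd
      · exact Primrec.eq.comp (primrec_count.comp Primrec.snd) (primrec_encD.comp Primrec.fst)
    exact this.of_eq fun q m => (encS_eq_iff q m).symm

/-- positive part of the numerator -/
def numP (q : ℚ) : ℕ := q.num.toNat
/-- negative part of the numerator -/
def numN (q : ℚ) : ℕ := (-q.num).toNat

theorem primrec_den : Primrec (fun q : ℚ => q.den) := by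
  refine ((Primrec.snd.comp Primrec.unpair).comp primrec_encS).of_eq fun q => ?_
  simp [encS]

theorem toNat_eq_encode (z : ℤ) : z.toNat = (1 - encode z % 2) * (encode z / 2) := by
  cases z with
  | ofNat n =>
    have : encode (Int.ofNat n) = 2 * n := encode_int_natCast n
    rw [this]; simp
  | negSucc n =>
    rw [encode_int_negSucc]
    have : (2 * n + 1) % 2 = 1 := by omega
    simp [this]

theorem neg_toNat_eq_encode (z : ℤ) : (-z).toNat = (encode z % 2) * ((encode z + 1) / 2) := by
  cases z with
  | ofNat n =>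
    have : encode (Int.ofNat n) = 2 * n := encode_int_natCast n
    rw [this]; simp
  | negSucc n =>
    rw [encode_int_negSucc]
    have h1 : (2 * n + 1) % 2 = 1 := by omega
    have h2 : (2 * n + 1 + 1) / 2 = n + 1 := by omega
    rw [h1, h2, Int.neg_negSucc]
    simp

theorem primrec_encNum : Primrec (fun q : ℚ => encode q.num) := by
  refine ((Primrec.fst.comp Primrec.unpair).comp primrec_encS).of_eq fun q => ?_
  simp [encS]

theorem primrec_numP : Primrec numP := by
  have h := primrec_encNum
  refine (Primrec.nat_mul.comp (Primrec.nat_sub.comp (Primrec.const 1)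
    (Primrec.nat_mod.comp h (Primrec.const 2))) (Primrec.nat_div.comp h (Primrec.const 2))).of_eq
    fun q => (toNat_eq_encode q.num).symm

theorem primrec_numN : Primrec numN := by
  have h := primrec_encNum
  refine (Primrec.nat_mul.comp (Primrec.nat_mod.comp h (Primrec.const 2))
    (Primrec.nat_div.comp (Primrec.succ.comp h) (Primrec.const 2))).of_eq
    fun q => (neg_toNat_eq_encode q.num).symm

theorem eq_frac (q : ℚ) : q = ((numP q : ℚ) - numN q) / q.den := by
  have h1 : ((numP q : ℚ) - numN q) = q.num := by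
    unfold numP numN
    have : ((q.num.toNat : ℤ) - ((-q.num).toNat : ℤ)) = q.num := by omega
    exact_mod_cast this
  rw [h1]
  exact (Rat.num_div_den q).symm

/-- `(p, n, d) ↦ (p - n) / d`. -/
def frac (c : ℕ × ℕ × ℕ) : ℚ := ((c.1 : ℚ) - c.2.1) / c.2.2

theorem numP_add_numN (q : ℚ) : numP q + numN q = q.num.natAbs := by
  unfold numP numN; omega

theorem eq_frac_iff (q : ℚ) (c : ℕ × ℕ × ℕ) : q = frac c ↔
    (c.2.2 = 0 ∧ numP q + numN q = 0) ∨
      (c.2.2 ≠ 0 ∧ numP q * c.2.2 + c.2.1 * q.den = c.1 * q.den + numN q * c.2.2) := by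
  obtain ⟨p, n, d⟩ := c
  simp only [frac]
  by_cases hd : d = 0
  · subst hd
    simp only [Nat.cast_zero, div_zero, true_and, ne_eq, not_true_eq_false, false_and, or_false]
    rw [numP_add_numN, Int.natAbs_eq_zero, Rat.num_eq_zero]
  · simp only [hd, false_and, ne_eq, not_false_eq_true, true_and, false_or]
    have hD : (q.den : ℚ) ≠ 0 := by exact_mod_cast q.den_nz
    have hd' : (d : ℚ) ≠ 0 := by exact_mod_cast hd
    conv_lhs => rw [eq_frac q]
    rw [div_eq_div_iff hD hd']
    constructor
    · intro h
      have : ((numP q * d + n * q.den : ℕ) : ℚ) = ((p * q.den + numN q * d : ℕ) : ℚ) := by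
        push_cast; linarith
      exact_mod_cast this
    · intro h
      have : ((numP q * d + n * q.den : ℕ) : ℚ) = ((p * q.den + numN q * d : ℕ) : ℚ) := by
        rw [h]
      push_cast at this; linarith

theorem encode_int_le (z : ℤ) : encode z ≤ 2 * z.natAbs := by
  rw [natAbs_eq_encode]; omega

theorem frac_bounds (c : ℕ × ℕ × ℕ) :
    (frac c).num.natAbs ≤ c.1 + c.2.1 ∧ (frac c).den ≤ c.2.2 + 1 := by
  obtain ⟨p, n, d⟩ := c
  simp only [frac]
  have hx : (((p : ℚ) - n) / d) = Rat.divInt ((p : ℤ) - n) (d : ℤ) := by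
    rw [Rat.divInt_eq_div]; push_cast; ring
  rw [hx]
  by_cases hd : d = 0
  · subst hd; simp
  have hd' : (d : ℤ) ≠ 0 := by exact_mod_cast hd
  constructor
  · by_cases ha : (p : ℤ) - n = 0
    · rw [ha]; simp
    · have h1 := Rat.num_dvd ((p : ℤ) - n) hd'
      have h2 := Int.natAbs_dvd_natAbs.2 h1
      have h3 := Nat.le_of_dvd (Int.natAbs_pos.2 ha) h2
      omega
  · have h1 := Rat.den_dvd ((p : ℤ) - n) (d : ℤ)
    have h2 : (Rat.divInt ((p : ℤ) - n) (d : ℤ)).den ∣ d := by exact_mod_cast h1
    have h3 := Nat.le_of_dvd (Nat.pos_of_ne_zero hd) h2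
    omega

theorem encD_le_encS (q : ℚ) : encD q ≤ encS q := by
  rw [encD_eq_count]; exact Nat.count_le _

theorem encD_frac_le (c : ℕ × ℕ × ℕ) : encD (frac c) ≤ (2 * (c.1 + c.2.1) + c.2.2 + 2) ^ 2 := by
  obtain ⟨h1, h2⟩ := frac_bounds c
  have h3 := encode_int_le (frac c).num
  have h4 : encS (frac c) < (max (encode (frac c).num) (frac c).den + 1) ^ 2 :=
    Nat.pair_lt_max_add_one_sq _ _
  have h5 : max (encode (frac c).num) (frac c).den + 1 ≤ 2 * (c.1 + c.2.1) + c.2.2 + 2 := by
    have : max (encode (frac c).num) (frac c).den ≤ 2 * (c.1 + c.2.1) + c.2.2 + 1 :=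
      max_le (by omega) (by omega)
    omega
  have h6 := Nat.pow_le_pow_left h5 2
  have h7 := encD_le_encS (frac c)
  omega

theorem primrec_frac : Primrec frac := by
  have hfst : Primrec (fun c : ℕ × ℕ × ℕ => c.1) := Primrec.fst
  have hsnd : Primrec (fun c : ℕ × ℕ × ℕ => c.2.1) := Primrec.fst.comp Primrec.snd
  have htrd : Primrec (fun c : ℕ × ℕ × ℕ => c.2.2) := Primrec.snd.comp Primrec.snd
  have key : Primrec (fun c => encD (frac c)) := by
    refine Primrec.of_graph ⟨fun c => (2 * (c.1 + c.2.1) + c.2.2 + 2) ^ 2, ?_, encD_frac_le⟩ ?_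
    · have hb : Primrec (fun c : ℕ × ℕ × ℕ => 2 * (c.1 + c.2.1) + c.2.2 + 2) :=
        Primrec.nat_add.comp (Primrec.nat_add.comp
          (Primrec.nat_double.comp (Primrec.nat_add.comp hfst hsnd)) htrd) (Primrec.const 2)
      exact (Primrec.nat_mul.comp hb hb).of_eq fun c => by ring
    · -- the graph
      have hq : Primrec (fun x : (ℕ × ℕ × ℕ) × ℕ => ofNat ℚ x.2) :=
        (Primrec.ofNat ℚ).comp Primrec.snd
      have hP := primrec_numP.comp hq
      have hN := primrec_numN.comp hq
      have hD := primrec_den.comp hq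
      have c1 : Primrec (fun x : (ℕ × ℕ × ℕ) × ℕ => x.1.1) := hfst.comp Primrec.fst
      have c2 : Primrec (fun x : (ℕ × ℕ × ℕ) × ℕ => x.1.2.1) := hsnd.comp Primrec.fst
      have c3 : Primrec (fun x : (ℕ × ℕ × ℕ) × ℕ => x.1.2.2) := htrd.comp Primrec.fst
      have : PrimrecRel (fun (c : ℕ × ℕ × ℕ) (r : ℕ) =>
          (c.2.2 = 0 ∧ numP (ofNat ℚ r) + numN (ofNat ℚ r) = 0) ∨
          (c.2.2 ≠ 0 ∧ numP (ofNat ℚ r) * c.2.2 + c.2.1 * (ofNat ℚ r).den
            = c.1 * (ofNat ℚ r).den + numN (ofNat ℚ r) * c.2.2)) := by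
        refine PrimrecPred.or (PrimrecPred.and ?_ ?_) (PrimrecPred.and (PrimrecPred.not ?_) ?_)
        · exact Primrec.eq.comp c3 (Primrec.const 0)
        · exact Primrec.eq.comp (Primrec.nat_add.comp hP hN) (Primrec.const 0)
        · exact Primrec.eq.comp c3 (Primrec.const 0)
        · exact Primrec.eq.comp
            (Primrec.nat_add.comp (Primrec.nat_mul.comp hP c3) (Primrec.nat_mul.comp c2 hD))
            (Primrec.nat_add.comp (Primrec.nat_mul.comp c1 hD) (Primrec.nat_mul.comp hN c3))
      refine this.of_eq fun c r => ?_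
      rw [← eq_frac_iff]
      constructor
      · intro h
        rw [← h]
        exact encode_ofNat r
      · intro h
        rw [← h]
        exact ofNat_encode (frac c)
  exact Primrec.encode_iff.1 key

/-- Main tool: a `ℚ`-valued function given by primitive recursive numerators / denominator is
primitive recursive. -/
theorem primrec_of_frac {α : Type*} [Primcodable α] {F : α → ℚ} {p n d : α → ℕ}
    (hp : Primrec p) (hn : Primrec n) (hd : Primrec d)
    (h : ∀ a, F a = ((p a : ℚ) - n a) / d a) : Primrec F :=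
  (primrec_frac.comp (hp.pair (hn.pair hd))).of_eq fun a => (h a).symm

/-! ### Field operations and order -/

section ops

theorem den_ne_zero' (q : ℚ) : (q.den : ℚ) ≠ 0 := by exact_mod_cast q.den_nz

theorem primrec_natCast : Primrec (fun n : ℕ => (n : ℚ)) :=
  primrec_of_frac (p := fun n => n) (n := fun _ => 0) (d := fun _ => 1)
    Primrec.id (Primrec.const 0) (Primrec.const 1) (fun a => by simp)

theorem primrec_neg : Primrec (fun q : ℚ => -q) :=
  primrec_of_frac primrec_numN primrec_numP primrec_den (fun q => by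
    conv_lhs => rw [eq_frac q]
    ring)

theorem primrec_add : Primrec₂ ((· + ·) : ℚ → ℚ → ℚ) := by
  have a := (Primrec.fst : Primrec (Prod.fst : ℚ × ℚ → ℚ))
  have b := (Primrec.snd : Primrec (Prod.snd : ℚ × ℚ → ℚ))
  refine primrec_of_frac
    (p := fun x : ℚ × ℚ => numP x.1 * x.2.den + numP x.2 * x.1.den)
    (n := fun x : ℚ × ℚ => numN x.1 * x.2.den + numN x.2 * x.1.den)
    (d := fun x : ℚ × ℚ => x.1.den * x.2.den) ?_ ?_ ?_ ?_
  · exact Primrec.nat_add.comp
      (Primrec.nat_mul.comp (primrec_numP.comp a) (primrec_den.comp b))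
      (Primrec.nat_mul.comp (primrec_numP.comp b) (primrec_den.comp a))
  · exact Primrec.nat_add.comp
      (Primrec.nat_mul.comp (primrec_numN.comp a) (primrec_den.comp b))
      (Primrec.nat_mul.comp (primrec_numN.comp b) (primrec_den.comp a))
  · exact Primrec.nat_mul.comp (primrec_den.comp a) (primrec_den.comp b)
  · rintro ⟨x, y⟩
    have hx := den_ne_zero' x
    have hy := den_ne_zero' y
    show x + y = _
    conv_lhs => rw [eq_frac x, eq_frac y]
    push_cast
    field_simp
    ring

theorem primrec_mul : Primrec₂ ((· * ·) : ℚ → ℚ → ℚ) := by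
  have a := (Primrec.fst : Primrec (Prod.fst : ℚ × ℚ → ℚ))
  have b := (Primrec.snd : Primrec (Prod.snd : ℚ × ℚ → ℚ))
  refine primrec_of_frac
    (p := fun x : ℚ × ℚ => numP x.1 * numP x.2 + numN x.1 * numN x.2)
    (n := fun x : ℚ × ℚ => numP x.1 * numN x.2 + numN x.1 * numP x.2)
    (d := fun x : ℚ × ℚ => x.1.den * x.2.den) ?_ ?_ ?_ ?_
  · exact Primrec.nat_add.comp
      (Primrec.nat_mul.comp (primrec_numP.comp a) (primrec_numP.comp b))
      (Primrec.nat_mul.comp (primrec_numN.comp a) (primrec_numN.comp b))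
  · exact Primrec.nat_add.comp
      (Primrec.nat_mul.comp (primrec_numP.comp a) (primrec_numN.comp b))
      (Primrec.nat_mul.comp (primrec_numN.comp a) (primrec_numP.comp b))
  · exact Primrec.nat_mul.comp (primrec_den.comp a) (primrec_den.comp b)
  · rintro ⟨x, y⟩
    have hx := den_ne_zero' x
    have hy := den_ne_zero' y
    show x * y = _
    conv_lhs => rw [eq_frac x, eq_frac y]
    push_cast
    field_simp
    ring

theorem primrec_sub : Primrec₂ ((· - ·) : ℚ → ℚ → ℚ) :=
  (primrec_add.comp Primrec.fst (primrec_neg.comp Primrec.snd)).of_eq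
    fun _ => (sub_eq_add_neg _ _).symm

theorem numP_mul_numN (q : ℚ) : numP q = 0 ∨ numN q = 0 := by
  unfold numP numN; omega

theorem primrec_inv : Primrec (fun q : ℚ => q⁻¹) := by
  refine primrec_of_frac
    (p := fun q : ℚ => numP q * q.den) (n := fun q : ℚ => numN q * q.den)
    (d := fun q : ℚ => (numP q + numN q) * (numP q + numN q)) ?_ ?_ ?_ ?_
  · exact Primrec.nat_mul.comp primrec_numP primrec_den
  · exact Primrec.nat_mul.comp primrec_numN primrec_den
  · have := Primrec.nat_add.comp primrec_numP primrec_numN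
    exact Primrec.nat_mul.comp this this
  · intro q
    have hq := den_ne_zero' q
    conv_lhs => rw [eq_frac q]
    rcases numP_mul_numN q with h | h
    · rw [h]
      by_cases h2 : numN q = 0
      · rw [h2]; simp
      · have : (numN q : ℚ) ≠ 0 := by exact_mod_cast h2
        push_cast
        field_simp
        ring
    · rw [h]
      by_cases h2 : numP q = 0
      · rw [h2]; simp
      · have : (numP q : ℚ) ≠ 0 := by exact_mod_cast h2
        push_cast
        field_simp
        ring

theorem primrec_div : Primrec₂ ((· / ·) : ℚ → ℚ → ℚ) :=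
  (primrec_mul.comp Primrec.fst (primrec_inv.comp Primrec.snd)).of_eq
    fun _ => (div_eq_mul_inv _ _).symm

theorem le_iff_nat (x y : ℚ) :
    x ≤ y ↔ numP x * y.den + numN y * x.den ≤ numP y * x.den + numN x * y.den := by
  have hx : (0 : ℚ) < x.den := by exact_mod_cast x.den_pos
  have hy : (0 : ℚ) < y.den := by exact_mod_cast y.den_pos
  conv_lhs => rw [eq_frac x, eq_frac y]
  rw [div_le_div_iff₀ hx hy]
  constructor
  · intro h
    have : ((numP x * y.den + numN y * x.den : ℕ) : ℚ) ≤
        ((numP y * x.den + numN x * y.den : ℕ) : ℚ) := by push_cast; linarith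
    exact_mod_cast this
  · intro h
    have : ((numP x * y.den + numN y * x.den : ℕ) : ℚ) ≤
        ((numP y * x.den + numN x * y.den : ℕ) : ℚ) := by exact_mod_cast h
    push_cast at this; linarith

theorem primrecRel_le : PrimrecRel ((· ≤ ·) : ℚ → ℚ → Prop) := by
  have a := (Primrec.fst : Primrec (Prod.fst : ℚ × ℚ → ℚ))
  have b := (Primrec.snd : Primrec (Prod.snd : ℚ × ℚ → ℚ))
  have : PrimrecRel (fun x y : ℚ =>
      numP x * y.den + numN y * x.den ≤ numP y * x.den + numN x * y.den) :=
    Primrec.nat_le.comp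
      (Primrec.nat_add.comp (Primrec.nat_mul.comp (primrec_numP.comp a) (primrec_den.comp b))
        (Primrec.nat_mul.comp (primrec_numN.comp b) (primrec_den.comp a)))
      (Primrec.nat_add.comp (Primrec.nat_mul.comp (primrec_numP.comp b) (primrec_den.comp a))
        (Primrec.nat_mul.comp (primrec_numN.comp a) (primrec_den.comp b)))
  exact this.of_eq fun x y => (le_iff_nat x y).symm

theorem primrecRel_lt : PrimrecRel ((· < ·) : ℚ → ℚ → Prop) :=
  (primrecRel_le.swap.not).of_eq fun _ _ => not_le

theorem primrec_max : Primrec₂ (max : ℚ → ℚ → ℚ) :=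
  (Primrec.ite primrecRel_le Primrec.snd Primrec.fst).of_eq fun x => by
    rcases le_total x.1 x.2 with h | h
    · simp [h]
    · by_cases h2 : x.1 ≤ x.2
      · simp [h2]
      · simp [h2, h]

theorem primrec_min : Primrec₂ (min : ℚ → ℚ → ℚ) :=
  (Primrec.ite primrecRel_le Primrec.fst Primrec.snd).of_eq fun x => by
    rcases le_total x.1 x.2 with h | h
    · simp [h]
    · by_cases h2 : x.1 ≤ x.2
      · simp [h2]
      · simp [h2, h]

theorem primrec_abs : Primrec (fun q : ℚ => |q|) :=
  (primrec_max.comp Primrec.id primrec_neg).of_eq fun _ => rfl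

theorem primrec_natAbs_num : Primrec (fun q : ℚ => q.num.natAbs) :=
  (Primrec.nat_add.comp primrec_numP primrec_numN).of_eq numP_add_numN

/-- `|q| ≤ |num q|`: a cheap primitive recursive integer upper bound. -/
theorem abs_le_natAbs_num (q : ℚ) : |q| ≤ (q.num.natAbs : ℚ) := by
  have h1 : |q| = (q.num.natAbs : ℚ) / q.den := by
    conv_lhs => rw [← Rat.num_div_den q]
    rw [abs_div, Nat.abs_cast]
    congr 1
    rw [Nat.cast_natAbs]; push_cast; rfl
  rw [h1]
  apply div_le_self (by positivity)
  exact_mod_cast q.den_pos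

theorem primrec_pow : Primrec₂ (fun (q : ℚ) (k : ℕ) => q ^ k) := by
  have : Primrec (fun x : ℚ × ℕ => Nat.rec (motive := fun _ => ℚ) 1 (fun _ ih => ih * x.1) x.2) :=
    Primrec.nat_rec' Primrec.snd (Primrec.const 1)
      (primrec_mul.comp (Primrec.snd.comp Primrec.snd) (Primrec.fst.comp Primrec.fst)).to₂
  refine this.of_eq ?_
  rintro ⟨q, k⟩
  induction k with
  | zero => simp
  | succ k ih =>
    have ih' : Nat.rec (motive := fun _ => ℚ) 1 (fun _ ih => ih * q) k = q ^ k := ih
    show Nat.rec (motive := fun _ => ℚ) 1 (fun _ ih => ih * q) k * q = q ^ (k + 1)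
    rw [ih', pow_succ]

end ops

/-! ### Combinators -/

section comb

variable {α β σ : Type*} [Primcodable α] [Primcodable β] [Primcodable σ]

theorem primrec_nat_pow : Primrec₂ ((· ^ ·) : ℕ → ℕ → ℕ) :=
  Primrec₂.unpaired'.1 Nat.Primrec.pow

theorem primrec_factorial : Primrec Nat.factorial := by
  have : Primrec (fun n : ℕ => Nat.rec (motive := fun _ => ℕ) 1 (fun k ih => (k + 1) * ih) n) :=
    Primrec.nat_rec₁ 1 (Primrec.nat_mul.comp (Primrec.succ.comp Primrec.fst) Primrec.snd).to₂
  refine this.of_eq fun n => ?_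
  induction n with
  | zero => rfl
  | succ k ih =>
    show (k + 1) * Nat.rec (motive := fun _ => ℕ) 1 (fun k ih => (k + 1) * ih) k = _
    rw [ih, Nat.factorial_succ]

/-- finite sums over `range` of primitive recursive rational functions. -/
theorem primrec_sum_range {f : α → ℕ} {g : α → ℕ → ℚ} (hf : Primrec f) (hg : Primrec₂ g) :
    Primrec (fun a => ∑ i ∈ Finset.range (f a), g a i) := by
  have : Primrec (fun a => Nat.rec (motive := fun _ => ℚ) 0 (fun i ih => ih + g a i) (f a)) :=
    Primrec.nat_rec' hf (Primrec.const 0)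
      (primrec_add.comp (Primrec.snd.comp Primrec.snd)
        (hg.comp Primrec.fst (Primrec.fst.comp Primrec.snd))).to₂
  refine this.of_eq fun a => ?_
  generalize f a = n
  induction n with
  | zero => simp
  | succ k ih =>
    show Nat.rec (motive := fun _ => ℚ) 0 (fun i ih => ih + g a i) k + g a k = _
    rw [ih, Finset.sum_range_succ]

/-- finite products over `range`. -/
theorem primrec_prod_range {f : α → ℕ} {g : α → ℕ → ℚ} (hf : Primrec f) (hg : Primrec₂ g) :
    Primrec (fun a => ∏ i ∈ Finset.range (f a), g a i) := by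
  have : Primrec (fun a => Nat.rec (motive := fun _ => ℚ) 1 (fun i ih => ih * g a i) (f a)) :=
    Primrec.nat_rec' hf (Primrec.const 1)
      (primrec_mul.comp (Primrec.snd.comp Primrec.snd)
        (hg.comp Primrec.fst (Primrec.fst.comp Primrec.snd))).to₂
  refine this.of_eq fun a => ?_
  generalize f a = n
  induction n with
  | zero => simp
  | succ k ih =>
    show Nat.rec (motive := fun _ => ℚ) 1 (fun i ih => ih * g a i) k * g a k = _
    rw [ih, Finset.prod_range_succ]

theorem primrec_list_sum : Primrec (List.sum : List ℚ → ℚ) := by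
  have : Primrec (fun l : List ℚ => l.foldr (fun x y => x + y) 0) :=
    Primrec.list_foldr Primrec.id (Primrec.const 0)
      (primrec_add.comp (Primrec.fst.comp Primrec.snd) (Primrec.snd.comp Primrec.snd)).to₂
  exact this.of_eq fun l => rfl

theorem primrec_list_prod : Primrec (List.prod : List ℚ → ℚ) := by
  have : Primrec (fun l : List ℚ => l.foldr (fun x y => x * y) 1) :=
    Primrec.list_foldr Primrec.id (Primrec.const 1)
      (primrec_mul.comp (Primrec.fst.comp Primrec.snd) (Primrec.snd.comp Primrec.snd)).to₂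
  exact this.of_eq fun l => rfl

theorem primrec_nat_list_sum : Primrec (List.sum : List ℕ → ℕ) := by
  have : Primrec (fun l : List ℕ => l.foldr (fun x y => x + y) 0) :=
    Primrec.list_foldr Primrec.id (Primrec.const 0)
      (Primrec.nat_add.comp (Primrec.fst.comp Primrec.snd) (Primrec.snd.comp Primrec.snd)).to₂
  exact this.of_eq fun l => rfl

/-- sum of a mapped list -/
theorem primrec_list_map_sum {f : α → List β} {g : α → β → ℚ} (hf : Primrec f) (hg : Primrec₂ g) :
    Primrec (fun a => ((f a).map (g a)).sum) :=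
  primrec_list_sum.comp (Primrec.list_map hf hg)

/-- a function into `Fin n → σ` is primitive recursive as soon as all its components are. -/
theorem primrec_pi {n : ℕ} {F : α → Fin n → σ} (h : ∀ i, Primrec (fun a => F a i)) : Primrec F :=
  Primrec.fin_curry.2 (Primrec₂.swap (Primrec.fin_curry₁.2 h))

/-- evaluation of a `Fin n → σ` at a fixed index. -/
theorem primrec_apply {n : ℕ} (i : Fin n) : Primrec (fun v : Fin n → σ => v i) :=
  Primrec.fin_app.comp Primrec.id (Primrec.const i)

theorem primrec_list_count [DecidableEq β] (b : β) : Primrec (fun l : List β => l.count b) := by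
  have h1 : PrimrecPred (fun x : β => x = b) := Primrec.eq.comp Primrec.id (Primrec.const b)
  have : Primrec (fun l : List β => (l.filter (fun x => decide (x = b))).length) :=
    Primrec.list_length.comp (Primrec.listFilter h1)
  refine this.of_eq fun l => ?_
  rw [List.count, List.countP_eq_length_filter]
  congr 2

end comb

end Crest.Agent.S0170.RatComp
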