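import Crest.Agent.S0170_Defs
import Crest.Agent.S0170_RatComp

/-! S0170, package C4: computable bounds for all derivatives of the step function `stp`. -/

set_option autoImplicit false
open scoped ContDiff

namespace Crest.Agent.S0170

namespace StpBound

open Crest.Agent.S0170F

lemma S_contDiff' : ContDiff ℝ ∞ S := S_contDiff

lemma iteratedDeriv_comp_affine' {f : ℝ → ℝ} (hf : ContDiff ℝ ∞ f) (m : ℕ) (a b : ℝ) :
    iteratedDeriv m (fun x => f (a * x + b)) = fun x => a ^ m * iteratedDeriv m f (a * x + b) := by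
  have h1 : ContDiff ℝ m (fun y => f (y + b)) :=
    (hf.of_le (by exact_mod_cast le_top)).comp (by fun_prop)
  have := iteratedDeriv_comp_const_mul h1 a
  rw [this, iteratedDeriv_comp_add_const]

lemma iteratedDeriv_succ_S (m : ℕ) (x : ℝ) :
    iteratedDeriv (m + 1) S x =
      2 ^ (m + 1) * (iteratedDeriv m S (2 * x) - iteratedDeriv m S (2 * x - 1)) := by
  rw [iteratedDeriv_succ', S_deriv]
  have c : ∀ a b : ℝ, ContDiff ℝ ∞ (fun x => S (a * x + b)) := fun a b =>
    S_contDiff'.comp (by fun_prop)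
  have e : (fun x => 2 * (S (2 * x) - S (2 * x - 1))) =
      (fun x => 2 * S (2 * x + 0)) - (fun x => 2 * S (2 * x + (-1))) := by
    funext x; simp [sub_eq_add_neg]; ring
  have cm : ∀ a b : ℝ, ContDiffAt ℝ m (fun x => S (a * x + b)) x := fun a b =>
    ((c a b).of_le (by exact_mod_cast le_top)).contDiffAt
  rw [e, iteratedDeriv_sub (contDiffAt_const.mul (cm 2 0)) (contDiffAt_const.mul (cm 2 (-1))),
    iteratedDeriv_const_mul_field, iteratedDeriv_const_mul_field,
    iteratedDeriv_comp_affine' S_contDiff', iteratedDeriv_comp_affine' S_contDiff']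
  simp only [add_zero, ← sub_eq_add_neg]
  ring

/-- the bound for the `k`-th derivative. -/
def bd (k : ℕ) : ℕ := 2 ^ (k * (k + 2))

lemma bd_succ (k : ℕ) : 2 ^ (k + 1) * (2 * bd k) ≤ bd (k + 1) := by
  unfold bd
  have : 2 ^ (k + 1) * (2 * 2 ^ (k * (k + 2))) = 2 ^ (k + 1 + 1 + k * (k + 2)) := by ring
  rw [this]
  apply Nat.pow_le_pow_right (by norm_num)
  nlinarith

lemma iteratedDeriv_S_bound : ∀ (k : ℕ) (x : ℝ), |iteratedDeriv k S x| ≤ (bd k : ℝ)
  | 0, x => by
      simp only [iteratedDeriv_zero, bd]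
      simpa using abs_S_le_one x
  | k + 1, x => by
      rw [iteratedDeriv_succ_S]
      have ih := iteratedDeriv_S_bound k
      have hp : (0 : ℝ) < 2 ^ (k + 1) := by positivity
      have h1 : |iteratedDeriv k S (2 * x) - iteratedDeriv k S (2 * x - 1)| ≤ 2 * (bd k : ℝ) := by
        have := abs_sub (iteratedDeriv k S (2 * x)) (iteratedDeriv k S (2 * x - 1))
        linarith [ih (2 * x), ih (2 * x - 1)]
      have h2 : ((2 ^ (k + 1) * (2 * bd k) : ℕ) : ℝ) ≤ (bd (k + 1) : ℝ) := by
        exact_mod_cast bd_succ k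
      push_cast at h2
      rw [abs_mul, abs_of_pos hp]
      calc 2 ^ (k + 1) * |iteratedDeriv k S (2 * x) - iteratedDeriv k S (2 * x - 1)|
          ≤ 2 ^ (k + 1) * (2 * (bd k : ℝ)) := by gcongr
        _ ≤ (bd (k + 1) : ℝ) := h2

lemma bd_primrec : Primrec bd := by
  unfold bd
  exact RatComp.primrec_nat_pow.comp (Primrec.const 2)
    (Primrec.nat_mul.comp Primrec.id (Primrec.nat_add.comp Primrec.id (Primrec.const 2)))

lemma stp_eq : stp = S := rfl

end StpBound

theorem stp_bound : ∃ b : ℕ → ℕ, Computable b ∧ ∀ k x, |iteratedDeriv k stp x| ≤ (b k : ℝ) :=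
  ⟨StpBound.bd, StpBound.bd_primrec.to_comp, by
    rw [StpBound.stp_eq]; exact StpBound.iteratedDeriv_S_bound⟩

end Crest.Agent.S0170
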