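import Crest.Agent.S0170_Defs
import Crest.Agent.S0170_RatComp

/-! S0170, package C3: the values of the step function `stp` at rational points are computable. -/

set_option autoImplicit false
open scoped ContDiff

namespace Crest.Agent.S0170

namespace StpVal

open Crest.Agent.S0170F MeasureTheory

/-! ### Riemann sums -/

lemma riemann {f : ℝ → ℝ} (hf : Continuous f) {L : ℝ} (hL : ∀ a b, |f a - f b| ≤ L * |a - b|)
    (N : ℕ) (hN : 0 < N) :
    |(∫ u in (0:ℝ)..1, f u) - (∑ i ∈ Finset.range N, f ((i : ℝ) / N)) / N| ≤ L / N := by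
  have hN' : (0 : ℝ) < N := by exact_mod_cast hN
  have hL0 : 0 ≤ L := by
    have := hL 0 1
    have h2 : 0 ≤ |f 0 - f 1| := abs_nonneg _
    simp at this
    linarith
  have hsum := intervalIntegral.sum_integral_adjacent_intervals (μ := volume) (f := f)
    (a := fun k : ℕ => (k : ℝ) / N) (n := N) (fun k _ => hf.intervalIntegrable _ _)
  simp only [Nat.cast_zero, zero_div, div_self hN'.ne'] at hsum
  rw [← hsum, Finset.sum_div, ← Finset.sum_sub_distrib]
  have key : ∀ i ∈ Finset.range N,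
      |(∫ u in ((i : ℝ) / N)..(((i + 1 : ℕ) : ℝ) / N), f u) - f ((i : ℝ) / N) / N| ≤ L / N / N := by
    intro i _
    have hlen : (((i + 1 : ℕ) : ℝ) / N) - (i : ℝ) / N = 1 / N := by push_cast; field_simp; ring
    have hle : (i : ℝ) / N ≤ ((i + 1 : ℕ) : ℝ) / N := by linarith [show (0:ℝ) ≤ 1 / N by positivity]
    have e : f ((i : ℝ) / N) / N = ∫ _u in ((i : ℝ) / N)..(((i + 1 : ℕ) : ℝ) / N), f ((i : ℝ) / N) := by
      rw [intervalIntegral.integral_const, hlen]; simp; ring
    rw [e, ← intervalIntegral.integral_sub (hf.intervalIntegrable _ _) intervalIntegrable_const]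
    have := intervalIntegral.norm_integral_le_of_norm_le_const (a := (i : ℝ) / N)
      (b := ((i + 1 : ℕ) : ℝ) / N) (f := fun u => f u - f ((i : ℝ) / N)) (C := L / N) (by
        intro u hu
        rw [Set.uIoc_of_le hle] at hu
        rw [Real.norm_eq_abs]
        refine (hL _ _).trans ?_
        rw [abs_of_nonneg (by linarith [hu.1])]
        have : u - (i : ℝ) / N ≤ 1 / N := by linarith [hu.2]
        calc L * (u - (i : ℝ) / N) ≤ L * (1 / N) := by gcongr
          _ = L / N := by ring)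
    rw [Real.norm_eq_abs, hlen, abs_of_nonneg (by positivity : (0:ℝ) ≤ 1 / N)] at this
    calc _ ≤ L / N * (1 / N) := this
      _ = L / N / N := by ring
  calc |∑ i ∈ Finset.range N, ((∫ u in ((i : ℝ) / N)..(((i + 1 : ℕ) : ℝ) / N), f u) - f ((i : ℝ) / N) / N)|
      ≤ ∑ i ∈ Finset.range N, |(∫ u in ((i : ℝ) / N)..(((i + 1 : ℕ) : ℝ) / N), f u) - f ((i : ℝ) / N) / N| :=
        Finset.abs_sum_le_sum_abs _ _
    _ ≤ ∑ _i ∈ Finset.range N, L / N / N := Finset.sum_le_sum key
    _ = L / N := by simp; field_simp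

/-- discretised averaging operator. -/
noncomputable def TN (N : ℕ) (g : ℝ → ℝ) (x : ℝ) : ℝ :=
  (∑ i ∈ Finset.range N, g (2 * x - (i : ℝ) / N)) / N

lemma T_sub_TN {g : ℝ → ℝ} (hg : Continuous g) {L : ℝ} (hL : ∀ a b, |g a - g b| ≤ L * |a - b|)
    (N : ℕ) (hN : 0 < N) (x : ℝ) : |T g x - TN N g x| ≤ L / N := by
  have := riemann (f := fun u => g (2 * x - u)) (hg.comp (by fun_prop)) (L := L) (by
    intro a b
    refine (hL _ _).trans ?_
    have : 2 * x - a - (2 * x - b) = -(a - b) := by ring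
    rw [this, abs_neg]) N hN
  exact this

lemma TN_nonexp {g h : ℝ → ℝ} {ε : ℝ} (hε : ∀ x, |g x - h x| ≤ ε) (N : ℕ) (hN : 0 < N) (x : ℝ) :
    |TN N g x - TN N h x| ≤ ε := by
  have hN' : (0 : ℝ) < N := by exact_mod_cast hN
  unfold TN
  rw [← sub_div, ← Finset.sum_sub_distrib, abs_div, abs_of_pos hN', div_le_iff₀ hN']
  calc |∑ i ∈ Finset.range N, (g (2 * x - (i : ℝ) / N) - h (2 * x - (i : ℝ) / N))|
      ≤ ∑ i ∈ Finset.range N, |g (2 * x - (i : ℝ) / N) - h (2 * x - (i : ℝ) / N)| :=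
        Finset.abs_sum_le_sum_abs _ _
    _ ≤ ∑ _i ∈ Finset.range N, ε := Finset.sum_le_sum fun i _ => hε _
    _ = ε * N := by simp; ring

lemma T_lip {g : ℝ → ℝ} (hg : InK g) (a b : ℝ) : |T g a - T g b| ≤ 2 * |a - b| := by
  have hb : ∀ x : ℝ, ‖deriv (T g) x‖₊ ≤ (2 : NNReal) := by
    intro x
    rw [(T_hasDerivAt hg.cont x).deriv, ← NNReal.coe_le_coe, coe_nnnorm, Real.norm_eq_abs]
    push_cast
    rw [abs_le]
    constructor <;>
      linarith [hg.nonneg (2 * x), hg.le_one (2 * x), hg.nonneg (2 * x - 1), hg.le_one (2 * x - 1)]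
  have hl : LipschitzWith 2 (T g) :=
    lipschitzWith_of_nnnorm_deriv_le (fun x => (T_hasDerivAt hg.cont x).differentiableAt) hb
  have := hl.dist_le_mul a b
  simpa [Real.dist_eq] using this

lemma clamp_lip (a b : ℝ) : |clamp a - clamp b| ≤ 2 * |a - b| := by
  have hl : LipschitzWith 1 clamp := (LipschitzWith.id.const_min 1).const_max 0
  have := hl.dist_le_mul a b
  simp only [Real.dist_eq, NNReal.coe_one, one_mul] at this
  linarith [abs_nonneg (a - b)]

lemma Sm_lip (m : ℕ) (a b : ℝ) : |Sm m a - Sm m b| ≤ 2 * |a - b| := by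
  cases m with
  | zero => exact clamp_lip a b
  | succ m => rw [Sm_succ]; exact T_lip (Sm_inK m) a b

lemma Sm_sub_TN (N : ℕ) (hN : 0 < N) (m : ℕ) (x : ℝ) :
    |Sm m x - (TN N)^[m] clamp x| ≤ m * (2 / N) := by
  induction m generalizing x with
  | zero => simp [Sm]
  | succ m ih =>
    rw [Sm_succ, Function.iterate_succ_apply']
    have h1 := T_sub_TN (Sm_inK m).cont (Sm_lip m) N hN x
    have h2 := TN_nonexp ih N hN x
    have h3 := abs_sub_le (T (Sm m) x) (TN N (Sm m) x) (TN N ((TN N)^[m] clamp) x)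
    push_cast
    linarith

lemma S_sub_TN (N : ℕ) (hN : 0 < N) (m : ℕ) (x : ℝ) :
    |S x - (TN N)^[m] clamp x| ≤ (1 / 2) ^ m + m * (2 / N) := by
  have h3 := abs_sub_le (S x) (Sm m x) ((TN N)^[m] clamp x)
  linarith [S_sub_Sm m x, Sm_sub_TN N hN m x]

/-! ### the rational approximants -/

/-- children of an evaluation point. -/
def childQ (N : ℕ) (y : ℚ) : List ℚ :=
  (List.range N).map fun i : ℕ => 2 * y - (i : ℚ) / (N : ℚ)

/-- one refinement step. -/
def stepQ (N : ℕ) (L : List ℚ) : List ℚ := L.flatMap (childQ N)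

/-- clamp on `ℚ`. -/
def clampQ (y : ℚ) : ℚ := max 0 (min 1 y)

/-- the approximant. -/
def apxQ (N m : ℕ) (q : ℚ) : ℚ := (((stepQ N)^[m] [q]).map clampQ).sum / (N : ℚ) ^ m

lemma sum_child (N : ℕ) (hN : 0 < N) (g : ℝ → ℝ) (y : ℚ) :
    ((childQ N y).map fun z : ℚ => g (z : ℝ)).sum = N * TN N g (y : ℝ) := by
  have hN' : (0 : ℝ) < N := by exact_mod_cast hN
  unfold childQ TN
  rw [List.map_map, mul_div_cancel₀ _ hN'.ne']
  have : ∀ (F : ℕ → ℝ) (n : ℕ), ((List.range n).map F).sum = ∑ i ∈ Finset.range n, F i := by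
    intro F n
    induction n with
    | zero => simp
    | succ n ih => rw [List.range_succ, List.map_append, List.sum_append, ih,
        Finset.sum_range_succ]; simp
  rw [this]
  apply Finset.sum_congr rfl
  intro i _
  simp

lemma sum_step (N : ℕ) (hN : 0 < N) (g : ℝ → ℝ) (L : List ℚ) :
    ((stepQ N L).map fun z : ℚ => g (z : ℝ)).sum
      = N * (L.map fun z : ℚ => TN N g (z : ℝ)).sum := by
  unfold stepQ
  induction L with
  | nil => simp
  | cons a L ih =>
    rw [List.flatMap_cons, List.map_append, List.sum_append, ih, sum_child N hN]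
    simp [mul_add]

lemma sum_iter (N : ℕ) (hN : 0 < N) (m : ℕ) (g : ℝ → ℝ) (L : List ℚ) :
    (((stepQ N)^[m] L).map fun z : ℚ => g (z : ℝ)).sum
      = (N : ℝ) ^ m * (L.map fun z : ℚ => (TN N)^[m] g (z : ℝ)).sum := by
  induction m generalizing L with
  | zero => simp
  | succ m ih =>
    rw [Function.iterate_succ_apply, ih, sum_step N hN]
    simp only [Function.iterate_succ_apply']
    ring

lemma clampQ_cast (y : ℚ) : ((clampQ y : ℚ) : ℝ) = clamp (y : ℝ) := by
  unfold clampQ clamp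
  push_cast
  rfl

lemma apxQ_cast (N : ℕ) (hN : 0 < N) (m : ℕ) (q : ℚ) :
    ((apxQ N m q : ℚ) : ℝ) = (TN N)^[m] clamp (q : ℝ) := by
  have hN' : (0 : ℝ) < N := by exact_mod_cast hN
  unfold apxQ
  rw [Rat.cast_div, Rat.cast_pow, Rat.cast_natCast]
  have h : (((((stepQ N)^[m] [q]).map clampQ).sum : ℚ) : ℝ)
      = (((stepQ N)^[m] [q]).map fun z : ℚ => clamp (z : ℝ)).sum := by
    rw [Rat.cast_list_sum, List.map_map]
    congr 1
    apply List.map_congr_left
    intro z _
    exact clampQ_cast z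
  rw [h, sum_iter N hN]
  simp
  field_simp

/-- the final approximating function. -/
def apx (p : ℚ × ℕ) : ℚ := apxQ (4 * (p.2 + 1) * (p.2 + 1)) (p.2 + 1) p.1

lemma apx_spec (q : ℚ) (n : ℕ) : |S (q : ℝ) - (apx (q, n) : ℝ)| ≤ 1 / ((n : ℝ) + 1) := by
  unfold apx
  have hN : 0 < 4 * (n + 1) * (n + 1) := by positivity
  rw [apxQ_cast _ hN]
  refine (S_sub_TN _ hN (n + 1) (q : ℝ)).trans ?_
  have hn : (0 : ℝ) < (n : ℝ) + 1 := by positivity
  have h1 : (1 / 2 : ℝ) ^ (n + 1) ≤ 1 / (2 * ((n : ℝ) + 1)) := by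
    have h2 : (n : ℝ) + 1 ≤ 2 ^ n := by
      have : n + 1 ≤ 2 ^ n := Nat.lt_two_pow_self
      exact_mod_cast this
    rw [one_div_pow, pow_succ]
    apply one_div_le_one_div_of_le (by positivity)
    linarith
  have h3 : ((n + 1 : ℕ) : ℝ) * (2 / ((4 * (n + 1) * (n + 1) : ℕ) : ℝ)) = 1 / (2 * ((n : ℝ) + 1)) := by
    push_cast
    field_simp
    ring
  rw [h3]
  have h4 : 1 / (2 * ((n : ℝ) + 1)) + 1 / (2 * ((n : ℝ) + 1)) = 1 / ((n : ℝ) + 1) := by
    field_simp
    ring
  linarith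

/-! ### primitive recursiveness -/

open RatComp

lemma childQ_primrec : Primrec₂ childQ := by
  unfold childQ
  refine Primrec.list_map (Primrec.list_range.comp Primrec.fst) ?_
  exact (primrec_sub.comp
    (primrec_mul.comp (Primrec.const 2) (Primrec.snd.comp Primrec.fst))
    (primrec_div.comp (primrec_natCast.comp Primrec.snd)
      (primrec_natCast.comp (Primrec.fst.comp Primrec.fst)))).to₂

lemma stepQ_primrec : Primrec₂ stepQ := by
  unfold stepQ
  exact Primrec.list_flatMap Primrec.snd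
    (childQ_primrec.comp (Primrec.fst.comp Primrec.fst) Primrec.snd).to₂

lemma clampQ_primrec : Primrec clampQ := by
  unfold clampQ
  exact primrec_max.comp (Primrec.const 0) (primrec_min.comp (Primrec.const 1) Primrec.id)

lemma apx_primrec : Primrec apx := by
  unfold apx apxQ
  have hN : Primrec (fun p : ℚ × ℕ => 4 * (p.2 + 1) * (p.2 + 1)) :=
    Primrec.nat_mul.comp (Primrec.nat_mul.comp (Primrec.const 4) (Primrec.succ.comp Primrec.snd))
      (Primrec.succ.comp Primrec.snd)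
  have hm : Primrec (fun p : ℚ × ℕ => p.2 + 1) := Primrec.succ.comp Primrec.snd
  have hit : Primrec (fun p : ℚ × ℕ => (stepQ (4 * (p.2 + 1) * (p.2 + 1)))^[p.2 + 1] [p.1]) :=
    Primrec.nat_iterate hm (Primrec.list_cons.comp Primrec.fst (Primrec.const []))
      (stepQ_primrec.comp (hN.comp Primrec.fst) Primrec.snd).to₂
  exact primrec_div.comp
    (primrec_list_map_sum hit (clampQ_primrec.comp Primrec.snd).to₂)
    (primrec_pow.comp (primrec_natCast.comp hN) hm)

end StpVal

theorem stp_compR : CompR (fun q : ℚ => stp (q : ℝ)) :=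
  ⟨StpVal.apx, StpVal.apx_primrec.to_comp, StpVal.apx_spec⟩

end Crest.Agent.S0170
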