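import Crest.Agent.S0170_Defs
import Crest.Agent.S0170_Stp
import Crest.Agent.S0170_QComp
import Crest.Agent.S0170_CompR
import Crest.Agent.S0170_StpVal
import Crest.Agent.S0170_StpBound
import Crest.Agent.S0170_FinDiff

/-! # S0170, package C7: the one-dimensional building blocks are `Eff1`. -/

set_option autoImplicit false
open scoped ContDiff

namespace Crest.Agent.S0170

namespace Eff1Aux

lemma iteratedDeriv_comp_affine {f : ℝ → ℝ} (hf : ContDiff ℝ ∞ f) (m : ℕ) (a b : ℝ) :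
    iteratedDeriv m (fun x => f (a * x + b)) = fun x => a ^ m * iteratedDeriv m f (a * x + b) := by
  have h1 : ContDiff ℝ m (fun y => f (y + b)) :=
    (hf.of_le (by exact_mod_cast le_top)).comp (by fun_prop)
  have := iteratedDeriv_comp_const_mul h1 a
  rw [this, iteratedDeriv_comp_add_const]

lemma contDiff_iteratedDeriv {f : ℝ → ℝ} (hf : ContDiff ℝ ∞ f) (k : ℕ) :
    ContDiff ℝ ∞ (iteratedDeriv k f) := by
  induction k with
  | zero => simpa [iteratedDeriv_zero] using hf
  | succ k ih =>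
    rw [iteratedDeriv_succ]
    exact (contDiff_infty_iff_deriv.1 ih).2

end Eff1Aux

open Eff1Aux

theorem Eff1.deriv {f : ℝ → ℝ} (hf : Eff1 f) : Eff1 (deriv f) := by
  refine ⟨(contDiff_infty_iff_deriv.1 hf.smooth).2, ?_, ?_⟩
  · have h := hf.comp.comp (g := fun x : ℕ × ℚ => (x.1 + 1, x.2))
      ((Computable.succ.comp Computable.fst).pair Computable.snd)
    have e : (fun x : ℕ × ℚ => iteratedDeriv x.1 (_root_.deriv f) (x.2 : ℝ)) =
        fun x : ℕ × ℚ => iteratedDeriv (x.1 + 1) f (x.2 : ℝ) := by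
      funext x
      rw [iteratedDeriv_succ']
    rw [e]
    exact h
  · obtain ⟨b, hb, h⟩ := hf.bound
    refine ⟨fun k => b (k + 1), hb.comp Computable.succ, fun k x => ?_⟩
    rw [← iteratedDeriv_succ']
    exact h _ _

theorem Eff1.comp_affine {f : ℝ → ℝ} (hf : Eff1 f) (a b : ℚ) :
    Eff1 (fun x => f ((a : ℝ) * x + (b : ℝ))) := by
  refine ⟨hf.smooth.comp (by fun_prop), ?_, ?_⟩
  · have h1 : CompR (fun x : ℕ × ℚ => ((a ^ x.1 : ℚ) : ℝ)) :=
      CompR.of_rat ((RatComp.primrec_pow.comp (Primrec.const a) Primrec.fst).to_comp)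
    have h2 : CompR (fun x : ℕ × ℚ => iteratedDeriv x.1 f ((a * x.2 + b : ℚ) : ℝ)) :=
      hf.comp.comp (g := fun x : ℕ × ℚ => (x.1, a * x.2 + b))
        ((Primrec.fst.pair (RatComp.primrec_add.comp
          (RatComp.primrec_mul.comp (Primrec.const a) Primrec.snd) (Primrec.const b))).to_comp)
    have e : (fun x : ℕ × ℚ => iteratedDeriv x.1 (fun x => f ((a : ℝ) * x + (b : ℝ))) (x.2 : ℝ)) =
        fun x : ℕ × ℚ => ((a ^ x.1 : ℚ) : ℝ) * iteratedDeriv x.1 f ((a * x.2 + b : ℚ) : ℝ) := by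
      funext x
      rw [iteratedDeriv_comp_affine hf.smooth]
      push_cast
      rfl
    rw [e]
    exact h1.mul h2
  · obtain ⟨c, hc, h⟩ := hf.bound
    refine ⟨fun k => ⌈|a|⌉₊ ^ k * c k, ?_, fun k x => ?_⟩
    · exact Primrec.nat_mul.to_comp.comp
        ((RatComp.primrec_nat_pow.comp (Primrec.const _) Primrec.id).to_comp) hc
    · rw [iteratedDeriv_comp_affine hf.smooth]
      simp only [abs_mul, abs_pow]
      push_cast
      have ha : |(a : ℝ)| ≤ (⌈|a|⌉₊ : ℝ) := by
        have := Nat.le_ceil |a|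
        have h2 : ((|a| : ℚ) : ℝ) ≤ ((⌈|a|⌉₊ : ℚ) : ℝ) := by exact_mod_cast this
        simpa using h2
      exact mul_le_mul (pow_le_pow_left₀ (abs_nonneg _) ha _) (h _ _) (abs_nonneg _) (by positivity)

theorem Eff1.sub {f g : ℝ → ℝ} (hf : Eff1 f) (hg : Eff1 g) : Eff1 (fun x => f x - g x) := by
  have key : ∀ k : ℕ, iteratedDeriv k (fun x => f x - g x) =
      fun x => iteratedDeriv k f x - iteratedDeriv k g x := by
    intro k
    funext x
    have := iteratedDeriv_sub (n := k) (x := x) (f := f) (g := g)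
      ((hf.smooth.of_le (by exact_mod_cast le_top)).contDiffAt)
      ((hg.smooth.of_le (by exact_mod_cast le_top)).contDiffAt)
    exact this
  refine ⟨hf.smooth.sub hg.smooth, ?_, ?_⟩
  · simp only [key]
    exact hf.comp.sub hg.comp
  · obtain ⟨c, hc, h⟩ := hf.bound
    obtain ⟨d, hd, h'⟩ := hg.bound
    refine ⟨fun k => c k + d k, Primrec.nat_add.to_comp.comp hc hd, fun k x => ?_⟩
    rw [key]
    push_cast
    calc |iteratedDeriv k f x - iteratedDeriv k g x|
        ≤ |iteratedDeriv k f x| + |iteratedDeriv k g x| := abs_sub _ _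
      _ ≤ _ := add_le_add (h _ _) (h' _ _)

theorem eff1_stp : Eff1 stp := Eff1.of_values stp_contDiff stp_compR stp_bound

set_option linter.unusedVariables false in
theorem eff1_plat (lo hi δ : ℚ) (hδ : 0 < δ) (h : lo ≤ hi) : Eff1 (plat lo hi δ) := by
  have hδ' : (δ : ℝ) ≠ 0 := by exact_mod_cast hδ.ne'
  have e : plat lo hi δ = fun x : ℝ =>
      stp (((3 / δ : ℚ) : ℝ) * x + ((2 - 3 * lo / δ : ℚ) : ℝ)) -
        stp (((3 / δ : ℚ) : ℝ) * x + ((-(3 / 2) - 3 * hi / δ : ℚ) : ℝ)) := by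
    funext x
    unfold plat
    congr 2
    · push_cast
      field_simp
      ring
    · push_cast
      field_simp
      ring
  rw [e]
  exact (eff1_stp.comp_affine _ _).sub (eff1_stp.comp_affine _ _)

theorem eff1_tim (α β : ℚ) (h : α < β) : Eff1 (tim α β) := by
  have hd : ((β : ℝ) - α) ≠ 0 := by
    have : (α : ℝ) < β := by exact_mod_cast h
    exact (sub_pos.2 this).ne'
  have e : tim α β = fun x : ℝ =>
      stp (((3 / (β - α) : ℚ) : ℝ) * x + ((-1 - 3 * α / (β - α) : ℚ) : ℝ)) := by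
    funext x
    unfold tim
    congr 1
    push_cast
    field_simp
    ring
  rw [e]
  exact eff1_stp.comp_affine _ _

namespace Eff1Aux

lemma iteratedDeriv_affine_mul_succ {g : ℝ → ℝ} (hg : ContDiff ℝ ∞ g) (A B : ℝ) (k : ℕ) :
    iteratedDeriv (k + 1) (fun x => (A + B * x) * g x) = fun x =>
      (A + B * x) * iteratedDeriv (k + 1) g x + ((k : ℝ) + 1) * B * iteratedDeriv k g x := by
  induction k with
  | zero =>
    funext x
    have hgd : DifferentiableAt ℝ g x := (hg.differentiable (by simp)).differentiableAt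
    have h1 : HasDerivAt (fun x => (A + B * x) * g x) (B * g x + (A + B * x) * _root_.deriv g x) x := by
      have h2 : HasDerivAt (fun x : ℝ => A + B * x) B x := by
        simpa using ((hasDerivAt_id x).const_mul B).const_add A
      exact h2.mul hgd.hasDerivAt
    simp only [zero_add, iteratedDeriv_one, iteratedDeriv_zero, Nat.cast_zero]
    rw [h1.deriv]
    ring
  | succ k ih =>
    rw [iteratedDeriv_succ, ih]
    funext x
    have d1 : HasDerivAt (iteratedDeriv (k + 1) g) (iteratedDeriv (k + 1 + 1) g x) x := by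
      rw [iteratedDeriv_succ (n := k + 1)]
      exact (((contDiff_iteratedDeriv hg (k + 1)).differentiable (by simp)).differentiableAt).hasDerivAt
    have d0 : HasDerivAt (iteratedDeriv k g) (iteratedDeriv (k + 1) g x) x := by
      rw [iteratedDeriv_succ (n := k)]
      exact (((contDiff_iteratedDeriv hg k).differentiable (by simp)).differentiableAt).hasDerivAt
    have h2 : HasDerivAt (fun x : ℝ => A + B * x) B x := by
      simpa using ((hasDerivAt_id x).const_mul B).const_add A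
    have h3 : HasDerivAt
        (fun x => (A + B * x) * iteratedDeriv (k + 1) g x + ((k : ℝ) + 1) * B * iteratedDeriv k g x)
        (B * iteratedDeriv (k + 1) g x + (A + B * x) * iteratedDeriv (k + 1 + 1) g x +
          ((k : ℝ) + 1) * B * iteratedDeriv (k + 1) g x) x :=
      (h2.mul d1).add (d0.const_mul (((k : ℝ) + 1) * B))
    rw [h3.deriv]
    push_cast
    ring

lemma iteratedDeriv_affine_mul {g : ℝ → ℝ} (hg : ContDiff ℝ ∞ g) (A B : ℝ) (k : ℕ) (x : ℝ) :
    iteratedDeriv k (fun x => (A + B * x) * g x) x =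
      (A + B * x) * iteratedDeriv k g x + (k : ℝ) * B * iteratedDeriv (k - 1) g x := by
  cases k with
  | zero => simp
  | succ k =>
    rw [iteratedDeriv_affine_mul_succ hg]
    simp

lemma iteratedDeriv_eq_zero_of_support {g : ℝ → ℝ} {R : ℝ} (h : ∀ x, R < |x| → g x = 0) (k : ℕ)
    {x : ℝ} (hx : R < |x|) : iteratedDeriv k g x = 0 := by
  have ho : IsOpen {y : ℝ | R < |y|} := isOpen_lt continuous_const continuous_abs
  have he : g =ᶠ[nhds x] fun _ => (0 : ℝ) := by
    filter_upwards [ho.mem_nhds hx] with y hy using h y hy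
  rw [he.iteratedDeriv_eq k]
  simp

lemma abs_le_ceil (a : ℚ) : |(a : ℝ)| ≤ (⌈|a|⌉₊ : ℝ) := by
  have := Nat.le_ceil |a|
  have h2 : ((|a| : ℚ) : ℝ) ≤ ((⌈|a|⌉₊ : ℚ) : ℝ) := by exact_mod_cast this
  simpa using h2

end Eff1Aux

theorem Eff1.affine_mul {g : ℝ → ℝ} (hg : Eff1 g) (A B : ℚ) (R : ℕ)
    (hs : ∀ x : ℝ, (R : ℝ) < |x| → g x = 0) : Eff1 (fun x => ((A : ℝ) + (B : ℝ) * x) * g x) := by
  refine ⟨(by fun_prop : ContDiff ℝ ∞ fun x : ℝ => (A : ℝ) + (B : ℝ) * x).mul hg.smooth, ?_, ?_⟩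
  · simp only [iteratedDeriv_affine_mul hg.smooth]
    have h1 : CompR (fun x : ℕ × ℚ => ((A + B * x.2 : ℚ) : ℝ)) :=
      CompR.of_rat ((RatComp.primrec_add.comp (Primrec.const A)
        (RatComp.primrec_mul.comp (Primrec.const B) Primrec.snd)).to_comp)
    have h2 : CompR (fun x : ℕ × ℚ => (((x.1 : ℚ) * B : ℚ) : ℝ)) :=
      CompR.of_rat ((RatComp.primrec_mul.comp (RatComp.primrec_natCast.comp Primrec.fst)
        (Primrec.const B)).to_comp)
    have h3 : CompR (fun x : ℕ × ℚ => iteratedDeriv (x.1 - 1) g (x.2 : ℝ)) :=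
      hg.comp.comp (g := fun x : ℕ × ℚ => (x.1 - 1, x.2))
        (((Primrec.nat_sub.comp Primrec.fst (Primrec.const 1)).pair Primrec.snd).to_comp)
    have h4 := (h1.mul hg.comp).add (h2.mul h3)
    push_cast at h4
    exact h4
  · obtain ⟨c, hc, h⟩ := hg.bound
    refine ⟨fun k => (⌈|A|⌉₊ + ⌈|B|⌉₊ * R) * c k + k * ⌈|B|⌉₊ * c (k - 1), ?_, fun k x => ?_⟩
    · have p1 : Computable (fun k : ℕ => c (k - 1)) :=
        hc.comp ((Primrec.nat_sub.comp Primrec.id (Primrec.const 1)).to_comp)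
      have p2 : Computable (fun k : ℕ => k * ⌈|B|⌉₊) :=
        (Primrec.nat_mul.comp Primrec.id (Primrec.const _)).to_comp
      exact Primrec.nat_add.to_comp.comp
        (Primrec.nat_mul.to_comp.comp (Computable.const _) hc)
        (Primrec.nat_mul.to_comp.comp p2 p1)
    · rw [iteratedDeriv_affine_mul hg.smooth]
      push_cast
      have hA := abs_le_ceil A
      have hB := abs_le_ceil B
      have t2 : |(k : ℝ) * (B : ℝ) * iteratedDeriv (k - 1) g x| ≤
          (k : ℝ) * (⌈|B|⌉₊ : ℝ) * (c (k - 1) : ℝ) := by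
        rw [abs_mul, abs_mul, Nat.abs_cast]
        exact mul_le_mul (mul_le_mul_of_nonneg_left hB (by positivity)) (h _ _) (abs_nonneg _)
          (by positivity)
      have t1 : |((A : ℝ) + (B : ℝ) * x) * iteratedDeriv k g x| ≤
          ((⌈|A|⌉₊ : ℝ) + (⌈|B|⌉₊ : ℝ) * (R : ℝ)) * (c k : ℝ) := by
        by_cases hx : (R : ℝ) < |x|
        · rw [iteratedDeriv_eq_zero_of_support hs k hx]
          simp only [mul_zero, abs_zero]
          positivity
        · rw [not_lt] at hx
          rw [abs_mul]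
          refine mul_le_mul ?_ (h _ _) (abs_nonneg _) (by positivity)
          calc |(A : ℝ) + (B : ℝ) * x| ≤ |(A : ℝ)| + |(B : ℝ) * x| := abs_add_le _ _
            _ = |(A : ℝ)| + |(B : ℝ)| * |x| := by rw [abs_mul]
            _ ≤ _ := add_le_add hA (mul_le_mul hB hx (abs_nonneg _) (by positivity))
      exact (abs_add_le _ _).trans (add_le_add t1 t2)

theorem Eff1Aux.plat_eq_zero' (lo hi δ : ℝ) (hδ : 0 < δ) (h : lo ≤ hi) {x : ℝ}
    (hx : x ≤ lo - 5 * δ / 6 ∨ hi + 5 * δ / 6 ≤ x) : plat lo hi δ x = 0 := by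
  unfold plat
  rcases hx with hx | hx
  · rw [stp_zero, stp_zero, sub_zero]
    · have : 3 * (x - hi) / δ ≤ 0 := div_nonpos_of_nonpos_of_nonneg (by nlinarith) hδ.le
      linarith
    · have : 3 * (x - lo) / δ ≤ -(5 / 2) := by
        rw [div_le_iff₀ hδ]
        nlinarith
      linarith
  · rw [stp_one, stp_one, sub_self]
    · have : 5 / 2 ≤ 3 * (x - hi) / δ := by
        rw [le_div_iff₀ hδ]
        nlinarith
      linarith
    · have : 0 ≤ 3 * (x - lo) / δ := div_nonneg (by nlinarith) hδ.le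
      linarith

theorem eff1_apl (A B lo hi δ : ℚ) (hδ : 0 < δ) (h : lo ≤ hi) : Eff1 (apl A B lo hi δ) := by
  have hδ' : (0 : ℝ) < δ := by exact_mod_cast hδ
  have h' : (lo : ℝ) ≤ hi := by exact_mod_cast h
  refine (eff1_plat lo hi δ hδ h).affine_mul A B (⌈|lo|⌉₊ + ⌈|hi|⌉₊ + ⌈|δ|⌉₊) fun x hx => ?_
  apply plat_eq_zero' _ _ _ hδ' h'
  have h1 := abs_le_ceil lo
  have h2 := abs_le_ceil hi
  have h3 := abs_le_ceil δ
  push_cast at hx
  have a1 := abs_le.1 h1
  have a2 := abs_le.1 h2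
  have a3 := abs_le.1 h3
  have n1 : (0 : ℝ) ≤ (⌈|lo|⌉₊ : ℝ) := by positivity
  have n2 : (0 : ℝ) ≤ (⌈|hi|⌉₊ : ℝ) := by positivity
  rcases lt_abs.1 hx with hx | hx
  · right; linarith [a1.1, a1.2, a2.1, a2.2, a3.1, a3.2]
  · left; linarith [a1.1, a1.2, a2.1, a2.2, a3.1, a3.2]

end Crest.Agent.S0170
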