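import Mathlib

/-!
# A Fabius-type smooth step function `sig`

`sig` is the uniform limit of `fk (k+1) = T (fk k)`, `(T f) x = ∫ v in (2x-1)..(2x), f v`,
`fk 0 = clamp`.  It satisfies `sig' x = 2 sig (2x) - 2 sig (2x-1)`, is `0` on `x ≤ 0`, `1` on `1 ≤ x`.
-/

set_option autoImplicit false
open scoped ContDiff Topology
open Filter Set

namespace Crest.Agent.S0170.Sigma

/-- The averaging operator. -/
noncomputable def T (f : ℝ → ℝ) (x : ℝ) : ℝ := ∫ v in (2 * x - 1)..(2 * x), f v

/-- The iterates. -/
noncomputable def fk : ℕ → ℝ → ℝ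
  | 0 => fun x => max 0 (min x 1)
  | k + 1 => T (fk k)

/-- "Good" functions: continuous, with values in `[0,1]`, `0` on the left, `1` on the right. -/
structure Good (f : ℝ → ℝ) : Prop where
  cont : Continuous f
  nonneg : ∀ x, 0 ≤ f x
  le_one : ∀ x, f x ≤ 1
  left : ∀ x, x ≤ 0 → f x = 0
  right : ∀ x, 1 ≤ x → f x = 1

lemma T_eq_sub {f : ℝ → ℝ} (hf : Continuous f) (x : ℝ) :
    T f x = (∫ v in (0:ℝ)..(2 * x), f v) - ∫ v in (0:ℝ)..(2 * x - 1), f v := by
  unfold T
  rw [intervalIntegral.integral_interval_sub_left] <;> exact hf.intervalIntegrable _ _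

lemma T_hasDerivAt {f : ℝ → ℝ} (hf : Continuous f) (x : ℝ) :
    HasDerivAt (T f) (2 * f (2 * x) - 2 * f (2 * x - 1)) x := by
  have h0 : ∀ y, HasDerivAt (fun u => ∫ v in (0:ℝ)..u, f v) (f y) y := fun y =>
    intervalIntegral.integral_hasDerivAt_right (hf.intervalIntegrable _ _)
      (hf.stronglyMeasurableAtFilter _ _) hf.continuousAt
  have h1 : HasDerivAt (fun x : ℝ => 2 * x) 2 x := by
    simpa using (hasDerivAt_id x).const_mul (2:ℝ)
  have h2 : HasDerivAt (fun x : ℝ => 2 * x - 1) 2 x := h1.sub_const 1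
  have e : T f = fun x => (∫ v in (0:ℝ)..(2 * x), f v) - ∫ v in (0:ℝ)..(2 * x - 1), f v :=
    funext (T_eq_sub hf)
  rw [e]
  have a1 := (h0 (2 * x)).comp x h1
  have a2 := (h0 (2 * x - 1)).comp x h2
  have := a1.sub a2
  have e2 : f (2 * x) * 2 - f (2 * x - 1) * 2 = 2 * f (2 * x) - 2 * f (2 * x - 1) := by ring
  rw [e2] at this
  exact this

lemma T_mono {f g : ℝ → ℝ} (hf : Continuous f) (hg : Continuous g) (h : ∀ x, f x ≤ g x) (x : ℝ) :
    T f x ≤ T g x := by
  unfold T
  apply intervalIntegral.integral_mono_on (by linarith) (hf.intervalIntegrable _ _)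
    (hg.intervalIntegrable _ _)
  intro y _
  exact h y

lemma T_const_on {f : ℝ → ℝ} {c : ℝ} {x : ℝ} (h : ∀ v ∈ Set.Icc (2 * x - 1) (2 * x), f v = c) :
    T f x = c := by
  unfold T
  have : ∫ v in (2 * x - 1)..(2 * x), f v = ∫ v in (2 * x - 1)..(2 * x), c := by
    apply intervalIntegral.integral_congr
    intro v hv
    rw [Set.uIcc_of_le (by linarith)] at hv
    exact h v hv
  rw [this]
  simp

lemma T_shift (f : ℝ → ℝ) (d x : ℝ) : T (fun v => f (v - d)) x = T f (x - d / 2) := by
  unfold T
  rw [intervalIntegral.integral_comp_sub_right]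
  congr 1 <;> ring

lemma Good.mapT {f : ℝ → ℝ} (hf : Good f) : Good (T f) where
  cont := continuous_iff_continuousAt.2 fun x => (T_hasDerivAt hf.cont x).continuousAt
  nonneg x := by
    have := T_mono (f := fun _ => 0) continuous_const hf.cont hf.nonneg x
    rwa [T_const_on (c := 0) (fun _ _ => rfl)] at this
  le_one x := by
    have := T_mono (g := fun _ => 1) hf.cont continuous_const hf.le_one x
    rwa [T_const_on (f := fun _ => (1:ℝ)) (c := 1) (fun _ _ => rfl)] at this
  left x hx := T_const_on fun v hv => hf.left v (by linarith [hv.2])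
  right x hx := T_const_on fun v hv => hf.right v (by linarith [hv.1])

lemma good_fk : ∀ k, Good (fk k)
  | 0 => {
      cont := by unfold fk; fun_prop
      nonneg := fun x => le_max_left _ _
      le_one := fun x => max_le zero_le_one (min_le_right _ _)
      left := fun x hx => by simp [fk, hx]
      right := fun x hx => by simp [fk, hx] }
  | k + 1 => (good_fk k).mapT

/-- `T f` is `2`-Lipschitz for good `f`. -/
lemma Good.T_lip {f : ℝ → ℝ} (hf : Good f) (x y : ℝ) : |T f x - T f y| ≤ 2 * |x - y| := by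
  have hd : ∀ z, HasDerivAt (T f) (2 * f (2 * z) - 2 * f (2 * z - 1)) z := T_hasDerivAt hf.cont
  have hb : ∀ z, ‖deriv (T f) z‖ ≤ 2 := by
    intro z
    rw [(hd z).deriv, Real.norm_eq_abs, abs_le]
    constructor <;> nlinarith [hf.nonneg (2 * z), hf.le_one (2 * z), hf.nonneg (2 * z - 1),
      hf.le_one (2 * z - 1)]
  have := Convex.norm_image_sub_le_of_norm_deriv_le (f := T f) (s := Set.univ) (C := 2)
    (fun z _ => (hd z).differentiableAt) (fun z _ => hb z) convex_univ (Set.mem_univ y)
    (Set.mem_univ x)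
  simpa [Real.norm_eq_abs] using this

lemma fk_lip : ∀ k x y, |fk k x - fk k y| ≤ 2 * |x - y|
  | 0, x, y => by
      have h1 : |max 0 (min x 1) - max 0 (min y 1)| ≤ |min x 1 - min y 1| := by
        rw [max_comm 0, max_comm 0]; exact abs_max_sub_max_le_abs _ _ _
      have h2 : |min x 1 - min y 1| ≤ |x - y| := by
        have := abs_min_sub_min_le_max x 1 y 1
        simpa using this
      simp only [fk]
      linarith [abs_nonneg (x - y)]
  | k + 1, x, y => (good_fk k).T_lip x y


/-- horizontal closeness of consecutive iterates -/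
lemma fk_close : ∀ k x, fk k (x - 1 / 2 ^ k) ≤ fk (k + 1) x ∧ fk (k + 1) x ≤ fk k (x + 1 / 2 ^ k)
  | 0, x => by
      constructor
      · rcases le_total x 1 with h | h
        · rw [(good_fk 0).left _ (by simpa using h)]; exact (good_fk 1).nonneg x
        · rw [(good_fk 1).right _ h]; exact (good_fk 0).le_one _
      · rcases le_total x 0 with h | h
        · rw [(good_fk 1).left _ h]; exact (good_fk 0).nonneg _
        · rw [(good_fk 0).right _ (by simpa using h)]; exact (good_fk 1).le_one _
  | k + 1, x => by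
      have ih := fk_close k
      have c1 : Continuous (fk k) := (good_fk k).cont
      have c2 : Continuous (fk (k + 1)) := (good_fk (k + 1)).cont
      constructor
      · have := T_mono (f := fun v => fk k (v - 1 / 2 ^ k)) (g := fk (k + 1)) (by fun_prop) c2
          (fun v => (ih v).1) x
        rw [T_shift] at this
        have e : x - 1 / 2 ^ k / 2 = x - 1 / 2 ^ (k + 1) := by rw [pow_succ]; field_simp
        rw [e] at this
        exact this
      · have := T_mono (f := fk (k + 1)) (g := fun v => fk k (v - (-(1 / 2 ^ k)))) c2 (by fun_prop)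
          (fun v => by simpa using (ih v).2) x
        rw [T_shift] at this
        have e : x - -(1 / 2 ^ k) / 2 = x + 1 / 2 ^ (k + 1) := by rw [pow_succ]; field_simp; ring
        rw [e] at this
        exact this

lemma fk_dist (k : ℕ) (x : ℝ) : dist (fk k x) (fk (k + 1) x) ≤ 4 / 2 / 2 ^ k := by
  obtain ⟨h1, h2⟩ := fk_close k x
  have l1 := fk_lip k x (x - 1 / 2 ^ k)
  have l2 := fk_lip k (x + 1 / 2 ^ k) x
  have p : (0:ℝ) < 1 / 2 ^ k := by positivity
  rw [show x - (x - 1 / 2 ^ k) = 1 / 2 ^ k by ring, abs_of_pos p] at l1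
  rw [show x + 1 / 2 ^ k - x = 1 / 2 ^ k by ring, abs_of_pos p] at l2
  have e : (4:ℝ) / 2 / 2 ^ k = 2 * (1 / 2 ^ k) := by ring
  rw [e, Real.dist_eq, abs_le]
  have := abs_le.1 l1
  have := abs_le.1 l2
  constructor <;> linarith

/-- The Fabius-type smooth step. -/
noncomputable def sig (x : ℝ) : ℝ := limUnder atTop (fun k => fk k x)

lemma fk_tendsto (x : ℝ) : Tendsto (fun k => fk k x) atTop (𝓝 (sig x)) :=
  CauchySeq.tendsto_limUnder (cauchySeq_of_le_geometric_two (fun k => fk_dist k x))

lemma fk_sig_dist (k : ℕ) (x : ℝ) : |fk k x - sig x| ≤ 4 / 2 ^ k :=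
  dist_le_of_le_geometric_two_of_tendsto (fun k => fk_dist k x) (fk_tendsto x) k

lemma sig_nonneg (x : ℝ) : 0 ≤ sig x :=
  ge_of_tendsto' (fk_tendsto x) fun k => (good_fk k).nonneg x

lemma sig_le_one (x : ℝ) : sig x ≤ 1 :=
  le_of_tendsto' (fk_tendsto x) fun k => (good_fk k).le_one x

lemma sig_left {x : ℝ} (hx : x ≤ 0) : sig x = 0 :=
  tendsto_nhds_unique (fk_tendsto x) (by simp [(good_fk _).left x hx])

lemma sig_right {x : ℝ} (hx : 1 ≤ x) : sig x = 1 :=
  tendsto_nhds_unique (fk_tendsto x) (by simp [(good_fk _).right x hx])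

lemma sig_lip (x y : ℝ) : |sig x - sig y| ≤ 2 * |x - y| :=
  le_of_tendsto' (((fk_tendsto x).sub (fk_tendsto y)).abs) fun k => fk_lip k x y

lemma sig_continuous : Continuous sig := by
  have : LipschitzWith 2 sig := LipschitzWith.of_dist_le_mul fun x y => by
    simpa [Real.dist_eq] using sig_lip x y
  exact this.continuous

lemma good_sig : Good sig :=
  ⟨sig_continuous, sig_nonneg, sig_le_one, fun _ => sig_left, fun _ => sig_right⟩

lemma T_sig : T sig = sig := by
  funext x
  have h1 : Tendsto (fun k => fk (k + 1) x) atTop (𝓝 (sig x)) :=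
    (tendsto_add_atTop_iff_nat 1).2 (fk_tendsto x)
  have h2 : Tendsto (fun k => fk (k + 1) x) atTop (𝓝 (T sig x)) := by
    rw [tendsto_iff_dist_tendsto_zero]
    have hb : ∀ k, dist (fk (k + 1) x) (T sig x) ≤ 4 / 2 ^ k := by
      intro k
      have c1 : Continuous (fk k) := (good_fk k).cont
      have u1 := T_mono (f := fk k) (g := fun v => sig v + 4 / 2 ^ k) c1
        (by have := sig_continuous; fun_prop)
        (fun v => by have := abs_le.1 (fk_sig_dist k v); linarith) x
      have u2 := T_mono (g := fk k) (f := fun v => sig v - 4 / 2 ^ k)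
        (by have := sig_continuous; fun_prop) c1
        (fun v => by have := abs_le.1 (fk_sig_dist k v); linarith) x
      have e1 : T (fun v => sig v + 4 / 2 ^ k) x = T sig x + 4 / 2 ^ k := by
        unfold T
        rw [intervalIntegral.integral_add (sig_continuous.intervalIntegrable _ _)
          (continuous_const.intervalIntegrable _ _)]
        simp
      have e2 : T (fun v => sig v - 4 / 2 ^ k) x = T sig x - 4 / 2 ^ k := by
        unfold T
        rw [intervalIntegral.integral_sub (sig_continuous.intervalIntegrable _ _)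
          (continuous_const.intervalIntegrable _ _)]
        simp
      rw [e1] at u1
      rw [e2] at u2
      rw [Real.dist_eq, abs_le]
      constructor
      · show -(4 / 2 ^ k) ≤ T (fk k) x - T sig x
        linarith
      · show T (fk k) x - T sig x ≤ 4 / 2 ^ k
        linarith
    refine squeeze_zero (fun _ => dist_nonneg) hb ?_
    have : Tendsto (fun k : ℕ => 4 * (1 / 2 : ℝ) ^ k) atTop (𝓝 (4 * 0)) :=
      (tendsto_pow_atTop_nhds_zero_of_lt_one (by norm_num) (by norm_num)).const_mul 4
    simpa [div_eq_mul_inv] using this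
  exact tendsto_nhds_unique h2 h1

lemma sig_hasDerivAt (x : ℝ) : HasDerivAt sig (2 * sig (2 * x) - 2 * sig (2 * x - 1)) x := by
  have := T_hasDerivAt sig_continuous x
  rwa [T_sig] at this

lemma deriv_sig : deriv sig = fun x => 2 * sig (2 * x) - 2 * sig (2 * x - 1) :=
  funext fun x => (sig_hasDerivAt x).deriv

lemma sig_contDiff_nat : ∀ n : ℕ, ContDiff ℝ n sig
  | 0 => by
      have : ContDiff ℝ 0 sig := contDiff_zero.2 sig_continuous
      exact_mod_cast this
  | n + 1 => by
      have ih := sig_contDiff_nat n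
      have : ContDiff ℝ ((n : ℕ∞ω) + 1) sig := by
        rw [contDiff_succ_iff_deriv]
        refine ⟨fun x => (sig_hasDerivAt x).differentiableAt, by simp, ?_⟩
        rw [deriv_sig]
        have a1 : ContDiff ℝ n (fun x : ℝ => sig (2 * x)) := ih.comp (by fun_prop)
        have a2 : ContDiff ℝ n (fun x : ℝ => sig (2 * x - 1)) := ih.comp (by fun_prop)
        exact (contDiff_const.mul a1).sub (contDiff_const.mul a2)
      exact_mod_cast this

lemma sig_contDiff : ContDiff ℝ ∞ sig := contDiff_infty.2 sig_contDiff_nat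


lemma sig_mem (x : ℝ) : sig x ∈ Set.Icc (0 : ℝ) 1 := ⟨sig_nonneg x, sig_le_one x⟩

/-- iterated derivative of an affine reparametrisation of a smooth function -/
lemma iteratedDeriv_comp_affine {f : ℝ → ℝ} (hf : ContDiff ℝ ∞ f) (m : ℕ) (a b : ℝ) :
    iteratedDeriv m (fun x => f (a * x + b)) = fun x => a ^ m * iteratedDeriv m f (a * x + b) := by
  have h1 : ContDiff ℝ m (fun y => f (y + b)) :=
    (hf.of_le (by exact_mod_cast le_top)).comp (by fun_prop)
  have := iteratedDeriv_comp_const_mul h1 a
  rw [this, iteratedDeriv_comp_add_const]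

/-- the basic recursion for the derivatives of `sig` -/
lemma iteratedDeriv_succ_sig (m : ℕ) (x : ℝ) :
    iteratedDeriv (m + 1) sig x =
      2 ^ (m + 1) * (iteratedDeriv m sig (2 * x) - iteratedDeriv m sig (2 * x - 1)) := by
  rw [iteratedDeriv_succ', deriv_sig]
  have c : ∀ a b : ℝ, ContDiff ℝ ∞ (fun x => sig (a * x + b)) := fun a b =>
    sig_contDiff.comp (by fun_prop)
  have e : (fun x => 2 * sig (2 * x) - 2 * sig (2 * x - 1)) =
      (fun x => 2 * sig (2 * x + 0)) - (fun x => 2 * sig (2 * x + (-1))) := by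
    funext x; simp [sub_eq_add_neg]
  have cm : ∀ a b : ℝ, ContDiffAt ℝ m (fun x => sig (a * x + b)) x := fun a b =>
    ((c a b).of_le (by exact_mod_cast le_top)).contDiffAt
  rw [e, iteratedDeriv_sub (contDiffAt_const.mul (cm 2 0)) (contDiffAt_const.mul (cm 2 (-1))),
    iteratedDeriv_const_mul_field, iteratedDeriv_const_mul_field,
    iteratedDeriv_comp_affine sig_contDiff, iteratedDeriv_comp_affine sig_contDiff]
  simp only [add_zero, ← sub_eq_add_neg]
  ring

lemma iteratedDeriv_sig_left : ∀ (m : ℕ) {x : ℝ}, x ≤ 0 → iteratedDeriv m sig x = 0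
  | 0, x, hx => by simpa using sig_left hx
  | m + 1, x, hx => by
      rw [iteratedDeriv_succ_sig, iteratedDeriv_sig_left m (by linarith),
        iteratedDeriv_sig_left m (by linarith)]
      simp

lemma iteratedDeriv_sig_right : ∀ (m : ℕ) {x : ℝ}, 1 ≤ x → iteratedDeriv (m + 1) sig x = 0
  | 0, x, hx => by
      rw [iteratedDeriv_succ_sig]
      simp [sig_right (show (1:ℝ) ≤ 2 * x by linarith), sig_right (show (1:ℝ) ≤ 2 * x - 1 by linarith)]
  | m + 1, x, hx => by
      rw [iteratedDeriv_succ_sig, iteratedDeriv_sig_right m (by linarith),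
        iteratedDeriv_sig_right m (by linarith)]
      simp

/-- the bound for the `m`-th derivative -/
def sigB : ℕ → ℕ
  | 0 => 1
  | m + 1 => 2 ^ (m + 1) * sigB m

lemma iteratedDeriv_sig_bound : ∀ (m : ℕ) (x : ℝ), |iteratedDeriv m sig x| ≤ (sigB m : ℝ)
  | 0, x => by
      simp only [iteratedDeriv_zero, sigB, Nat.cast_one]
      rw [abs_of_nonneg (sig_nonneg x)]; exact sig_le_one x
  | 1, x => by
      rw [iteratedDeriv_succ_sig]
      simp only [iteratedDeriv_zero, sigB]
      have h1 := sig_mem (2 * x)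
      have h2 := sig_mem (2 * x - 1)
      rw [abs_le]
      norm_num
      constructor <;> linarith [h1.1, h1.2, h2.1, h2.2]
  | m + 2, x => by
      rw [iteratedDeriv_succ_sig]
      have ih := iteratedDeriv_sig_bound (m + 1)
      have hp : (0:ℝ) < 2 ^ (m + 1 + 1) := by positivity
      have : (sigB (m + 2) : ℝ) = 2 ^ (m + 1 + 1) * (sigB (m + 1) : ℝ) := by
        simp [sigB]
      rw [this, abs_mul, abs_of_pos hp]
      apply mul_le_mul_of_nonneg_left _ hp.le
      rcases le_total x (1 / 2) with h | h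
      · rw [iteratedDeriv_sig_left (m + 1) (show 2 * x - 1 ≤ 0 by linarith), sub_zero]
        exact ih _
      · rw [iteratedDeriv_sig_right m (show 1 ≤ 2 * x by linarith), zero_sub, abs_neg]
        exact ih _

end Crest.Agent.S0170.Sigma
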