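import Crest.Agent.S0170_Sigma

/-!
# Exact formulas for the Fabius-type step `sig`

* `deriv_formula`: all derivatives of `sig` at a rational point are a rational multiple of a
  difference of two values of `sig` at rational points (obtained by iterating the map `D`).
* `fk_formula`: the approximants `fk k` are explicit splines.
-/

set_option autoImplicit false
open scoped ContDiff Topology
open Filter Set

namespace Crest.Agent.S0170.Sigma

/-- the doubling map with sign -/
def D (p : ℚ × ℚ) : ℚ × ℚ := if p.2 ≤ 1 / 2 then (p.1, 2 * p.2) else (-p.1, 2 * p.2 - 1)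

theorem deriv_formula : ∀ (m : ℕ) (s q : ℚ),
    (s : ℝ) * iteratedDeriv (m + 1) sig (q : ℝ) =
      (sigB (m + 1) : ℝ) * ((D^[m] (s, q)).1 : ℝ) *
        (sig (2 * ((D^[m] (s, q)).2 : ℝ)) - sig (2 * ((D^[m] (s, q)).2 : ℝ) - 1))
  | 0, s, q => by
      rw [iteratedDeriv_succ_sig]
      simp [sigB]
      ring
  | m + 1, s, q => by
      rw [iteratedDeriv_succ_sig, Function.iterate_succ_apply]
      have hB : (sigB (m + 1 + 1) : ℝ) = 2 ^ (m + 1 + 1) * (sigB (m + 1) : ℝ) := by
        simp [sigB]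
      by_cases h : q ≤ 1 / 2
      · have hD : D (s, q) = (s, 2 * q) := by unfold D; rw [if_pos h]
        have hr : (2 : ℝ) * (q : ℝ) - 1 ≤ 0 := by
          have : (q : ℝ) ≤ ((1 / 2 : ℚ) : ℝ) := by exact_mod_cast h
          push_cast at this
          linarith
        rw [hD, iteratedDeriv_sig_left (m + 1) hr, sub_zero, hB]
        have ih := deriv_formula m s (2 * q)
        push_cast at ih
        calc (s : ℝ) * (2 ^ (m + 1 + 1) * iteratedDeriv (m + 1) sig (2 * (q : ℝ)))
            = 2 ^ (m + 1 + 1) * ((s : ℝ) * iteratedDeriv (m + 1) sig (2 * (q : ℝ))) := by ring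
          _ = _ := by rw [ih]; ring
      · have hD : D (s, q) = (-s, 2 * q - 1) := by unfold D; rw [if_neg h]
        have hr : (1 : ℝ) ≤ 2 * (q : ℝ) := by
          have : ((1 / 2 : ℚ) : ℝ) < (q : ℝ) := by exact_mod_cast not_le.1 h
          push_cast at this
          linarith
        rw [hD, iteratedDeriv_sig_right m hr, zero_sub, hB]
        have ih := deriv_formula m (-s) (2 * q - 1)
        push_cast at ih
        calc (s : ℝ) * (2 ^ (m + 1 + 1) * -iteratedDeriv (m + 1) sig (2 * (q : ℝ) - 1))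
            = 2 ^ (m + 1 + 1) * (-(s : ℝ) * iteratedDeriv (m + 1) sig (2 * (q : ℝ) - 1)) := by ring
          _ = _ := by rw [ih]; ring

/-! ### truncated powers -/

/-- truncated power `(y₊)^m` -/
noncomputable def pp (m : ℕ) (y : ℝ) : ℝ := (max y 0) ^ m

lemma pp_continuous (m : ℕ) : Continuous (pp m) := by unfold pp; fun_prop

lemma hasDerivAt_pp (m : ℕ) (y : ℝ) :
    HasDerivAt (pp (m + 2)) ((m + 2 : ℝ) * pp (m + 1) y) y := by
  rcases lt_trichotomy y 0 with h | h | h
  · have e : pp (m + 2) =ᶠ[𝓝 y] fun _ => (0 : ℝ) := by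
      filter_upwards [Iio_mem_nhds h] with z hz
      simp [pp, max_eq_right (le_of_lt (show z < 0 from hz))]
    have : pp (m + 1) y = 0 := by simp [pp, max_eq_right h.le]
    rw [this, mul_zero]
    exact (hasDerivAt_const y (0 : ℝ)).congr_of_eventuallyEq e
  · subst h
    have : pp (m + 1) 0 = 0 := by simp [pp]
    rw [this, mul_zero]
    have hl : HasDerivWithinAt (pp (m + 2)) 0 (Iic 0) 0 :=
      (hasDerivWithinAt_const (0 : ℝ) (Iic 0) (0 : ℝ)).congr
        (fun z hz => by simp [pp, max_eq_right (show z ≤ 0 from hz)]) (by simp [pp])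
    have hr : HasDerivWithinAt (pp (m + 2)) 0 (Ici 0) 0 := by
      have h1 : HasDerivWithinAt (fun z : ℝ => z ^ (m + 2)) 0 (Ici 0) 0 := by
        have := (hasDerivAt_pow (m + 2) (0 : ℝ)).hasDerivWithinAt (s := Ici 0)
        simpa using this
      exact h1.congr (fun z hz => by simp [pp, max_eq_left (show 0 ≤ z from hz)]) (by simp [pp])
    have := hl.union hr
    rwa [Iic_union_Ici, hasDerivWithinAt_univ] at this
  · have e : pp (m + 2) =ᶠ[𝓝 y] fun z => z ^ (m + 2) := by
      filter_upwards [Ioi_mem_nhds h] with z hz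
      simp [pp, max_eq_left (le_of_lt (show 0 < z from hz))]
    have : pp (m + 1) y = y ^ (m + 1) := by simp [pp, max_eq_left h.le]
    rw [this]
    have h1 := hasDerivAt_pow (m + 2) y
    simp only [Nat.add_succ_sub_one] at h1
    push_cast at h1
    exact h1.congr_of_eventuallyEq e

/-- `T` of a rescaled truncated power -/
lemma T_pp (m : ℕ) {c : ℝ} (hc : 0 < c) (s x : ℝ) :
    T (fun v => pp (m + 1) (c * v - s)) x =
      (pp (m + 2) (2 * c * x - s) - pp (m + 2) (2 * c * x - (s + c))) / (c * (m + 2)) := by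
  unfold T
  have hm : (0 : ℝ) < (m : ℝ) + 2 := by positivity
  have hd : ∀ v ∈ Set.uIcc (2 * x - 1) (2 * x),
      HasDerivAt (fun v => pp (m + 2) (c * v - s) / (c * (m + 2))) (pp (m + 1) (c * v - s)) v := by
    intro v _
    have h1 : HasDerivAt (fun v : ℝ => c * v - s) c v := by
      simpa using ((hasDerivAt_id v).const_mul c).sub_const s
    have h2 := ((hasDerivAt_pp m (c * v - s)).comp v h1).div_const (c * (m + 2))
    have e : (m + 2 : ℝ) * pp (m + 1) (c * v - s) * c / (c * (m + 2)) = pp (m + 1) (c * v - s) := by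
      field_simp
    rw [e] at h2
    exact h2
  rw [intervalIntegral.integral_eq_sub_of_hasDerivAt hd
    (((pp_continuous (m + 1)).comp (by fun_prop)).intervalIntegrable _ _)]
  rw [← sub_div]
  congr 2
  · congr 1; ring
  · congr 1; ring


/-- sum of truncated powers over a list of integer shifts -/
noncomputable def SS (m : ℕ) (L : List ℕ) (z : ℝ) : ℝ := (L.map fun s : ℕ => pp m (z - s)).sum

lemma SS_nil (m : ℕ) (z : ℝ) : SS m [] z = 0 := rfl

lemma SS_cons (m : ℕ) (s : ℕ) (L : List ℕ) (z : ℝ) : SS m (s :: L) z = pp m (z - s) + SS m L z := by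
  simp [SS]

lemma SS_append (m : ℕ) (L L' : List ℕ) (z : ℝ) : SS m (L ++ L') z = SS m L z + SS m L' z := by
  simp [SS]

lemma SS_map_add (m : ℕ) (L : List ℕ) (c : ℕ) (z : ℝ) :
    SS m (L.map (· + c)) z = SS m L (z - c) := by
  induction L with
  | nil => rfl
  | cons s L ih =>
      rw [List.map_cons, SS_cons, SS_cons, ih]
      congr 2
      push_cast; ring

lemma SS_continuous (m : ℕ) (L : List ℕ) : Continuous (SS m L) := by
  induction L with
  | nil => exact continuous_const
  | cons s L ih =>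
      have : SS m (s :: L) = fun z => pp m (z - s) + SS m L z := funext (SS_cons m s L)
      rw [this]
      exact ((pp_continuous m).comp (by fun_prop)).add ih

lemma T_add {f g : ℝ → ℝ} (hf : Continuous f) (hg : Continuous g) (x : ℝ) :
    T (fun v => f v + g v) x = T f x + T g x := by
  unfold T
  exact intervalIntegral.integral_add (hf.intervalIntegrable _ _) (hg.intervalIntegrable _ _)

lemma T_sub {f g : ℝ → ℝ} (hf : Continuous f) (hg : Continuous g) (x : ℝ) :
    T (fun v => f v - g v) x = T f x - T g x := by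
  unfold T
  exact intervalIntegral.integral_sub (hf.intervalIntegrable _ _) (hg.intervalIntegrable _ _)

lemma T_div_const (f : ℝ → ℝ) (c x : ℝ) : T (fun v => f v / c) x = T f x / c := by
  unfold T
  exact intervalIntegral.integral_div _ _

lemma T_SS (m : ℕ) (c : ℕ) (hc : 0 < c) (L : List ℕ) (x : ℝ) :
    T (fun v => SS (m + 1) L (c * v)) x =
      (SS (m + 2) L (2 * c * x) - SS (m + 2) (L.map (· + c)) (2 * c * x)) / (c * (m + 2)) := by
  have hc' : (0 : ℝ) < c := by exact_mod_cast hc
  induction L with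
  | nil =>
      simp only [List.map_nil, SS_nil, sub_zero, zero_div]
      exact T_const_on (fun _ _ => rfl)
  | cons s L ih =>
      have e : (fun v : ℝ => SS (m + 1) (s :: L) (c * v)) =
          fun v => pp (m + 1) (c * v - s) + SS (m + 1) L (c * v) := by
        funext v; rw [SS_cons]
      have c1 : Continuous fun v : ℝ => pp (m + 1) (c * v - s) :=
        (pp_continuous _).comp (by fun_prop)
      have c2 : Continuous fun v : ℝ => SS (m + 1) L (c * v) :=
        (SS_continuous _ _).comp (by fun_prop)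
      rw [e, T_add c1 c2, ih, T_pp m hc', List.map_cons, SS_cons, SS_cons]
      push_cast
      ring

/-- positive and negative shifts -/
def PN : ℕ → List ℕ × List ℕ
  | 0 => ([0], [1])
  | k + 1 => ((PN k).1 ++ (PN k).2.map (· + 2 ^ k), (PN k).2 ++ (PN k).1.map (· + 2 ^ k))

/-- the denominators -/
def Gam : ℕ → ℕ
  | 0 => 1
  | k + 1 => Gam k * (2 ^ k * (k + 2))

lemma Gam_pos : ∀ k, 0 < Gam k
  | 0 => Nat.one_pos
  | k + 1 => Nat.mul_pos (Gam_pos k) (by positivity)

theorem fk_formula : ∀ (k : ℕ) (x : ℝ),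
    fk k x = (SS (k + 1) (PN k).1 (2 ^ k * x) - SS (k + 1) (PN k).2 (2 ^ k * x)) / Gam k
  | 0, x => by
      simp only [fk, PN, Gam, SS, pp]
      simp only [List.map_cons, List.map_nil, List.sum_cons, List.sum_nil]
      norm_num
      rcases le_total x 0 with h | h
      · rw [min_eq_left (by linarith), max_eq_left h, max_eq_right h,
          max_eq_right (show x - 1 ≤ 0 by linarith)]
        simp
      · rcases le_total x 1 with h1 | h1
        · rw [min_eq_left h1, max_eq_right h, max_eq_left h,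
            max_eq_right (show x - 1 ≤ 0 by linarith)]
          simp
        · rw [min_eq_right h1, max_eq_right zero_le_one, max_eq_left h,
            max_eq_left (show 0 ≤ x - 1 by linarith)]
          ring
  | k + 1, x => by
      have ih : fk k = fun v => ((fun v => SS (k + 1) (PN k).1 (((2 ^ k : ℕ) : ℝ) * v)) v -
          (fun v => SS (k + 1) (PN k).2 (((2 ^ k : ℕ) : ℝ) * v)) v) / Gam k := by
        funext v; rw [fk_formula k v]; push_cast; rfl
      have hG : (0 : ℝ) < Gam k := by exact_mod_cast Gam_pos k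
      show T (fk k) x = _
      have c1 : Continuous fun v : ℝ => SS (k + 1) (PN k).1 (((2 ^ k : ℕ) : ℝ) * v) :=
        (SS_continuous _ _).comp (by fun_prop)
      have c2 : Continuous fun v : ℝ => SS (k + 1) (PN k).2 (((2 ^ k : ℕ) : ℝ) * v) :=
        (SS_continuous _ _).comp (by fun_prop)
      rw [ih, T_div_const, T_sub c1 c2, T_SS k _ (by positivity), T_SS k _ (by positivity)]
      simp only [PN, Gam, SS_append]
      have e : (2 : ℝ) * ((2 ^ k : ℕ) : ℝ) * x = 2 ^ (k + 1) * x := by push_cast; ring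
      rw [e]
      push_cast
      field_simp
      ring

/-- natural-number version of `SS` -/
def SN (m : ℕ) (L : List ℕ) (a : ℕ) : ℕ := (L.map fun s : ℕ => (a - s) ^ m).sum

lemma SS_natCast (m : ℕ) (L : List ℕ) (a : ℕ) : SS m L (a : ℝ) = (SN m L a : ℝ) := by
  induction L with
  | nil => simp [SS, SN]
  | cons s L ih =>
      rw [SS_cons, ih]
      simp only [SN, List.map_cons, List.sum_cons, Nat.cast_add, Nat.cast_pow]
      congr 1
      unfold pp
      congr 1
      rcases le_total s a with h | h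
      · rw [Nat.cast_sub h, max_eq_left]
        have : (s : ℝ) ≤ a := by exact_mod_cast h
        linarith
      · rw [Nat.sub_eq_zero_of_le h, max_eq_right]
        · simp
        · have : (a : ℝ) ≤ s := by exact_mod_cast h
          linarith

/-- values of the approximants at dyadic points -/
theorem fk_dyadic (k a : ℕ) :
    fk k ((a : ℝ) / 2 ^ k) =
      ((SN (k + 1) (PN k).1 a : ℝ) - (SN (k + 1) (PN k).2 a : ℝ)) / (Gam k : ℝ) := by
  rw [fk_formula, mul_div_cancel₀ _ (by positivity), SS_natCast, SS_natCast]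

/-- the rational approximation of `sig q` used by the evaluator -/
def sigApprox (q : ℚ) (n : ℕ) : ℚ :=
  if q ≤ 0 then 0 else
    ((SN (n + 4) (PN (n + 3)).1 ⌈|q * ((2 ^ (n + 3) : ℕ) : ℚ)|⌉₊ : ℚ) -
      (SN (n + 4) (PN (n + 3)).2 ⌈|q * ((2 ^ (n + 3) : ℕ) : ℚ)|⌉₊ : ℚ)) / (Gam (n + 3) : ℚ)

theorem sigApprox_spec (q : ℚ) (n : ℕ) : |sig (q : ℝ) - (sigApprox q n : ℝ)| ≤ 1 / ((n : ℝ) + 1) := by
  unfold sigApprox
  have hn : (0 : ℝ) < (n : ℝ) + 1 := by positivity
  split_ifs with h
  · rw [sig_left (by exact_mod_cast h)]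
    simp only [Rat.cast_zero, sub_zero, abs_zero]
    positivity
  · push Not at h
    set k := n + 3 with hk
    set a := ⌈|q * ((2 ^ k : ℕ) : ℚ)|⌉₊ with ha
    have e : (((((SN (n + 4) (PN k).1 a : ℕ) : ℚ) - ((SN (n + 4) (PN k).2 a : ℕ) : ℚ)) /
        ((Gam k : ℕ) : ℚ) : ℚ) : ℝ) = fk k ((a : ℝ) / 2 ^ k) := by
      rw [fk_dyadic]; push_cast; rfl
    rw [e]
    have hp : (0 : ℝ) < 2 ^ k := by positivity
    -- `a / 2^k` is within `1/2^k` of `q`
    have hq : (0 : ℚ) ≤ q * ((2 ^ k : ℕ) : ℚ) := by positivity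
    have h1 : q * ((2 ^ k : ℕ) : ℚ) ≤ (a : ℚ) := by
      have := Nat.le_ceil (|q * ((2 ^ k : ℕ) : ℚ)|)
      rw [← ha] at this
      rwa [abs_of_nonneg hq] at this
    have h2 : (a : ℚ) < q * ((2 ^ k : ℕ) : ℚ) + 1 := by
      have := Nat.ceil_lt_add_one (abs_nonneg (q * ((2 ^ k : ℕ) : ℚ)))
      rw [← ha] at this
      rwa [abs_of_nonneg hq] at this
    have h1' : (q : ℝ) * 2 ^ k ≤ (a : ℝ) := by
      have : ((q * ((2 ^ k : ℕ) : ℚ) : ℚ) : ℝ) ≤ ((a : ℚ) : ℝ) := by exact_mod_cast h1
      push_cast at this; exact this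
    have h2' : (a : ℝ) < (q : ℝ) * 2 ^ k + 1 := by
      have : ((a : ℚ) : ℝ) < ((q * ((2 ^ k : ℕ) : ℚ) + 1 : ℚ) : ℝ) := by exact_mod_cast h2
      push_cast at this; exact this
    have hd : |(q : ℝ) - (a : ℝ) / 2 ^ k| ≤ 1 / 2 ^ k := by
      rw [abs_le]
      constructor
      · have : (a : ℝ) / 2 ^ k ≤ (q : ℝ) + 1 / 2 ^ k := by
          rw [div_le_iff₀ hp, add_mul, one_div, inv_mul_cancel₀ hp.ne']; linarith
        linarith
      · have : (q : ℝ) ≤ (a : ℝ) / 2 ^ k := by rw [le_div_iff₀ hp]; exact h1'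
        have : (0:ℝ) ≤ 1 / 2 ^ k := by positivity
        linarith
    have t1 := sig_lip (q : ℝ) ((a : ℝ) / 2 ^ k)
    have t2 := fk_sig_dist k ((a : ℝ) / 2 ^ k)
    have t3 : |sig (q : ℝ) - fk k ((a : ℝ) / 2 ^ k)| ≤ 6 / 2 ^ k := by
      have : sig (q : ℝ) - fk k ((a : ℝ) / 2 ^ k) =
          (sig (q : ℝ) - sig ((a : ℝ) / 2 ^ k)) - (fk k ((a : ℝ) / 2 ^ k) - sig ((a : ℝ) / 2 ^ k)) := by
        ring
      rw [this]
      refine (abs_sub _ _).trans ?_
      have : (6 : ℝ) / 2 ^ k = 2 * (1 / 2 ^ k) + 4 / 2 ^ k := by ring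
      rw [this]
      nlinarith
    refine t3.trans ?_
    rw [div_le_div_iff₀ hp hn]
    have h3 : ((n : ℝ) + 1) ≤ 2 ^ n := by
      have : n + 1 ≤ 2 ^ n := Nat.lt_two_pow_self
      exact_mod_cast this
    have : (2 : ℝ) ^ k = 8 * 2 ^ n := by rw [hk, pow_add]; ring
    rw [this]
    linarith

end Crest.Agent.S0170.Sigma
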